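import Vale.Agent.P006.FINE.Lap2
import Mathlib.Analysis.Calculus.ParametricIntegral

/-!
# P006, block FINE-K: `(t d/dt) V^o = - (D1 V)^o`
-/

open MeasureTheory Set Real
open Vale.Agent.P006.PO
open scoped ContDiff SchwartzMap FourierTransform

namespace Vale.Agent.P006.FINE

/-- `Vo V (x e^v)` as an integral with the exponential in the weight -/
theorem Vo_exp (V : ℝ → ℂ) {x : ℝ} (hx : 0 ≤ x) (v : ℝ) :
    Vo V (x * Real.exp v) = (Real.exp (-v) : ℝ) *
      ∫ z : ℂ, eT (-(z * (Real.sqrt x : ℝ))) * V (Real.exp (-v) * ‖z‖ ^ 2) := by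
  have h := Vo_scale V (B := Real.exp v) (Real.exp_pos v) hx
  have h2 : Vo (fun x => V (x / Real.exp v)) x =
      ∫ z : ℂ, eT (-(z * (Real.sqrt x : ℝ))) * V (Real.exp (-v) * ‖z‖ ^ 2) := by
    rw [Vo, FT]
    congr 1
    funext z
    rw [rad, Real.exp_neg]
    congr 2
    rw [div_eq_mul_inv, mul_comm]
  rw [← h2, h, mul_comm x, ← mul_assoc, ← Complex.ofReal_mul, ← Real.exp_add]
  simp

theorem hasDerivAt_Vo_exp {V : ℝ → ℂ} (h : Wt V) {x : ℝ} (hx : 0 ≤ x) (v : ℝ) :
    HasDerivAt (fun v => Vo V (x * Real.exp v)) (-Vo (D1 V) (x * Real.exp v)) v := by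
  have hV : ∀ u, HasDerivAt V (deriv V u) u := fun u =>
    (h.smooth.differentiable (by simp) u).hasDerivAt
  obtain ⟨B, hB, hs⟩ := h.exists_bound
  have hs' : ∀ u, B < |u| → deriv V u = 0 := by
    intro u hu
    have ho : IsOpen {u : ℝ | B < |u|} := isOpen_lt continuous_const (by fun_prop)
    have he : V =ᶠ[nhds u] fun _ => 0 := by
      filter_upwards [ho.mem_nhds hu] with v hv
      exact hs v hv
    rw [he.deriv_eq]
    simp
  obtain ⟨C, hC⟩ := (wt_deriv h).supp.exists_bound_of_continuous
    (wt_deriv h).smooth.continuous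
  have hC0 : 0 ≤ C := (norm_nonneg _).trans (hC 0)
  set s : ℂ := ((Real.sqrt x : ℝ) : ℂ) with hs0
  set F : ℝ → ℂ → ℂ := fun v z => eT (-(z * s)) * V (Real.exp (-v) * ‖z‖ ^ 2) with hF
  set F' : ℝ → ℂ → ℂ := fun v z =>
    eT (-(z * s)) * ((-(Real.exp (-v) * ‖z‖ ^ 2) : ℝ) * deriv V (Real.exp (-v) * ‖z‖ ^ 2)) with hF'
  have hFc : ∀ v, Continuous (F v) := by
    intro v
    have h1 := h.smooth.continuous
    have h2 := continuous_eT
    simp only [hF]
    fun_prop
  have hF'c : ∀ v, Continuous (F' v) := by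
    intro v
    have h1 := (wt_deriv h).smooth.continuous
    have h2 := continuous_eT
    simp only [hF']
    fun_prop
  set ρ : ℝ := Real.sqrt (B * Real.exp (v + 1)) with hρ
  have hsmall : ∀ w ∈ Metric.ball v 1, ∀ z : ℂ, ρ < ‖z‖ → B < |Real.exp (-w) * ‖z‖ ^ 2| := by
    intro w hw z hz
    rw [abs_of_nonneg (by positivity)]
    rw [Metric.mem_ball, Real.dist_eq, abs_lt] at hw
    have h1 : B * Real.exp (v + 1) < ‖z‖ ^ 2 := by
      calc B * Real.exp (v + 1) = ρ ^ 2 := (Real.sq_sqrt (by positivity)).symm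
        _ < ‖z‖ ^ 2 := by
          have : 0 ≤ ρ := Real.sqrt_nonneg _
          gcongr
    have h2 : Real.exp (-w) * Real.exp w = 1 := by rw [← Real.exp_add]; simp
    have h3 : Real.exp w < Real.exp (v + 1) := Real.exp_lt_exp.2 (by linarith)
    calc B = Real.exp (-w) * (B * Real.exp w) := by
            rw [show Real.exp (-w) * (B * Real.exp w) = B * (Real.exp (-w) * Real.exp w) by ring,
              h2, mul_one]
      _ < Real.exp (-w) * ‖z‖ ^ 2 := by
          apply mul_lt_mul_of_pos_left _ (Real.exp_pos _)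
          nlinarith
  have hint : Integrable (F v) := by
    have h1 : HasCompactSupport (F v) := by
      refine HasCompactSupport.intro (isCompact_closedBall (0 : ℂ) ρ) fun z hz => ?_
      rw [mem_closedBall_zero_iff, not_le] at hz
      simp only [hF]
      rw [hs _ (hsmall v (Metric.mem_ball_self one_pos) z hz), mul_zero]
    exact (hFc v).integrable_of_hasCompactSupport h1
  have key := hasDerivAt_integral_of_dominated_loc_of_deriv_le (μ := volume) (F := F) (F' := F')
    (x₀ := v) (s := Metric.ball v 1)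
    (bound := (Metric.closedBall (0 : ℂ) ρ).indicator fun _ => B * C)
    (Metric.ball_mem_nhds v one_pos)
    (Filter.Eventually.of_forall fun w => (hFc w).aestronglyMeasurable) hint
    (hF'c v).aestronglyMeasurable
    (by
      refine Filter.Eventually.of_forall fun z w hw => ?_
      by_cases hz : z ∈ Metric.closedBall (0 : ℂ) ρ
      · rw [indicator_of_mem hz]
        simp only [hF']
        rw [norm_mul, norm_eT, one_mul, norm_mul, Complex.norm_real, norm_neg, Real.norm_eq_abs]
        by_cases hu : B < |Real.exp (-w) * ‖z‖ ^ 2|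
        · rw [hs' _ hu]; simp; positivity
        · push Not at hu
          exact mul_le_mul hu (hC _) (norm_nonneg _) hB.le
      · rw [indicator_of_notMem hz]
        rw [mem_closedBall_zero_iff, not_le] at hz
        simp only [hF']
        rw [hs' _ (hsmall w hw z hz)]
        simp)
    (by
      rw [integrable_indicator_iff measurableSet_closedBall]
      exact integrableOn_const (by
        rw [Complex.volume_closedBall]; exact ENNReal.mul_ne_top (by finiteness) (by finiteness)))
    (by
      refine Filter.Eventually.of_forall fun z w _ => ?_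
      have h1 : HasDerivAt (fun w : ℝ => Real.exp (-w) * ‖z‖ ^ 2)
          (-(Real.exp (-w) * ‖z‖ ^ 2)) w := by
        have := ((hasDerivAt_id w).neg.exp).mul_const (‖z‖ ^ 2)
        simpa using this
      have h2 := (hV (Real.exp (-w) * ‖z‖ ^ 2)).scomp w h1
      have h3 := h2.const_mul (eT (-(z * s)))
      rw [Complex.real_smul] at h3
      exact h3)
  have h4 : HasDerivAt (fun v : ℝ => ((Real.exp (-v) : ℝ) : ℂ)) (-(Real.exp (-v) : ℝ) : ℂ) v := by
    have := ((hasDerivAt_id v).neg.exp).ofReal_comp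
    simpa using this
  have h5 := h4.mul key.2
  have h6 : (fun v => Vo V (x * Real.exp v)) =
      (fun v : ℝ => ((Real.exp (-v) : ℝ) : ℂ)) * fun v => ∫ z, F v z := by
    funext w
    rw [Vo_exp V hx w]
    rfl
  rw [h6]
  have h7 : -Vo (D1 V) (x * Real.exp v) =
      -((Real.exp (-v) : ℝ) : ℂ) * (∫ z, F v z) + ((Real.exp (-v) : ℝ) : ℂ) * ∫ z, F' v z := by
    have hint' := key.1
    rw [Vo_exp _ hx v]
    have h8 : (∫ z : ℂ, eT (-(z * s)) * D1 V (Real.exp (-v) * ‖z‖ ^ 2)) =
        (∫ z, F v z) - ∫ z, F' v z := by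
      rw [← integral_sub hint hint']
      congr 1
      funext z
      simp only [hF, hF']
      rw [D1_apply h.smooth]
      push_cast
      ring
    rw [h8]
    ring
  rw [h7]
  exact h5

end Vale.Agent.P006.FINE
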