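import Vale.Agent.P006.FINE.Bessel
import Vale.Agent.P006.H485.Radial
import Mathlib.Analysis.SpecialFunctions.PolarCoord

/-!
# P006, block FINE-K: first bound of `V^o` for weights in a thin annulus
-/

open MeasureTheory Set Real
open Vale.Agent.P006.PO

namespace Vale.Agent.P006.FINE

theorem eT_polar (r θ s : ℝ) :
    eT (-(Complex.polarCoord.symm (r, θ) * (s : ℂ))) =
      Complex.exp (Complex.I * (((-(4 * π * r * s)) * Real.cos θ : ℝ) : ℂ)) := by
  rw [eT, e, TrC]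
  congr 1
  rw [Complex.polarCoord_symm_apply]
  simp
  ring

theorem norm_eT (z : ℂ) : ‖eT z‖ = 1 := by
  rw [eT, e]
  have : (2 * (π : ℂ) * Complex.I * ((TrC z : ℝ) : ℂ)) = ((2 * π * TrC z : ℝ) : ℂ) * Complex.I := by
    push_cast; ring
  rw [this, Complex.norm_exp_ofReal_mul_I]

/-- polar coordinates -/
theorem Vo_polar {V : ℝ → ℂ} (hc : Continuous V) {B : ℝ} (hB : 0 < B)
    (hs : ∀ u, B < |u| → V u = 0) (t : ℝ) :
    Vo V t = ∫ r in Ioi (0 : ℝ), (r : ℂ) * V (r ^ 2) * circ (-(4 * π * r * Real.sqrt t)) := by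
  rw [Vo, FT, ← Complex.integral_comp_polarCoord_symm]
  set ρ : ℝ := Real.sqrt B with hρ
  have hρ0 : 0 < ρ := Real.sqrt_pos.2 hB
  have hfun : ∀ p : ℝ × ℝ, (p.1 • (eT (-(Complex.polarCoord.symm p * ((Real.sqrt t : ℝ) : ℂ))) *
      rad V (Complex.polarCoord.symm p)) : ℂ) =
      (p.1 : ℂ) * V (p.1 ^ 2) *
        Complex.exp (Complex.I * (((-(4 * π * p.1 * Real.sqrt t)) * Real.cos p.2 : ℝ) : ℂ)) := by
    intro p
    rw [← eT_polar, rad, Complex.norm_polarCoord_symm, sq_abs, Complex.real_smul]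
    ring
  simp only [hfun]
  rw [polarCoord_target]
  have hcont : Continuous fun p : ℝ × ℝ => (p.1 : ℂ) * V (p.1 ^ 2) *
        Complex.exp (Complex.I * (((-(4 * π * p.1 * Real.sqrt t)) * Real.cos p.2 : ℝ) : ℂ)) := by
    fun_prop
  have hint : IntegrableOn (fun p : ℝ × ℝ => (p.1 : ℂ) * V (p.1 ^ 2) *
        Complex.exp (Complex.I * (((-(4 * π * p.1 * Real.sqrt t)) * Real.cos p.2 : ℝ) : ℂ)))
        (Ioi 0 ×ˢ Ioo (-π) π) := by
    have hK : IntegrableOn (fun p : ℝ × ℝ => (p.1 : ℂ) * V (p.1 ^ 2) *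
        Complex.exp (Complex.I * (((-(4 * π * p.1 * Real.sqrt t)) * Real.cos p.2 : ℝ) : ℂ)))
        (Icc (-ρ) ρ ×ˢ Icc (-π) π) :=
      hcont.continuousOn.integrableOn_compact (isCompact_Icc.prod isCompact_Icc)
    refine hK.of_forall_sdiff_eq_zero (measurableSet_Ioi.prod measurableSet_Ioo) ?_
    rintro ⟨r, θ⟩ ⟨h1, h2⟩
    have h3 : ρ < r := by
      by_contra hcon
      push Not at hcon
      exact h2 ⟨⟨by linarith [h1.1.out], hcon⟩, ⟨h1.2.1.le, h1.2.2.le⟩⟩
    have h4 : V (r ^ 2) = 0 := by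
      apply hs
      rw [abs_of_nonneg (by positivity)]
      calc B = ρ ^ 2 := (Real.sq_sqrt hB.le).symm
        _ < r ^ 2 := by gcongr
    simp [h4]
  rw [Measure.volume_eq_prod, setIntegral_prod _ (by rwa [Measure.volume_eq_prod] at hint)]
  apply setIntegral_congr_fun measurableSet_Ioi
  intro r _
  simp only
  rw [integral_const_mul, circ, intervalIntegral.integral_of_le (by linarith [Real.pi_pos]),
    integral_Ioc_eq_integral_Ioo]

theorem quarter {t r : ℝ} (ht : 0 ≤ t) (hr : 1 / 2 ≤ r) :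
    (1 + t) ^ (1 / 4 : ℝ) ≤ Real.sqrt (1 + |-(4 * π * r * Real.sqrt t)|) := by
  have hpi : (3 : ℝ) < π := Real.pi_gt_three
  have h0 : (0 : ℝ) ≤ 4 * π * r * Real.sqrt t := by
    have := Real.pi_pos
    positivity
  rw [abs_neg, abs_of_nonneg h0]
  have h1 : (1 + t) ^ (1 / 4 : ℝ) = Real.sqrt (Real.sqrt (1 + t)) := by
    rw [Real.sqrt_eq_rpow, Real.sqrt_eq_rpow, ← Real.rpow_mul (by positivity)]
    norm_num
  rw [h1]
  apply Real.sqrt_le_sqrt
  rw [Real.sqrt_le_left (by positivity)]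
  have h2 : 1 ≤ 4 * π * r := by nlinarith
  have h3 : Real.sqrt t ^ 2 = t := Real.sq_sqrt ht
  have h4 : 0 ≤ Real.sqrt t := Real.sqrt_nonneg t
  have h5 : Real.sqrt t ≤ 4 * π * r * Real.sqrt t := by nlinarith
  nlinarith

/-- weights supported in a thin annulus `|u - 1| ≤ w` -/
theorem Vo_bound_base {V : ℝ → ℂ} (hc : Continuous V) {w M : ℝ} (hw : 0 < w) (hw2 : w ≤ 1 / 2)
    (hs : ∀ u, w < |u - 1| → V u = 0) (hM : ∀ u, ‖V u‖ ≤ M) {t : ℝ} (ht : 0 ≤ t) :
    ‖Vo V t‖ ≤ 96 * w * M * (1 + t) ^ (-(1 / 4) : ℝ) := by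
  have hM0 : 0 ≤ M := (norm_nonneg _).trans (hM 0)
  have hs2 : ∀ u, (2 : ℝ) < |u| → V u = 0 := by
    intro u hu
    apply hs
    have : |u| ≤ |u - 1| + 1 := by
      calc |u| = |(u - 1) + 1| := by ring_nf
        _ ≤ |u - 1| + |1| := abs_add_le _ _
        _ = |u - 1| + 1 := by simp
    linarith
  rw [Vo_polar hc (by norm_num : (0 : ℝ) < 2) hs2 t]
  have hsub : Icc (1 - w) (1 + w) ⊆ Ioi (0 : ℝ) := by
    intro r hr
    have := hr.1
    simp only [mem_Ioi]
    linarith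
  rw [setIntegral_eq_of_subset_of_forall_sdiff_eq_zero measurableSet_Ioi hsub]
  · have h := norm_setIntegral_le_of_norm_le_const (μ := volume) (s := Icc (1 - w) (1 + w))
      (f := fun r : ℝ => (r : ℂ) * V (r ^ 2) * circ (-(4 * π * r * Real.sqrt t)))
      (C := 48 * M * (1 + t) ^ (-(1 / 4) : ℝ)) (by rw [Real.volume_Icc]; exact ENNReal.ofReal_lt_top)
      (by
        intro r hr
        have hr1 : 1 / 2 ≤ r := by linarith [hr.1]
        have hr2 : r ≤ 3 / 2 := by linarith [hr.2]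
        rw [norm_mul, norm_mul, Complex.norm_real, Real.norm_of_nonneg (by linarith)]
        have h1 := norm_circ_le (-(4 * π * r * Real.sqrt t))
        have h2 := quarter ht hr1
        have h3 : (0 : ℝ) < (1 + t) ^ (1 / 4 : ℝ) := by positivity
        have h4 : 32 / Real.sqrt (1 + |-(4 * π * r * Real.sqrt t)|) ≤
            32 / (1 + t) ^ (1 / 4 : ℝ) := by gcongr
        have h5 : (1 + t) ^ (-(1 / 4) : ℝ) = 1 / (1 + t) ^ (1 / 4 : ℝ) := by
          rw [Real.rpow_neg (by positivity)]; exact (one_div _).symm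
        calc r * ‖V (r ^ 2)‖ * ‖circ (-(4 * π * r * Real.sqrt t))‖
            ≤ 3 / 2 * M * (32 / (1 + t) ^ (1 / 4 : ℝ)) := by
              apply mul_le_mul _ (h1.trans h4) (norm_nonneg _) (by positivity)
              exact mul_le_mul hr2 (hM _) (norm_nonneg _) (by norm_num)
          _ = 48 * M * (1 + t) ^ (-(1 / 4) : ℝ) := by rw [h5]; ring)
    refine h.trans (le_of_eq ?_)
    rw [Measure.real, Real.volume_Icc, ENNReal.toReal_ofReal (by linarith)]
    ring
  · intro r hr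
    have hr0 : (0 : ℝ) < r := hr.1
    have : V (r ^ 2) = 0 := by
      apply hs
      have h1 : w < |r - 1| := by
        by_contra hcon
        push Not at hcon
        rw [abs_le] at hcon
        exact hr.2 ⟨by linarith, by linarith⟩
      have h2 : r ^ 2 - 1 = (r - 1) * (r + 1) := by ring
      rw [h2, abs_mul, abs_of_pos (by linarith : 0 < r + 1)]
      nlinarith [abs_nonneg (r - 1)]
    simp [this]

end Vale.Agent.P006.FINE
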