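import Mathlib.MeasureTheory.Integral.IntervalIntegral.IntegrationByParts
import Mathlib.Analysis.SpecialFunctions.Integrals.Basic
import Mathlib.Analysis.SpecialFunctions.Trigonometric.Bounds
import Mathlib.Analysis.SpecialFunctions.Trigonometric.Deriv
import Mathlib.Analysis.Real.Pi.Bounds

/-!
# P006, block FINE-K: the bound `|J_0(x)| ≤ C x^{-1/2}` in integral form

`circ x = ∫_{-π}^{π} e^{i x cos θ} dθ` satisfies `‖circ x‖ ≤ 40 / √(1+|x|)`.
-/

open MeasureTheory Set Real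

namespace Vale.Agent.P006.FINE

/-- `∫_0^{π/2} e^{i x cos θ} dθ` -/
noncomputable def Iq (x : ℝ) : ℂ :=
  ∫ θ in (0 : ℝ)..(π / 2), Complex.exp (Complex.I * ((x * Real.cos θ : ℝ) : ℂ))

theorem norm_exp_I (y : ℝ) : ‖Complex.exp (Complex.I * (y : ℂ))‖ = 1 := by
  rw [mul_comm]; exact Complex.norm_exp_ofReal_mul_I y

theorem continuous_expcos (x : ℝ) :
    Continuous fun θ : ℝ => Complex.exp (Complex.I * ((x * Real.cos θ : ℝ) : ℂ)) := by
  fun_prop

theorem norm_Iq_le (x : ℝ) : ‖Iq x‖ ≤ π / 2 := by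
  have h := intervalIntegral.norm_integral_le_of_norm_le_const (a := (0 : ℝ)) (b := π / 2)
    (f := fun θ : ℝ => Complex.exp (Complex.I * ((x * Real.cos θ : ℝ) : ℂ))) (C := 1)
    (fun θ _ => (norm_exp_I _).le)
  rw [sub_zero, one_mul, abs_of_pos (by positivity)] at h
  exact h

theorem hasDerivAt_v (x θ : ℝ) :
    HasDerivAt (fun θ : ℝ => Complex.exp (Complex.I * ((x * Real.cos θ : ℝ) : ℂ)))
      (Complex.exp (Complex.I * ((x * Real.cos θ : ℝ) : ℂ)) *
        (Complex.I * ((x * (-Real.sin θ) : ℝ) : ℂ))) θ := by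
  have h1 : HasDerivAt (fun θ : ℝ => x * Real.cos θ) (x * (-Real.sin θ)) θ :=
    (Real.hasDerivAt_cos θ).const_mul x
  have h2 : HasDerivAt (fun θ : ℝ => ((x * Real.cos θ : ℝ) : ℂ)) ((x * (-Real.sin θ) : ℝ) : ℂ) θ :=
    h1.ofReal_comp
  have h3 := (h2.const_mul Complex.I).cexp
  exact h3

theorem hasDerivAt_u {x θ : ℝ} (hx : x ≠ 0) (hs : Real.sin θ ≠ 0) :
    HasDerivAt (fun θ : ℝ => Complex.I * (((x * Real.sin θ)⁻¹ : ℝ) : ℂ))
      (Complex.I * ((-(x * Real.cos θ) / (x * Real.sin θ) ^ 2 : ℝ) : ℂ)) θ := by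
  have h1 : HasDerivAt (fun θ : ℝ => x * Real.sin θ) (x * Real.cos θ) θ :=
    (Real.hasDerivAt_sin θ).const_mul x
  have h2 := h1.inv (mul_ne_zero hx hs)
  exact (h2.ofReal_comp).const_mul Complex.I

theorem integral_cos_div_sin_sq {η : ℝ} (h0 : 0 < η) (h1 : η ≤ π / 2) :
    ∫ θ in η..(π / 2), Real.cos θ / Real.sin θ ^ 2 = 1 / Real.sin η - 1 := by
  have hs : ∀ θ ∈ uIcc η (π / 2), Real.sin θ ≠ 0 := by
    intro θ hθ
    rw [uIcc_of_le h1] at hθ
    exact (Real.sin_pos_of_pos_of_lt_pi (by linarith [hθ.1]) (by linarith [hθ.2, Real.pi_pos])).ne'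
  have h := intervalIntegral.integral_eq_sub_of_hasDerivAt (a := η) (b := π / 2)
    (f := fun θ => -(Real.sin θ)⁻¹) (f' := fun θ => Real.cos θ / Real.sin θ ^ 2)
    (fun θ hθ => by
      have h2 : HasDerivAt (fun θ => -(Real.sin θ)⁻¹) (-(-Real.cos θ / Real.sin θ ^ 2)) θ :=
        ((Real.hasDerivAt_sin θ).inv (hs θ hθ)).neg
      have h3 : -(-Real.cos θ / Real.sin θ ^ 2) = Real.cos θ / Real.sin θ ^ 2 := by ring
      rwa [h3] at h2)
    (by
      apply ContinuousOn.intervalIntegrable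
      exact Real.continuous_cos.continuousOn.div (Real.continuous_sin.pow 2).continuousOn
        (fun θ hθ => pow_ne_zero 2 (hs θ hθ)))
  rw [h, Real.sin_pi_div_two]
  simp
  ring

theorem norm_Iq_le' {x : ℝ} (hx : 1 ≤ |x|) : ‖Iq x‖ ≤ (1 + π) / Real.sqrt |x| := by
  have hx0 : x ≠ 0 := by rintro rfl; simp at hx; linarith
  have hpos : 0 < |x| := by linarith
  set r : ℝ := Real.sqrt |x| with hr
  have hr1 : 1 ≤ r := by
    rw [hr, show (1 : ℝ) = Real.sqrt 1 by simp]; exact Real.sqrt_le_sqrt hx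
  have hr0 : 0 < r := by linarith
  have hrr : r * r = |x| := Real.mul_self_sqrt hpos.le
  set η : ℝ := r⁻¹ with hη
  have hη0 : 0 < η := by positivity
  have hη1 : η ≤ 1 := inv_le_one_of_one_le₀ hr1
  have hpi : (3 : ℝ) < π := Real.pi_gt_three
  have hη2 : η ≤ π / 2 := by linarith
  have hcont := continuous_expcos x
  have hsplit : Iq x = (∫ θ in (0 : ℝ)..η, Complex.exp (Complex.I * ((x * Real.cos θ : ℝ) : ℂ))) +
      ∫ θ in η..(π / 2), Complex.exp (Complex.I * ((x * Real.cos θ : ℝ) : ℂ)) := by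
    rw [Iq, intervalIntegral.integral_add_adjacent_intervals]
    · exact hcont.intervalIntegrable _ _
    · exact hcont.intervalIntegrable _ _
  have hb1 : ‖∫ θ in (0 : ℝ)..η, Complex.exp (Complex.I * ((x * Real.cos θ : ℝ) : ℂ))‖ ≤ η := by
    have h := intervalIntegral.norm_integral_le_of_norm_le_const (a := (0 : ℝ)) (b := η)
      (f := fun θ : ℝ => Complex.exp (Complex.I * ((x * Real.cos θ : ℝ) : ℂ))) (C := 1)
      (fun θ _ => (norm_exp_I _).le)
    rw [sub_zero, one_mul, abs_of_pos hη0] at h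
    exact h
  have hs : ∀ θ ∈ uIcc η (π / 2), 0 < Real.sin θ := by
    intro θ hθ
    rw [uIcc_of_le hη2] at hθ
    exact Real.sin_pos_of_pos_of_lt_pi (by linarith [hθ.1]) (by linarith [hθ.2])
  have hparts := intervalIntegral.integral_mul_deriv_eq_deriv_mul (a := η) (b := π / 2)
    (u := fun θ : ℝ => Complex.I * (((x * Real.sin θ)⁻¹ : ℝ) : ℂ))
    (u' := fun θ : ℝ => Complex.I * ((-(x * Real.cos θ) / (x * Real.sin θ) ^ 2 : ℝ) : ℂ))
    (v := fun θ : ℝ => Complex.exp (Complex.I * ((x * Real.cos θ : ℝ) : ℂ)))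
    (v' := fun θ : ℝ => Complex.exp (Complex.I * ((x * Real.cos θ : ℝ) : ℂ)) *
        (Complex.I * ((x * (-Real.sin θ) : ℝ) : ℂ)))
    (fun θ hθ => hasDerivAt_u hx0 (hs θ hθ).ne') (fun θ _ => hasDerivAt_v x θ)
    (by
      apply ContinuousOn.intervalIntegrable
      apply ContinuousOn.mul continuousOn_const
      apply Complex.continuous_ofReal.comp_continuousOn
      apply ContinuousOn.div
      · fun_prop
      · fun_prop
      · intro θ hθ
        exact pow_ne_zero 2 (mul_ne_zero hx0 (hs θ hθ).ne'))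
    (by
      apply Continuous.intervalIntegrable
      fun_prop)
  have hint : (∫ θ in η..(π / 2), Complex.exp (Complex.I * ((x * Real.cos θ : ℝ) : ℂ))) =
      ∫ θ in η..(π / 2), (Complex.I * (((x * Real.sin θ)⁻¹ : ℝ) : ℂ)) *
        (Complex.exp (Complex.I * ((x * Real.cos θ : ℝ) : ℂ)) *
        (Complex.I * ((x * (-Real.sin θ) : ℝ) : ℂ))) := by
    apply intervalIntegral.integral_congr
    intro θ hθ
    have h1 := (hs θ hθ).ne'
    have h2 : (x : ℂ) * Complex.sin θ ≠ 0 := by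
      rw [← Complex.ofReal_sin, ← Complex.ofReal_mul]
      exact_mod_cast mul_ne_zero hx0 h1
    have h3 : Complex.I * Complex.I = -1 := Complex.I_mul_I
    have h4 : (Complex.I * (((x * Real.sin θ)⁻¹ : ℝ) : ℂ)) *
        (Complex.I * ((x * (-Real.sin θ) : ℝ) : ℂ)) = 1 := by
      push_cast
      have h5 : (x : ℂ) * Complex.sin θ * ((x : ℂ) * Complex.sin θ)⁻¹ = 1 := mul_inv_cancel₀ h2
      linear_combination (-((x : ℂ) * Complex.sin θ * ((x : ℂ) * Complex.sin θ)⁻¹)) * h3 + h5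
    calc Complex.exp (Complex.I * ((x * Real.cos θ : ℝ) : ℂ))
        = (Complex.I * (((x * Real.sin θ)⁻¹ : ℝ) : ℂ)) *
        (Complex.I * ((x * (-Real.sin θ) : ℝ) : ℂ)) *
          Complex.exp (Complex.I * ((x * Real.cos θ : ℝ) : ℂ)) := by rw [h4, one_mul]
      _ = _ := by ring
  have hb2 : ‖∫ θ in η..(π / 2), Complex.exp (Complex.I * ((x * Real.cos θ : ℝ) : ℂ))‖ ≤
      2 / (|x| * Real.sin η) := by
    rw [hint, hparts]
    have hsη : 0 < Real.sin η := hs η left_mem_uIcc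
    have hn : ‖∫ θ in η..(π / 2), Complex.I * ((-(x * Real.cos θ) / (x * Real.sin θ) ^ 2 : ℝ) : ℂ) *
        Complex.exp (Complex.I * ((x * Real.cos θ : ℝ) : ℂ))‖ ≤ (1 / Real.sin η - 1) / |x| := by
      have h4 : ∫ θ in η..(π / 2), (Real.cos θ / Real.sin θ ^ 2) / |x| =
          (1 / Real.sin η - 1) / |x| := by
        rw [intervalIntegral.integral_div, integral_cos_div_sin_sq hη0 hη2]
      rw [← h4]
      apply intervalIntegral.norm_integral_le_of_norm_le hη2
      · refine Filter.Eventually.of_forall fun θ hθ => ?_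
        have hθ' : θ ∈ uIcc η (π / 2) := by
          rw [uIcc_of_le hη2]; exact ⟨hθ.1.le, hθ.2⟩
        have h5 := hs θ hθ'
        have h6 : 0 ≤ Real.cos θ := Real.cos_nonneg_of_neg_pi_div_two_le_of_le
          (by linarith [hθ.1]) hθ.2
        rw [norm_mul, norm_exp_I, mul_one, norm_mul, Complex.norm_I, one_mul, Complex.norm_real,
          Real.norm_eq_abs, abs_div, abs_neg, abs_mul, abs_of_nonneg h6, abs_pow, abs_mul,
          abs_of_pos h5]
        apply le_of_eq
        field_simp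
      · apply ContinuousOn.intervalIntegrable
        apply ContinuousOn.div_const
        exact Real.continuous_cos.continuousOn.div (Real.continuous_sin.pow 2).continuousOn
          (fun θ hθ => pow_ne_zero 2 (hs θ hθ).ne')
    have hA : ‖Complex.I * (((x * Real.sin (π / 2))⁻¹ : ℝ) : ℂ) *
        Complex.exp (Complex.I * ((x * Real.cos (π / 2) : ℝ) : ℂ))‖ = 1 / |x| := by
      rw [norm_mul, norm_exp_I, mul_one, norm_mul, Complex.norm_I, one_mul, Complex.norm_real,
        Real.norm_eq_abs, Real.sin_pi_div_two, mul_one, abs_inv, one_div]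
    have hB : ‖Complex.I * (((x * Real.sin η)⁻¹ : ℝ) : ℂ) *
        Complex.exp (Complex.I * ((x * Real.cos η : ℝ) : ℂ))‖ = 1 / (|x| * Real.sin η) := by
      rw [norm_mul, norm_exp_I, mul_one, norm_mul, Complex.norm_I, one_mul, Complex.norm_real,
        Real.norm_eq_abs, abs_inv, abs_mul, abs_of_pos hsη, one_div]
    calc _ ≤ 1 / |x| + 1 / (|x| * Real.sin η) + (1 / Real.sin η - 1) / |x| := by
            refine (norm_sub_le _ _).trans ?_
            refine add_le_add ((norm_sub_le _ _).trans ?_) hn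
            rw [hA, hB]
      _ = 2 / (|x| * Real.sin η) := by field_simp; ring
  have hsin : 2 / π * η ≤ Real.sin η := Real.mul_le_sin hη0.le hη2
  have hsη : 0 < Real.sin η := hs η left_mem_uIcc
  have hb3 : 2 / (|x| * Real.sin η) ≤ π / r := by
    rw [div_le_div_iff₀ (by positivity) hr0]
    have h7 : π * (|x| * (2 / π * η)) ≤ π * (|x| * Real.sin η) := by gcongr
    have h8 : π * (|x| * (2 / π * η)) = 2 * r := by
      rw [← hrr, hη]; field_simp
    linarith
  calc ‖Iq x‖ ≤ η + 2 / (|x| * Real.sin η) := by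
        rw [hsplit]; exact (norm_add_le _ _).trans (add_le_add hb1 hb2)
    _ ≤ η + π / r := by linarith
    _ = (1 + π) / r := by rw [hη]; field_simp

/-- `∫_{-π}^{π} e^{i x cos θ} dθ` (equal to `2π J_0(x)`) -/
noncomputable def circ (x : ℝ) : ℂ :=
  ∫ θ in (-π)..π, Complex.exp (Complex.I * ((x * Real.cos θ : ℝ) : ℂ))

theorem circ_eq (x : ℝ) : circ x = 2 * (Iq x + Iq (-x)) := by
  have hcont := continuous_expcos x
  have h1 : circ x = (∫ θ in (-π)..0, Complex.exp (Complex.I * ((x * Real.cos θ : ℝ) : ℂ))) +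
      ∫ θ in (0 : ℝ)..π, Complex.exp (Complex.I * ((x * Real.cos θ : ℝ) : ℂ)) := by
    rw [circ, intervalIntegral.integral_add_adjacent_intervals]
    · exact hcont.intervalIntegrable _ _
    · exact hcont.intervalIntegrable _ _
  have h2 : (∫ θ in (-π)..0, Complex.exp (Complex.I * ((x * Real.cos θ : ℝ) : ℂ))) =
      ∫ θ in (0 : ℝ)..π, Complex.exp (Complex.I * ((x * Real.cos θ : ℝ) : ℂ)) := by
    have := intervalIntegral.integral_comp_neg (a := (0 : ℝ)) (b := π)
      (f := fun θ : ℝ => Complex.exp (Complex.I * ((x * Real.cos θ : ℝ) : ℂ)))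
    simp only [Real.cos_neg, neg_zero] at this
    exact this.symm
  have h3 : (∫ θ in (0 : ℝ)..π, Complex.exp (Complex.I * ((x * Real.cos θ : ℝ) : ℂ))) =
      (∫ θ in (0 : ℝ)..(π / 2), Complex.exp (Complex.I * ((x * Real.cos θ : ℝ) : ℂ))) +
      ∫ θ in (π / 2)..π, Complex.exp (Complex.I * ((x * Real.cos θ : ℝ) : ℂ)) := by
    rw [intervalIntegral.integral_add_adjacent_intervals]
    · exact hcont.intervalIntegrable _ _
    · exact hcont.intervalIntegrable _ _
  have h4 : (∫ θ in (π / 2)..π, Complex.exp (Complex.I * ((x * Real.cos θ : ℝ) : ℂ))) =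
      Iq (-x) := by
    have := intervalIntegral.integral_comp_sub_left (a := (0 : ℝ)) (b := π / 2)
      (fun θ : ℝ => Complex.exp (Complex.I * ((x * Real.cos θ : ℝ) : ℂ))) π
    rw [sub_zero, show π - π / 2 = π / 2 by ring] at this
    rw [← this, Iq]
    apply intervalIntegral.integral_congr
    intro θ _
    simp only [Real.cos_pi_sub]
    congr 2
    push_cast
    ring
  rw [h1, h2, h3, h4, ← Iq]
  ring

theorem norm_circ_le (x : ℝ) : ‖circ x‖ ≤ 32 / Real.sqrt (1 + |x|) := by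
  have hpi : π < 3.15 := Real.pi_lt_d2
  have hpi0 : 0 < π := Real.pi_pos
  have h2 : ‖circ x‖ ≤ 2 * (‖Iq x‖ + ‖Iq (-x)‖) := by
    rw [circ_eq, norm_mul]
    have : ‖(2 : ℂ)‖ = 2 := by norm_num
    rw [this]
    gcongr
    exact norm_add_le _ _
  have hs2 : Real.sqrt 2 < 1.5 := by
    rw [Real.sqrt_lt' (by norm_num)]; norm_num
  have hs0 : 0 < Real.sqrt (1 + |x|) := Real.sqrt_pos.2 (by positivity)
  rw [le_div_iff₀ hs0]
  by_cases hx : 1 ≤ |x|
  · have h3 := norm_Iq_le' hx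
    have h4 := norm_Iq_le' (x := -x) (by rwa [abs_neg])
    rw [abs_neg] at h4
    have hr0 : 0 < Real.sqrt |x| := Real.sqrt_pos.2 (by linarith)
    have h5 : Real.sqrt (1 + |x|) ≤ Real.sqrt 2 * Real.sqrt |x| := by
      rw [← Real.sqrt_mul (by norm_num)]
      apply Real.sqrt_le_sqrt
      linarith
    calc ‖circ x‖ * Real.sqrt (1 + |x|)
        ≤ (2 * ((1 + π) / Real.sqrt |x| + (1 + π) / Real.sqrt |x|)) *
          (Real.sqrt 2 * Real.sqrt |x|) := by
          apply mul_le_mul (h2.trans (by linarith)) h5 hs0.le (by positivity)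
      _ = 4 * (1 + π) * Real.sqrt 2 := by field_simp; ring
      _ ≤ 4 * (1 + 3.15) * 1.5 := by gcongr
      _ ≤ 32 := by norm_num
  · push Not at hx
    have h3 := norm_Iq_le x
    have h4 := norm_Iq_le (-x)
    have h5 : Real.sqrt (1 + |x|) ≤ Real.sqrt 2 := Real.sqrt_le_sqrt (by linarith)
    calc ‖circ x‖ * Real.sqrt (1 + |x|)
        ≤ (2 * (π / 2 + π / 2)) * Real.sqrt 2 := by
          apply mul_le_mul (h2.trans (by linarith)) h5 hs0.le (by positivity)
      _ ≤ (2 * (3.15 / 2 + 3.15 / 2)) * 1.5 := by gcongr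
      _ ≤ 32 := by norm_num

end Vale.Agent.P006.FINE
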