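import Vale.Agent.P006.FINE.Psi
import Mathlib.MeasureTheory.Integral.IntegralEqImproper
import Mathlib.Analysis.SpecialFunctions.ImproperIntegrals
import Mathlib.Analysis.Calculus.BumpFunction.Basic
import Mathlib.Analysis.Calculus.BumpFunction.InnerProduct

/-!
# P006, block FINE: one fine block
-/

namespace Vale.Agent.P006.FINE

open Finset MeasureTheory
open scoped ContDiff
open V1 (ch prim)

/-! ### the dominating function -/

/-- `δ / (1 + (δ s)²)` -/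
noncomputable def gd (δ s : ℝ) : ℝ := δ / (1 + (δ * s) ^ 2)

theorem integrable_gd {δ : ℝ} (hδ : 0 < δ) : Integrable (gd δ) := by
  have h := (integrable_inv_one_add_sq.comp_mul_left' hδ.ne').const_mul δ
  refine h.congr (Filter.Eventually.of_forall fun s => ?_)
  simp [gd, div_eq_mul_inv]

theorem integral_gd {δ : ℝ} (hδ : 0 < δ) : ∫ s, gd δ s = Real.pi := by
  have h : ∀ s, gd δ s = δ * (1 + (δ * s) ^ 2)⁻¹ := fun s => by rw [gd, div_eq_mul_inv]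
  simp only [h]
  rw [integral_const_mul, Measure.integral_comp_mul_left (fun s : ℝ => (1 + s ^ 2)⁻¹) δ,
    integral_univ_inv_one_add_sq, smul_eq_mul, abs_of_pos (inv_pos.2 hδ)]
  field_simp

theorem ksep_Vd {V0 : ℝ → ℂ} (hV : ContDiff ℝ ∞ V0) {R : ℝ} (hR : 0 < R)
    (hs : ∀ x, R < |x| → V0 x = 0) : ∃ C : ℝ, 0 < C ∧ ∀ δ : ℝ, 0 < δ → δ ≤ 1 → R * δ ≤ 1 / 2 →
      KSep (PO.Vo (Vd V0 δ)) (fun x => C * om δ 2 x) (gd δ) (2 * δ) := by
  obtain ⟨C, hC, H⟩ := kernel_sep hV hR hs 2 (U := 2) (by norm_num)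
  refine ⟨C, hC, fun δ hδ hδ1 hRδ => ?_⟩
  refine ⟨fun x hx => mul_nonneg hC.le (om_nonneg hδ.le 2 hx.le), fun s => ?_, fun s => ?_,
    integrable_gd hδ, fun x hx => ?_⟩
  · unfold gd; positivity
  · unfold gd
    congr 2
    ring
  · obtain ⟨ν, hc, _, he, hb, _⟩ := H δ hδ hδ1 hRδ x hx.le
    refine ⟨ν, hc.aestronglyMeasurable, hb, fun u hu => ?_⟩
    rw [he u hu]
    refine integral_congr_ae (Filter.Eventually.of_forall fun s => ?_)
    simp only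
    congr 3
    push_cast; ring

theorem PsiHyp.const_mul {w : ℝ → ℝ} {c : O → ℂ} {S : Finset O} {X : ℝ} {Ψ : O → ℝ → ℝ} {C : ℝ}
    (hC : 0 ≤ C) (h : PsiHyp w c S X Ψ) :
    PsiHyp (fun x => C * w x) c S X (fun e l => C * Ψ e l) := by
  intro e l hl x hx F hF
  have h1 := h e l hl x hx F hF
  calc ∑ h ∈ F, C * w (l * N h) * ‖∑ t ∈ cof S X e, x t * ch t h‖ ^ 2
      = C * ∑ h ∈ F, w (l * N h) * ‖∑ t ∈ cof S X e, x t * ch t h‖ ^ 2 := by
        rw [mul_sum]; exact sum_congr rfl fun h _ => by ring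
    _ ≤ C * Ψ e l := by gcongr

/-! ### the bump -/

/-- a smooth bump equal to `1` on `[0,1]` and supported in `(-1/2, 3/2)` -/
noncomputable def bmp : ContDiffBump (1 / 2 : ℝ) where
  rIn := 1 / 2
  rOut := 1
  rIn_pos := by norm_num
  rIn_lt_rOut := by norm_num

/-- complex version -/
noncomputable def bmpC (x : ℝ) : ℂ := ((bmp x : ℝ) : ℂ)

theorem contDiff_bmpC : ContDiff ℝ ∞ bmpC :=
  Complex.ofRealCLM.contDiff.comp bmp.contDiff

theorem bmpC_zero (x : ℝ) (hx : 3 / 2 < |x|) : bmpC x = 0 := by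
  have h : bmp x = 0 := by
    apply bmp.zero_of_le_dist
    rw [Real.dist_eq]
    have h1 : bmp.rOut = 1 := rfl
    rw [h1]
    rcases lt_abs.1 hx with h | h
    · rw [abs_of_pos] <;> linarith
    · rw [abs_of_neg] <;> linarith
  rw [bmpC, h]; simp

theorem bmp_one {x : ℝ} (h0 : 0 ≤ x) (h1 : x ≤ 1) : bmp x = 1 := by
  apply bmp.one_of_mem_closedBall
  rw [Metric.mem_closedBall, Real.dist_eq, abs_le]
  have h1 : bmp.rIn = 1 / 2 := rfl
  rw [h1]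
  constructor <;> linarith

theorem wt_bmpC : PO.Wt bmpC where
  smooth := contDiff_bmpC
  supp := by
    refine HasCompactSupport.intro (isCompact_closedBall (0 : ℝ) (3 / 2)) fun x hx => ?_
    apply bmpC_zero
    rw [mem_closedBall_zero_iff, not_le, Real.norm_eq_abs] at hx
    exact hx

/-- the finite sum is at most the smoothed sum -/
theorem sum_le_smooth {δ B : ℝ} (hδ : 0 < δ) (hB : 0 < B) (c : O → ℂ) (S T : Finset O)
    (hT : ∀ b ∈ T, Primary b ∧ B ≤ (N b : ℝ) ∧ (N b : ℝ) ≤ B * (1 + δ)) :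
    ∑ b ∈ T, ‖∑ k ∈ S, c k * ch k b‖ ^ 2 ≤
      ‖∑' b : O, prim b * Vd bmpC δ (N b / B) * ((‖∑ k ∈ S, c k * ch k b‖ ^ 2 : ℝ) : ℂ)‖ := by
  classical
  set φ : O → ℝ := fun b => (if Primary b then 1 else 0) * bmp ((N b / B - 1) / δ) *
    ‖∑ k ∈ S, c k * ch k b‖ ^ 2 with hφ
  have hφ0 : ∀ b, 0 ≤ φ b := fun b => by
    have := bmp.nonneg (x := (N b / B - 1) / δ)
    simp only [hφ]
    split_ifs <;> positivity
  have h1 : ∀ b : O, prim b * Vd bmpC δ (N b / B) *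
      ((‖∑ k ∈ S, c k * ch k b‖ ^ 2 : ℝ) : ℂ) = ((φ b : ℝ) : ℂ) := by
    intro b
    simp only [hφ, prim, Vd, bmpC]
    push_cast
    split_ifs <;> simp
  have hs : Summable φ := by
    have h2 := finite_supp (wt_Vd wt_bmpC hδ) hB
      (fun b => prim b * ((‖∑ k ∈ S, c k * ch k b‖ ^ 2 : ℝ) : ℂ))
    have h3 : (fun b : O => prim b * ((‖∑ k ∈ S, c k * ch k b‖ ^ 2 : ℝ) : ℂ) *
        Vd bmpC δ (N b / B)) = fun b => ((φ b : ℝ) : ℂ) := by
      funext b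
      rw [← h1 b]; ring
    rw [h3] at h2
    exact Complex.summable_ofReal.1 h2
  rw [tsum_congr h1, ← Complex.ofReal_tsum, Complex.norm_real,
    Real.norm_of_nonneg (tsum_nonneg hφ0)]
  refine le_trans (sum_le_sum fun b hb => ?_) (hs.sum_le_tsum T fun b _ => hφ0 b)
  obtain ⟨h2, h3, h4⟩ := hT b hb
  have e1 : bmp ((N b / B - 1) / δ) = 1 := by
    apply bmp_one
    · apply div_nonneg _ hδ.le
      rw [sub_nonneg, one_le_div hB]; exact h3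
    · rw [div_le_one hδ, sub_le_iff_le_add, div_le_iff₀ hB]; linarith
  simp only [hφ, if_pos h2, e1]
  linarith

/-- the dual sum of one block -/
noncomputable def Qs (ε δ K Km X B : ℝ) (S : Finset O) (c : O → ℂ) : ℝ :=
  ∑ d ∈ HB.SF X, ∑ m ∈ HB.SF X, ∑ f ∈ HB.D d,
    N f * PsiF 1 ε δ Km c S X (d * m) (B * N f * N d / (27 * K ^ 2))

theorem PsiF_eq (C ε δ Km X : ℝ) (S : Finset O) (c : O → ℂ) (e : O) (l : ℝ) :
    PsiF C ε δ Km c S X e l = C * PsiF 1 ε δ Km c S X e l := by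
  rw [PsiF, PsiF]; ring

theorem PsiF_nonneg {ε δ Km X : ℝ} (hδ : 0 < δ) (hK : 0 < Km) (S : Finset O) (c : O → ℂ) (e : O)
    {l : ℝ} (hl : 0 ≤ l) : 0 ≤ PsiF 1 ε δ Km c S X e l := by
  unfold PsiF
  have := sum_nonneg fun t (_ : t ∈ cof S X e) => sq_nonneg ‖c (e * t)‖
  positivity

theorem Qs_nonneg {ε δ K Km X B : ℝ} (hδ : 0 < δ) (hK : 0 < Km) (hB : 0 < B) (S : Finset O)
    (c : O → ℂ) : 0 ≤ Qs ε δ K Km X B S c := by
  unfold Qs
  refine sum_nonneg fun d _ => sum_nonneg fun m _ => sum_nonneg fun f _ => ?_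
  exact mul_nonneg (Nat.cast_nonneg _) (PsiF_nonneg hδ hK S c _ (by positivity))

theorem Qs_mul (C1 C3 ε δ K Km X B : ℝ) (S : Finset O) (c : O → ℂ) :
    ∑ d ∈ HB.SF X, ∑ m ∈ HB.SF X, ∑ f ∈ HB.D d,
      N f * (C1 * PsiF C3 ε δ Km c S X (d * m) (B * N f * N d / (27 * K ^ 2))) =
      C1 * C3 * Qs ε δ K Km X B S c := by
  unfold Qs
  simp only [mul_sum]
  refine sum_congr rfl fun d _ => sum_congr rfl fun m _ => sum_congr rfl fun f _ => ?_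
  rw [PsiF_eq C3]; ring

theorem arith_block {C1 C2 C3 B K P M Q V δ L : ℝ} (hC1 : 0 < C1) (hC2 : 0 < C2) (hC3 : 0 < C3)
    (hB : 0 < B) (hK : 0 < K) (hP : 0 < P) (hδ : 0 < δ) (hM : 0 ≤ M) (hQ : 0 ≤ Q)
    (hV : V ≤ C2 * δ) (h : L ≤ B * (V * M) + B / K * (P * (C1 * C3 * Q))) :
    L ≤ (C2 + P * (C1 * C3)) * (B * (δ * M) + B / K * Q) := by
  have h3 : B * (V * M) ≤ B * (C2 * δ * M) :=
    mul_le_mul_of_nonneg_left (mul_le_mul_of_nonneg_right hV hM) hB.le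
  have h6 : 0 ≤ B / K * Q := mul_nonneg (by positivity) hQ
  have h5 : 0 ≤ B * (δ * M) := by positivity
  have h7 : 0 ≤ P * (C1 * C3) * (B * (δ * M)) := mul_nonneg (by positivity) h5
  have h8 : 0 ≤ C2 * (B / K * Q) := mul_nonneg hC2.le h6
  have e : (C2 + P * (C1 * C3)) * (B * (δ * M) + B / K * Q) = B * (C2 * δ * M) +
    B / K * (P * (C1 * C3 * Q)) + P * (C1 * C3) * (B * (δ * M)) + C2 * (B / K * Q) := by ring
  rw [e]
  linarith

/-- **one block** -/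
theorem block_ineq {ε : ℝ} (hε : 0 < ε) (hε1 : ε ≤ 1 / 4) : ∃ C : ℝ, 0 < C ∧ ∀ δ : ℝ, 0 < δ →
    δ ≤ 1 / 4 → ∀ (B K Km X : ℝ) (S T : Finset O) (c : O → ℂ), 0 < B → 0 < K → 1 ≤ Km →
      S ⊆ HB.SF X → (∀ k ∈ S, K ≤ (N k : ℝ) ∧ (N k : ℝ) ≤ K * Real.exp δ) →
      (∀ k ∈ S, (N k : ℝ) ≤ Km) →
      (∀ b ∈ T, Primary b ∧ B ≤ (N b : ℝ) ∧ (N b : ℝ) ≤ B * (1 + δ)) →
      ∑ b ∈ T, ‖∑ k ∈ S, c k * ch k b‖ ^ 2 ≤ C * (B * (δ * ∑ k ∈ S, ‖c k‖ ^ 2) +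
        B / K * Qs ε δ K Km X B S c) := by
  obtain ⟨C1, hC1, H1⟩ := ksep_Vd contDiff_bmpC (R := 3 / 2) (by norm_num) bmpC_zero
  obtain ⟨C2, hC2, H2⟩ := kernel_zero_le contDiff_bmpC (R := 3 / 2) (by norm_num) bmpC_zero
  obtain ⟨C3, hC3, H3⟩ := psi_bound hε hε1
  refine ⟨C2 + Real.pi * (C1 * C3), by positivity, ?_⟩
  intro δ hδ hδ1 B K Km X S T c hB hK hKm hS hKS hKmS hT
  have hR : 3 / 2 * δ ≤ 1 / 2 := by linarith
  have hsep := H1 δ hδ (by linarith) hR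
  have hV0 := H2 δ hδ (by linarith) hR
  have hΨ := (H3 δ hδ Km X S c hKm hS hKmS).const_mul hC1.le
  have hKS' : ∀ k ∈ S, K ≤ (N k : ℝ) ∧ (N k : ℝ) ≤ K * Real.exp (2 * δ / 2) := by
    intro k hk
    rw [mul_div_cancel_left₀ δ (by norm_num : (2 : ℝ) ≠ 0)]
    exact hKS k hk
  have h1 := dual_ineq (wt_Vd wt_bmpC hδ) hsep hB hK c hS hKS' hΨ
  rw [integral_gd hδ, Qs_mul] at h1
  exact arith_block hC1 hC2 hC3 hB hK Real.pi_pos hδ
    (sum_nonneg fun k _ => sq_nonneg ‖c k‖) (Qs_nonneg hδ (by linarith) hB S c) hV0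
    ((sum_le_smooth hδ hB c S T hT).trans h1)

end Vale.Agent.P006.FINE
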