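import Vale.Agent.P006.FINE.Pairs
import Mathlib.MeasureTheory.Measure.Haar.OfBasis
import Mathlib.Analysis.Fourier.FourierTransform
import Mathlib.MeasureTheory.Group.Integral
import Mathlib.MeasureTheory.Measure.Lebesgue.Basic
import Mathlib.MeasureTheory.Measure.Lebesgue.EqHaar
import Mathlib.MeasureTheory.Measure.Haar.Unique
import Mathlib.Analysis.SpecialFunctions.Exp

/-!
# P006, block FINE: separation of variables for bilinear forms with an abstract kernel
-/

namespace Vale.Agent.P006.FINE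

open Finset MeasureTheory
open scoped ComplexConjugate

/-- multiplicative separability of `Vo` on multiplicative intervals `[x e^{-U}, x e^{U}]`, with a
domination which is uniform in `x` up to the factor `ω x` -/
structure KSep (Vo : ℝ → ℂ) (ω g : ℝ → ℝ) (U : ℝ) : Prop where
  ω_nonneg : ∀ x, 0 < x → 0 ≤ ω x
  g_nonneg : ∀ s, 0 ≤ g s
  g_even : ∀ s, g (-s) = g s
  g_int : Integrable g
  sep : ∀ x : ℝ, 0 < x → ∃ ν : ℝ → ℂ, AEStronglyMeasurable ν ∧ (∀ s, ‖ν s‖ ≤ ω x * g s) ∧
    ∀ u : ℝ, |u| ≤ U → Vo (x * Real.exp u) = ∫ s, ν s * Complex.exp (Complex.I * (s * u))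

/-- the twisted linear form -/
noncomputable def lf (R : Finset O) (w : O → ℂ) (u : O → ℝ) (s : ℝ) : ℂ :=
  ∑ r ∈ R, w r * Complex.exp (Complex.I * (s * (-(u r) : ℝ)))

theorem continuous_lf (R : Finset O) (w : O → ℂ) (u : O → ℝ) : Continuous (lf R w u) := by
  unfold lf
  fun_prop

theorem norm_exp_Isv (s v : ℝ) : ‖Complex.exp (Complex.I * (s * v))‖ = 1 := by
  have : Complex.I * (s * v) = ((s * v : ℝ) : ℂ) * Complex.I := by push_cast; ring
  rw [this, Complex.norm_exp_ofReal_mul_I]

theorem norm_lf_le (R : Finset O) (w : O → ℂ) (u : O → ℝ) (s : ℝ) :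
    ‖lf R w u s‖ ≤ ∑ r ∈ R, ‖w r‖ := by
  unfold lf
  refine (norm_sum_le _ _).trans (le_of_eq ?_)
  refine sum_congr rfl fun r _ => ?_
  rw [norm_mul, norm_exp_Isv, mul_one]

theorem integrable_g_lf {g : ℝ → ℝ} (hg : Integrable g) (R : Finset O) (w : O → ℂ) (u : O → ℝ) :
    Integrable fun s => g s * ‖lf R w u s‖ ^ 2 := by
  refine hg.mul_bdd (c := (∑ r ∈ R, ‖w r‖) ^ 2) ?_ ?_
  · exact ((continuous_lf R w u).norm.pow 2).aestronglyMeasurable
  · refine Filter.Eventually.of_forall fun s => ?_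
    rw [Real.norm_of_nonneg (by positivity)]
    gcongr
    exact norm_lf_le R w u s

/-- **Separation of variables.** -/
theorem kernel_bilinear {Vo : ℝ → ℂ} {ω g : ℝ → ℝ} {U : ℝ} (H : KSep Vo ω g U) {x : ℝ}
    (hx : 0 < x) (R : Finset O) (w : O → ℂ) (u : O → ℝ)
    (hu : ∀ r ∈ R, 0 ≤ u r ∧ u r ≤ U / 2) :
    ‖∑ r ∈ R, ∑ t ∈ R, w r * conj (w t) * Vo (x * Real.exp (-(u r + u t)))‖ ≤
      ω x * ∫ s, g s * ‖lf R w u s‖ ^ 2 := by
  obtain ⟨ν, hνm, hν, hsep⟩ := H.sep x hx
  have hω := H.ω_nonneg x hx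
  -- integrability of `ν e^{isv}`
  have hνi : Integrable ν := by
    refine Integrable.mono' (H.g_int.const_mul (ω x)) hνm (Filter.Eventually.of_forall fun s => ?_)
    exact hν s
  have hi : ∀ v : ℝ, Integrable fun s : ℝ => ν s * Complex.exp (Complex.I * (s * v)) := by
    intro v
    refine hνi.mul_bdd (c := 1) ?_ (Filter.Eventually.of_forall fun s => ?_)
    · have : Continuous fun s : ℝ => Complex.exp (Complex.I * (s * v)) := by fun_prop
      exact this.aestronglyMeasurable
    · rw [norm_exp_Isv]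
  have h1 : ∑ r ∈ R, ∑ t ∈ R, w r * conj (w t) * Vo (x * Real.exp (-(u r + u t))) =
      ∫ s, ν s * (lf R w u s * conj (lf R w u (-s))) := by
    have h2 : ∀ r ∈ R, ∀ t ∈ R, w r * conj (w t) * Vo (x * Real.exp (-(u r + u t))) =
        ∫ s, w r * conj (w t) * (ν s * Complex.exp (Complex.I * (s * (-(u r + u t) : ℝ)))) := by
      intro r hr t ht
      rw [hsep, integral_const_mul]
      obtain ⟨a1, a2⟩ := hu r hr
      obtain ⟨b1, b2⟩ := hu t ht
      rw [abs_le]
      constructor <;> linarith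
    rw [sum_congr rfl fun r hr => sum_congr rfl fun t ht => h2 r hr t ht]
    have h3 : ∀ r ∈ R, ∑ t ∈ R, ∫ s, w r * conj (w t) * (ν s * Complex.exp
        (Complex.I * (s * (-(u r + u t) : ℝ)))) = ∫ s, ∑ t ∈ R, w r * conj (w t) *
          (ν s * Complex.exp (Complex.I * (s * (-(u r + u t) : ℝ)))) := by
      intro r _
      rw [integral_finsetSum]
      intro t _
      exact (hi _).const_mul _
    rw [sum_congr rfl h3, ← integral_finsetSum]
    · refine integral_congr_ae (Filter.Eventually.of_forall fun s => ?_)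
      simp only [lf]
      rw [map_sum, sum_mul_sum, mul_sum]
      refine sum_congr rfl fun r _ => ?_
      rw [mul_sum]
      refine sum_congr rfl fun t _ => ?_
      rw [map_mul, ← Complex.exp_conj]
      have e1 : conj (Complex.I * (((-s : ℝ) : ℂ) * ((-(u t) : ℝ) : ℂ))) =
          Complex.I * (s * (-(u t) : ℝ)) := by
        rw [map_mul, map_mul, Complex.conj_I, Complex.conj_ofReal, Complex.conj_ofReal]
        push_cast; ring
      have e2 : Complex.exp (Complex.I * (s * (-(u r + u t) : ℝ))) =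
          Complex.exp (Complex.I * (s * (-(u r) : ℝ))) *
            Complex.exp (Complex.I * (s * (-(u t) : ℝ))) := by
        rw [← Complex.exp_add]; congr 1; push_cast; ring
      rw [e1, e2]; ring
    · intro r _
      apply integrable_finsetSum
      intro t _
      exact (hi _).const_mul _
  rw [h1]
  have hI := integrable_g_lf H.g_int R w u
  have hI' : Integrable fun s => g s * ‖lf R w u (-s)‖ ^ 2 := by
    have := hI.comp_neg
    simpa only [H.g_even] using this
  have hE : ∫ s, g s * ‖lf R w u (-s)‖ ^ 2 = ∫ s, g s * ‖lf R w u s‖ ^ 2 := by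
    have := integral_neg_eq_self (fun s => g s * ‖lf R w u s‖ ^ 2) volume
    simpa only [H.g_even] using this
  calc ‖∫ s, ν s * (lf R w u s * conj (lf R w u (-s)))‖
      ≤ ∫ s, (ω x * ((g s * ‖lf R w u s‖ ^ 2 + g s * ‖lf R w u (-s)‖ ^ 2) / 2)) := by
        refine norm_integral_le_of_norm_le (((hI.add hI').div_const 2).const_mul _)
          (Filter.Eventually.of_forall fun s => ?_)
        rw [norm_mul, norm_mul, RCLike.norm_conj]
        have a1 := hν s
        have a2 := H.g_nonneg s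
        have a3 : ‖lf R w u s‖ * ‖lf R w u (-s)‖ ≤
            (‖lf R w u s‖ ^ 2 + ‖lf R w u (-s)‖ ^ 2) / 2 := by
          nlinarith [sq_nonneg (‖lf R w u s‖ - ‖lf R w u (-s)‖)]
        calc ‖ν s‖ * (‖lf R w u s‖ * ‖lf R w u (-s)‖)
            ≤ (ω x * g s) * ((‖lf R w u s‖ ^ 2 + ‖lf R w u (-s)‖ ^ 2) / 2) := by
              gcongr
          _ = _ := by ring
    _ = ω x * ∫ s, g s * ‖lf R w u s‖ ^ 2 := by
        rw [integral_const_mul, integral_div, integral_add hI hI', hE]
        ring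

end Vale.Agent.P006.FINE
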