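import Vale.Agent.P006.V1.Theta
import Vale.Agent.P006.H357.Alg

/-!
# P006, block FINE: bound for Ramanujan sums of squarefree primary modulus
-/

namespace Vale.Agent.P006.FINE

open Finset
open V1 (ram cop rsum E Per)

theorem rsum_one (h : O → ℂ) (hh : Per 1 h) : rsum 1 h = h 0 := by
  have : NeZero (1 : O) := ⟨one_ne_zero⟩
  rw [V1.rsum_eq_sum]
  have h1 : ∀ x : Rs (1 : O), h (Quotient.out x) = h 0 := fun x => hh _ _ (one_dvd _)
  rw [sum_congr rfl fun x _ => h1 x, sum_const, card_univ, fcard_Rs, N_one, one_smul]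

theorem E_one (x : O) : E 1 x = 1 := by
  rw [V1.E_eq_psi, rs_eq_zero.2 (one_dvd x), AddChar.map_zero_eq_one]

theorem ram_one (k : O) : ram 1 k = 1 := by
  rw [ram, rsum_one]
  · rw [V1.cop_one, E_one, one_mul]
  · exact (V1.cop_per 1).mul (V1.E_per 1 k)

theorem ram_mul {a b : O} (ha : a ≠ 0) (hb : b ≠ 0) (hab : IsCoprime a b) (k : O) :
    ram (a * b) k = ram a k * ram b k := by
  have e1 : ∀ x, cop (a * b) x = cop a x * cop b x := by
    intro x
    simp only [cop]
    by_cases h1 : IsCoprime x a <;> by_cases h2 : IsCoprime x b <;>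
      simp [h1, h2, IsCoprime.mul_right_iff (x := x) (y := a) (z := b)]
  rw [ram, V1.rsum_congr (h' := fun x => cop a x * cop b x * E (a * b) (x * k))
    (fun x => by rw [e1]), V1.rsum_mul_E ha hb hab (V1.cop_per a) (V1.cop_per b) k]
  congr 1
  · exact V1.rsum_congr fun x => by rw [V1.cop_mul hab.symm]
  · exact V1.rsum_congr fun x => by rw [V1.cop_mul hab]

theorem norm_rsum_le {q : O} [NeZero q] {F : O → ℂ} {c : ℝ} (hF : ∀ x, ‖F x‖ ≤ c) :
    ‖rsum q F‖ ≤ N q * c := by
  rw [V1.rsum_eq_sum]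
  refine (norm_sum_le _ _).trans ?_
  refine (sum_le_sum fun x _ => hF _).trans ?_
  rw [sum_const, card_univ, fcard_Rs, nsmul_eq_mul]

theorem norm_cop_le (m x : O) : ‖cop m x‖ ≤ 1 := by
  rw [cop]; split_ifs <;> simp

theorem norm_ram_le (m k : O) (hm : m ≠ 0) : ‖ram m k‖ ≤ N m := by
  have : NeZero m := ⟨hm⟩
  have := norm_rsum_le (q := m) (F := fun x => cop m x * E m (x * k)) (c := 1) (fun x => by
    rw [norm_mul, V1.norm_E, mul_one]; exact norm_cop_le m x)
  rwa [mul_one] at this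

open Classical in
/-- at a prime not dividing `k` the Ramanujan sum is `-1` -/
theorem ram_prime_of_not_dvd {p : O} (hp : Primary p) (hpp : Prime p) {k : O} (hk : ¬ p ∣ k) :
    ram p k = -1 := by
  have n : NeZero p := ⟨hp.ne_zero⟩
  have h1 : ∀ x, cop p x * E p (x * k) = E p (x * k) - (if p ∣ x then 1 else 0) := by
    intro x
    by_cases hx : p ∣ x
    · have hc : ¬ IsCoprime x p := fun h => hpp.not_isUnit (h.isUnit_of_dvd' hx dvd_rfl)
      have h2 : E p (x * k) = 1 := by
        rw [V1.E_eq_psi, rs_eq_zero.2 (hx.mul_right k), AddChar.map_zero_eq_one]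
      rw [cop, if_neg hc, h2, if_pos hx]; ring
    · have hc : IsCoprime x p := ((hpp.irreducible.coprime_iff_not_dvd).2 hx).symm
      rw [cop, if_pos hc, if_neg hx]; ring
  rw [ram, V1.rsum_congr h1, V1.rsum_eq_sum, sum_sub_distrib]
  have h3 : ∑ x : Rs p, E p (Quotient.out x * k) = 0 := by
    have h4 := sum_psi_mul p k
    have h5 : ¬ p ∣ lam * k := by
      intro h
      rcases hpp.dvd_or_dvd h with h | h
      · exact hp.not_lam_dvd ((hpp.dvd_prime_iff_associated prime_lam).1 h).symm.dvd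
      · exact hk h
    rw [if_neg h5] at h4
    rw [← h4]
    refine sum_congr rfl fun x _ => ?_
    rw [V1.E_eq_psi, map_mul, V1.rs_out, mul_comm]
  rw [h3]
  have h6 : ∑ x : Rs p, (if p ∣ Quotient.out x then (1 : ℂ) else 0) = 1 := by
    rw [sum_eq_single (0 : Rs p)]
    · rw [if_pos]
      rw [← rs_eq_zero, V1.rs_out]
    · intro x _ hx
      rw [if_neg]
      intro h
      apply hx
      rw [← V1.rs_out x, rs_eq_zero]; exact h
    · intro h; exact absurd (mem_univ _) h
  rw [h6]; ring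

open Classical in
/-- `|c_d(k)| ≤ ∑_{f ∣ (d,k)} N f` -/
theorem norm_ram_le_sum (k : O) (d : O) (hd : Primary d) (hs : Squarefree d) :
    ‖ram d k‖ ≤ ∑ f ∈ HB.D d, (if f ∣ k then (N f : ℝ) else 0) := by
  refine HB.sf_induction (P := fun d => ‖ram d k‖ ≤ ∑ f ∈ HB.D d, (if f ∣ k then (N f : ℝ) else 0))
    ?_ ?_ d hd hs
  · rw [ram_one, HB.D_one]; simp
  · intro p e hp hpp he hse hc ih
    have hp' : Primary p := hp
    rw [ram_mul hp.ne_zero he.ne_zero hc, norm_mul, HB.sum_D_mul hp hpp he hc]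
    have h0 : 0 ≤ ∑ f ∈ HB.D e, (if f ∣ k then (N f : ℝ) else 0) := by positivity
    by_cases hpk : p ∣ k
    · have h1 : ∑ f ∈ HB.D e, (if p * f ∣ k then (N (p * f) : ℝ) else 0) =
          N p * ∑ f ∈ HB.D e, (if f ∣ k then (N f : ℝ) else 0) := by
        rw [mul_sum]
        refine sum_congr rfl fun f hf => ?_
        rw [HB.mem_D he.ne_zero] at hf
        have hcf : IsCoprime p f := hc.of_isCoprime_of_dvd_right hf.2
        have h4 : p * f ∣ k ↔ f ∣ k :=
          ⟨fun h => (Dvd.intro_left _ rfl).trans h, fun h => hcf.mul_dvd hpk h⟩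
        simp only [h4, N_mul, Nat.cast_mul]
        split_ifs <;> ring
      rw [h1]
      have h2 := norm_ram_le p k hp.ne_zero
      have h3 := mul_le_mul h2 ih (norm_nonneg _) (Nat.cast_nonneg _)
      linarith
    · have h1 : ∑ f ∈ HB.D e, (if p * f ∣ k then (N (p * f) : ℝ) else 0) = 0 := by
        apply sum_eq_zero
        intro f _
        rw [if_neg]
        intro h; exact hpk ((Dvd.intro _ rfl).trans h)
      rw [h1, ram_prime_of_not_dvd hp' hpp hpk, norm_neg, norm_one, one_mul, add_zero]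
      exact ih

end Vale.Agent.P006.FINE
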