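import Vale.Agent.P006.V1.Inst
import Vale.Agent.P006.H485.Decay
import Vale.Agent.P006.FINE.Ram
import Vale.Agent.P006.FINE.Kernel

/-!
# P006, block FINE: the Poisson duality inequality with an abstract separable kernel
-/

namespace Vale.Agent.P006.FINE

open Finset MeasureTheory
open scoped ComplexConjugate
open V1 (ch cop prim ram theta E)

/-! ### generalities -/

theorem norm_tsum_le_add {f : O → ℂ} {M : ℝ}
    (h : ∀ F : Finset O, (∀ k ∈ F, k ≠ 0) → ∑ k ∈ F, ‖f k‖ ≤ M) :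
    ‖∑' k, f k‖ ≤ ‖f 0‖ + M := by
  classical
  have h1 : ∀ F : Finset O, ∑ k ∈ F, ‖f k‖ ≤ ‖f 0‖ + M := by
    intro F
    calc ∑ k ∈ F, ‖f k‖ ≤ ∑ k ∈ insert 0 (F.erase 0), ‖f k‖ := by
          apply sum_le_sum_of_subset_of_nonneg
          · intro k hk
            by_cases h0 : k = 0
            · subst h0; exact mem_insert_self _ _
            · exact mem_insert_of_mem (mem_erase.2 ⟨h0, hk⟩)
          · intro k _ _; exact norm_nonneg _
      _ = ‖f 0‖ + ∑ k ∈ F.erase 0, ‖f k‖ := sum_insert (notMem_erase 0 F)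
      _ ≤ _ := by
          have := h (F.erase 0) (fun k hk => (mem_erase.1 hk).1)
          linarith
  have hs : Summable fun k => ‖f k‖ := summable_of_sum_le (fun k => norm_nonneg _) h1
  exact (norm_tsum_le_tsum_norm hs).trans (hs.tsum_le_of_sum_le h1)

theorem conj_mul_self_norm (z : ℂ) : ((‖z‖ ^ 2 : ℝ) : ℂ) = conj z * z := by
  rw [Complex.conj_mul']; push_cast; rfl

theorem ch_zero_of_ne_one {r : O} (hr : Primary r) (h : r ≠ 1) : ch r 0 = 0 := by
  rw [ch, sym_eq_zero.2, map_zero]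
  intro hc
  exact h (hr.eq_one (isCoprime_zero_left.1 hc))

/-- support of a weight -/
theorem finite_supp {V : ℝ → ℂ} (hV : PO.Wt V) {B : ℝ} (hB : 0 < B) (f : O → ℂ) :
    Summable fun b : O => f b * V (N b / B) := by
  obtain ⟨R, hR, h⟩ := hV.exists_bound
  refine summable_of_ne_finset_zero (s := HB.Nle (R * B)) fun b hb => ?_
  rw [HB.mem_Nle, not_le] at hb
  rw [h, mul_zero]
  rw [abs_of_nonneg (by positivity), lt_div_iff₀ hB]
  exact hb

/-- the normalised coefficients -/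
noncomputable def zc (c : O → ℂ) (k : O) : ℂ := c k * gt 1 k / (Real.sqrt (N k) : ℝ)

theorem norm_zc {c : O → ℂ} {k : O} (hk : Primary k) (hs : Squarefree k) :
    ‖zc c k‖ = ‖c k‖ / Real.sqrt (N k) := by
  rw [zc, norm_div, norm_mul, Complex.norm_real, Real.norm_of_nonneg (Real.sqrt_nonneg _),
    norm_gt hk hs isCoprime_one_left, mul_one]

/-- a term on the dual side -/
noncomputable def Tm (V : ℝ → ℂ) (B K : ℝ) (c : O → ℂ) (d r t k : O) : ℂ :=
  E (V1.sq3 * 3) k * ram d k * (conj (zc c (d * r)) * ch r (k * d) *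
    conj (conj (zc c (d * t)) * ch t (k * d)) *
    PO.Vo V (B * N k * N d / (27 * K ^ 2) *
      Real.exp (-(Real.log (N (d * r) / K) + Real.log (N (d * t) / K)))))

theorem Tm_arg {B K : ℝ} (hK : 0 < K) {d r t : O} (k : O) (hd : d ≠ 0) (hr : r ≠ 0) (ht : t ≠ 0) :
    B * N k * N d / (27 * K ^ 2) *
      Real.exp (-(Real.log (N (d * r) / K) + Real.log (N (d * t) / K))) =
    B * N k / (27 * N (1 * (d * (r * t)))) := by
  have pd : (0 : ℝ) < N d := by exact_mod_cast N_pos hd
  have pr : (0 : ℝ) < N r := by exact_mod_cast N_pos hr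
  have pt : (0 : ℝ) < N t := by exact_mod_cast N_pos ht
  simp only [N_mul, Nat.cast_mul, one_mul]
  rw [← Real.log_mul (by positivity) (by positivity), Real.exp_neg, Real.exp_log (by positivity)]
  field_simp

theorem alg_aux (c1 c2 g1 g2 E R x y vo a0 s1 s2 coef : ℂ) (h : coef = a0 * (s1⁻¹ * s2⁻¹)) :
    c1 * c2 * (g1 * g2 * (coef * (E * 1 * R * (x * y) * vo))) =
      a0 * (E * R * ((c1 * g1 / s1) * x * ((c2 * g2 / s2) * y) * vo)) := by
  rw [h]; ring

theorem coef_aux {B : ℝ} {d r t : O} (hd : d ≠ 0) (hr : r ≠ 0) (ht : t ≠ 0) :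
    (2 * B / (9 * Real.sqrt 3 * N (1 : O) * N d * Real.sqrt (N (r * t))) : ℝ) =
      2 * B / (9 * Real.sqrt 3) * ((Real.sqrt (N (d * r)))⁻¹ * (Real.sqrt (N (d * t)))⁻¹) := by
  have pd : (0 : ℝ) < N d := by exact_mod_cast N_pos hd
  have pr : (0 : ℝ) < N r := by exact_mod_cast N_pos hr
  have pt : (0 : ℝ) < N t := by exact_mod_cast N_pos ht
  have hsq : Real.sqrt (N (d * r)) * Real.sqrt (N (d * t)) = N d * Real.sqrt (N (r * t)) := by
    rw [← Real.sqrt_mul (by positivity), N_mul, N_mul, N_mul]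
    push_cast
    rw [show (N d * N r * (N d * N t) : ℝ) = (N d : ℝ) ^ 2 * (N r * N t) by ring,
      Real.sqrt_mul (by positivity), Real.sqrt_sq (by positivity)]
  have hq3 : 0 < Real.sqrt (N (r * t)) := by
    apply Real.sqrt_pos.2; rw [N_mul]; push_cast; positivity
  have s3 : 0 < Real.sqrt 3 := Real.sqrt_pos.2 (by norm_num)
  rw [← mul_inv, hsq, N_one, Nat.cast_one]
  field_simp

theorem gt_conj_mul {k : O} (hk : Primary k) (hs : Squarefree k) :
    conj (gt 1 k) * gt 1 k = 1 := by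
  rw [Complex.conj_mul', norm_gt hk hs isCoprime_one_left]; norm_num

theorem pair_value {V : ℝ → ℂ} (hV : PO.Wt V) {B K : ℝ} (hB : 0 < B) (hK : 0 < K) (c : O → ℂ)
    {d r t : O} (hd : Primary d) (hr : Primary r) (ht : Primary t) (hdr : Squarefree (d * r))
    (hdt : Squarefree (d * t)) (hc : IsCoprime r t) :
    conj (c (d * r)) * c (d * t) *
      ∑' b : O, prim b * (conj (ch (d * r) b) * ch (d * t) b) * V (N b / B) =
    ((2 * B / (9 * Real.sqrt 3) : ℝ) : ℂ) * ∑' k : O, Tm V B K c d r t k := by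
  have hdr' : IsCoprime d r := (squarefree_mul_iff.1 hdr).1.isCoprime
  have hdt' : IsCoprime d t := (squarefree_mul_iff.1 hdt).1.isCoprime
  have sd : Squarefree d := (squarefree_mul_iff.1 hdr).2.1
  have sr : Squarefree r := (squarefree_mul_iff.1 hdr).2.2
  have st : Squarefree t := (squarefree_mul_iff.1 hdt).2.2
  have h := V1.pair_exact hV hB primary_one hd hr ht sd sr st isCoprime_one_left
    (hdr'.mul_right hdt') hc
  have e1 : ∀ b : O, prim b * theta 1 d r t b * V (N b / B) =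
      prim b * (conj (ch (d * r) b) * ch (d * t) b) * V (N b / B) := by
    intro b
    rw [V1.theta_eq hd.ne_zero hr.ne_zero ht.ne_zero, V1.cop_one, one_mul]
  simp only [e1] at h
  generalize (∑' b : O, prim b * (conj (ch (d * r) b) * ch (d * t) b) * V (N b / B)) = A at h ⊢
  have g1 := gt_conj_mul (hd.mul hr) hdr
  have g2 := gt_conj_mul (hd.mul ht) hdt
  have hA' : A = conj (gt 1 (d * r)) * gt 1 (d * t) *
      (gt 1 (d * r) * conj (gt 1 (d * t)) * A) := by
    linear_combination (-A * (conj (gt 1 (d * t)) * gt 1 (d * t))) * g1 - A * g2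
  rw [hA', h]
  rw [← tsum_mul_left, ← tsum_mul_left, ← tsum_mul_left, ← tsum_mul_left]
  refine tsum_congr fun k => ?_
  rw [Tm, Tm_arg hK k hd.ne_zero hr.ne_zero ht.ne_zero, ram_one, one_pow, mul_one (k * d)]
  have hz1 : conj (zc c (d * r)) = conj (c (d * r)) * conj (gt 1 (d * r)) /
      ((Real.sqrt (N (d * r)) : ℝ) : ℂ) := by
    rw [zc, map_div₀, map_mul, Complex.conj_ofReal]
  rw [map_mul (starRingEnd ℂ) (conj (zc c (d * t))), Complex.conj_conj, hz1, zc]
  apply alg_aux
  rw [coef_aux hd.ne_zero hr.ne_zero ht.ne_zero]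
  push_cast
  rfl

end Vale.Agent.P006.FINE
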