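import Vale.Agent.P006.FINE.Dual

/-!
# P006, block FINE: the Poisson duality inequality, expansion of the square
-/

namespace Vale.Agent.P006.FINE

open Finset MeasureTheory
open scoped ComplexConjugate
open V1 (ch cop prim ram theta E)

theorem norm_Tm_le {V : ℝ → ℂ} (B K : ℝ) (c : O → ℂ) {d : O} (hd : d ≠ 0) (r t k : O) :
    ‖Tm V B K c d r t k‖ ≤ N d * (‖zc c (d * r)‖ * ‖zc c (d * t)‖) *
      ‖PO.Vo V (B * N k * N d / (27 * K ^ 2) *
        Real.exp (-(Real.log (N (d * r) / K) + Real.log (N (d * t) / K))))‖ := by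
  rw [Tm]
  simp only [norm_mul, V1.norm_E, one_mul, RCLike.norm_conj, ← mul_assoc]
  have h1 := norm_ram_le d k hd
  have h2 := V1.norm_ch_le r (k * d)
  have h3 := V1.norm_ch_le t (k * d)
  calc ‖ram d k‖ * ‖zc c (d * r)‖ * ‖ch r (k * d)‖ * ‖zc c (d * t)‖ * ‖ch t (k * d)‖ *
      ‖PO.Vo V (B * N k * N d / (27 * K ^ 2) *
        Real.exp (-(Real.log (N (d * r) / K) + Real.log (N (d * t) / K))))‖
      ≤ N d * ‖zc c (d * r)‖ * 1 * ‖zc c (d * t)‖ * 1 *
      ‖PO.Vo V (B * N k * N d / (27 * K ^ 2) *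
        Real.exp (-(Real.log (N (d * r) / K) + Real.log (N (d * t) / K))))‖ := by
        gcongr
    _ = _ := by ring

theorem summable_Tm {V : ℝ → ℂ} (hV : PO.Wt V) {B K : ℝ} (hB : 0 < B) (hK : 0 < K) (c : O → ℂ)
    {d : O} (hd : d ≠ 0) (r t : O) : Summable (fun k => Tm V B K c d r t k) := by
  set e0 := Real.exp (-(Real.log (N (d * r) / K) + Real.log (N (d * t) / K))) with he0
  have pe : 0 < e0 := Real.exp_pos _
  have pd : (0 : ℝ) < N d := by exact_mod_cast N_pos hd
  set T : ℝ := B * N d / (27 * K ^ 2) * e0 with hT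
  have hT0 : 0 < T := by positivity
  set M : ℝ := N d * (‖zc c (d * r)‖ * ‖zc c (d * t)‖) * (2 * PO.KV V) with hM
  have hKV := PO.KV_nonneg V
  have hM0 : 0 ≤ M := by positivity
  have hs1 := (PO.sum_decay hT0).1
  have hs2 : Summable (fun k : O => if k = 0 then (1 : ℝ) else 0) :=
    summable_of_ne_finset_zero (s := {0}) fun b hb => by
      rw [if_neg]; simpa using hb
  refine Summable.of_norm_bounded ((hs1.add hs2).mul_left M) fun k => ?_
  refine (norm_Tm_le B K c hd r t k).trans ?_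
  have e1 : B * N k * N d / (27 * K ^ 2) *
        Real.exp (-(Real.log (N (d * r) / K) + Real.log (N (d * t) / K))) = T * N k := by
    rw [hT]; ring
  rw [e1]
  have h2 := PO.Vo_decay2 hV (x := T * N k) (by positivity)
  have h3 : 2 * PO.KV V / (1 + T * N k) ^ 2 ≤ 2 * PO.KV V *
      ((if k = 0 then 0 else ((1 + T * N k) ^ 2)⁻¹) + if k = 0 then 1 else 0) := by
    by_cases hk : k = 0
    · subst hk; simp
    · simp [hk, div_eq_mul_inv]
  calc N d * (‖zc c (d * r)‖ * ‖zc c (d * t)‖) * ‖PO.Vo V (T * N k)‖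
      ≤ N d * (‖zc c (d * r)‖ * ‖zc c (d * t)‖) * (2 * PO.KV V *
        ((if k = 0 then 0 else ((1 + T * N k) ^ 2)⁻¹) + if k = 0 then 1 else 0)) := by
        gcongr
        exact h2.trans h3
    _ = _ := by rw [hM]; ring

open Classical in
/-- the dual sum attached to `d` -/
noncomputable def Gd (V : ℝ → ℂ) (B K : ℝ) (c : O → ℂ) (S : Finset O) (X : ℝ) (d k : O) : ℂ :=
  ∑ r ∈ cof S X d, ∑ t ∈ cof S X d, if IsCoprime r t then Tm V B K c d r t k else 0

/-- expansion of the square -/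
theorem expand_sq {V : ℝ → ℂ} (hV : PO.Wt V) {B : ℝ} (hB : 0 < B) (c : O → ℂ) (S : Finset O) :
    ∑' b : O, prim b * V (N b / B) * ((‖∑ k ∈ S, c k * ch k b‖ ^ 2 : ℝ) : ℂ) =
      ∑ k ∈ S, ∑ l ∈ S, conj (c k) * c l *
        ∑' b : O, prim b * (conj (ch k b) * ch l b) * V (N b / B) := by
  have h1 : ∀ b : O, prim b * V (N b / B) * ((‖∑ k ∈ S, c k * ch k b‖ ^ 2 : ℝ) : ℂ) =
      ∑ k ∈ S, ∑ l ∈ S, (conj (c k) * c l) * (prim b * (conj (ch k b) * ch l b) * V (N b / B)) := by
    intro b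
    rw [conj_mul_self_norm, map_sum, sum_mul_sum, mul_sum]
    refine sum_congr rfl fun k _ => ?_
    rw [mul_sum]
    refine sum_congr rfl fun l _ => ?_
    rw [map_mul]; ring
  have hs : ∀ k l : O, Summable fun b : O =>
      (conj (c k) * c l) * (prim b * (conj (ch k b) * ch l b) * V (N b / B)) :=
    fun k l => (finite_supp hV hB _).mul_left _
  rw [tsum_congr h1, Summable.tsum_finsetSum (fun k _ => summable_sum fun l _ => hs k l)]
  refine sum_congr rfl fun k _ => ?_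
  rw [Summable.tsum_finsetSum (fun l _ => hs k l)]
  refine sum_congr rfl fun l _ => ?_
  rw [tsum_mul_left]

open Classical in
/-- the dual form of the quadratic form -/
theorem dual_identity {V : ℝ → ℂ} (hV : PO.Wt V) {B K : ℝ} (hB : 0 < B) (hK : 0 < K)
    (c : O → ℂ) {S : Finset O} {X : ℝ} (hS : S ⊆ HB.SF X) :
    ∑' b : O, prim b * V (N b / B) * ((‖∑ k ∈ S, c k * ch k b‖ ^ 2 : ℝ) : ℂ) =
      ((2 * B / (9 * Real.sqrt 3) : ℝ) : ℂ) * ∑ d ∈ HB.SF X, ∑' k : O, Gd V B K c S X d k := by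
  rw [expand_sq hV hB, sum_pairs hS, mul_sum]
  refine sum_congr rfl fun d hd => ?_
  have hd' := HB.mem_SF.1 hd
  have hs : ∀ r t : O, Summable fun k : O => if IsCoprime r t then Tm V B K c d r t k else 0 := by
    intro r t
    split_ifs
    · exact summable_Tm hV hB hK c hd'.2.1.ne_zero r t
    · exact summable_zero
  unfold Gd
  rw [Summable.tsum_finsetSum (fun r _ => summable_sum fun t _ => hs r t), mul_sum]
  refine sum_congr rfl fun r hr => ?_
  rw [Summable.tsum_finsetSum (fun t _ => hs r t), mul_sum]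
  refine sum_congr rfl fun t ht => ?_
  rw [mem_cof] at hr ht
  by_cases hc : IsCoprime r t
  · simp only [hc, if_true]
    exact pair_value hV hB hK c hd'.2.1 (HB.mem_SF.1 hr.1).2.1 (HB.mem_SF.1 ht.1).2.1
      (HB.mem_SF.1 (hS hr.2)).2.2 (HB.mem_SF.1 (hS ht.2)).2.2 hc
  · simp only [hc, if_false, tsum_zero, mul_zero]

/-- the zero frequency -/
theorem norm_Gd_zero {V : ℝ → ℂ} {B K : ℝ} (c : O → ℂ) {S : Finset O} {X : ℝ} {d : O} (hd : d ∈ HB.SF X) [Decidable (d ∈ S)] :
    ‖Gd V B K c S X d 0‖ ≤ if d ∈ S then ‖c d‖ ^ 2 * ‖PO.Vo V 0‖ else 0 := by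
  classical
  have hd' := HB.mem_SF.1 hd
  have hz : ∀ r ∈ cof S X d, ∀ t ∈ cof S X d, ¬ (r = 1 ∧ t = 1) →
      Tm V B K c d r t 0 = 0 := by
    intro r hr t ht hne
    rw [mem_cof] at hr ht
    have hr' := (HB.mem_SF.1 hr.1).2.1
    have ht' := (HB.mem_SF.1 ht.1).2.1
    rw [Tm, zero_mul]
    by_cases h1 : r = 1
    · have h2 : t ≠ 1 := fun h2 => hne ⟨h1, h2⟩
      rw [ch_zero_of_ne_one ht' h2]; simp
    · rw [ch_zero_of_ne_one hr' h1]; simp
  have h1 : Gd V B K c S X d 0 = if d ∈ S then Tm V B K c d 1 1 0 else 0 := by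
    unfold Gd
    by_cases hdS : d ∈ S
    · have h1S : (1 : O) ∈ cof S X d := by
        rw [mem_cof]
        exact ⟨SF_of_dvd hd primary_one (one_dvd d), by rw [mul_one]; exact hdS⟩
      rw [if_pos hdS, sum_eq_single_of_mem 1 h1S, sum_eq_single_of_mem 1 h1S,
        if_pos isCoprime_one_left]
      · intro t ht hne
        rw [hz 1 h1S t ht (fun h => hne h.2)]; simp
      · intro r hr hne
        apply sum_eq_zero
        intro t ht
        rw [hz r hr t ht (fun h => hne h.1)]; simp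
    · rw [if_neg hdS]
      apply sum_eq_zero
      intro r hr
      apply sum_eq_zero
      intro t ht
      rw [hz r hr t ht, ite_self]
      rintro ⟨h2, -⟩
      rw [mem_cof, h2, mul_one] at hr
      exact hdS hr.2
  rw [h1]
  split_ifs with hdS
  · refine (norm_Tm_le B K c hd'.2.1.ne_zero 1 1 0).trans (le_of_eq ?_)
    have pd : (0 : ℝ) < N d := by exact_mod_cast N_pos hd'.2.1.ne_zero
    rw [mul_one, norm_zc hd'.2.1 hd'.2.2, N_zero, Nat.cast_zero, mul_zero, zero_mul, zero_div,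
      zero_mul, div_mul_div_comm, Real.mul_self_sqrt pd.le]
    field_simp
  · simp

end Vale.Agent.P006.FINE
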