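import Vale.Agent.P006.FINE.Dual2

/-!
# P006, block FINE: the Poisson duality inequality
-/

namespace Vale.Agent.P006.FINE

open Finset MeasureTheory
open scoped ComplexConjugate
open V1 (ch cop prim ram theta E)

/-- the hypothesis on the dual side: `Ψ e l` bounds the weighted sum over the dual variable -/
def PsiHyp (ω : ℝ → ℝ) (c : O → ℂ) (S : Finset O) (X : ℝ) (Ψ : O → ℝ → ℝ) : Prop :=
  ∀ e : O, ∀ l : ℝ, 0 < l → ∀ x : O → ℂ, (∀ t, ‖x t‖ ≤ ‖c (e * t)‖) → ∀ F : Finset O,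
    (∀ h ∈ F, h ≠ 0) →
      ∑ h ∈ F, ω (l * N h) * ‖∑ t ∈ cof S X e, x t * ch t h‖ ^ 2 ≤ Ψ e l

theorem PsiHyp.nonneg {ω : ℝ → ℝ} {c : O → ℂ} {S : Finset O} {X : ℝ} {Ψ : O → ℝ → ℝ}
    (h : PsiHyp ω c S X Ψ) (e : O) {l : ℝ} (hl : 0 < l) : 0 ≤ Ψ e l := by
  have := h e l hl (fun _ => 0) (fun _ => by simp) ∅ (by simp)
  simpa using this

/-- the weights of the linear form attached to `(d, m, k)` -/
noncomputable def wk (c : O → ℂ) (d m k r : O) : ℂ :=
  conj (zc c (d * (m * r))) * ch (m * r) (k * d)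

/-- logarithmic position in the box -/
noncomputable def uk (K : ℝ) (d m r : O) : ℝ := Real.log (N (d * (m * r)) / K)

theorem uk_mem {K U X : ℝ} (hK : 0 < K) {S : Finset O}
    (hKS : ∀ k ∈ S, K ≤ (N k : ℝ) ∧ (N k : ℝ) ≤ K * Real.exp (U / 2)) {d m r : O}
    (hr : r ∈ cof S X (d * m)) : 0 ≤ uk K d m r ∧ uk K d m r ≤ U / 2 := by
  rw [mem_cof, mul_assoc] at hr
  obtain ⟨h1, h2⟩ := hKS _ hr.2
  unfold uk
  constructor
  · apply Real.log_nonneg
    rwa [one_le_div hK]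
  · rw [Real.log_le_iff_le_exp (by apply div_pos _ hK; linarith), div_le_iff₀ hK]
    linarith

theorem norm_Gd_le {V : ℝ → ℂ} {ω g : ℝ → ℝ} {U : ℝ} (H : KSep (PO.Vo V) ω g U) {B K : ℝ}
    (hB : 0 < B) (hK : 0 < K) (c : O → ℂ) {S : Finset O} {X : ℝ} (hS : S ⊆ HB.SF X)
    (hKS : ∀ k ∈ S, K ≤ (N k : ℝ) ∧ (N k : ℝ) ≤ K * Real.exp (U / 2)) {d : O} (hd : d ≠ 0)
    {k : O} (hk : k ≠ 0) :
    ‖Gd V B K c S X d k‖ ≤ ‖ram d k‖ * ∑ m ∈ HB.SF X, ω (B * N k * N d / (27 * K ^ 2)) *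
      ∫ s, g s * ‖lf (cof S X (d * m)) (wk c d m k) (uk K d m) s‖ ^ 2 := by
  have pd : (0 : ℝ) < N d := by exact_mod_cast N_pos hd
  have pk : (0 : ℝ) < N k := by exact_mod_cast N_pos hk
  have hx : 0 < B * N k * N d / (27 * K ^ 2) := by positivity
  unfold Gd
  rw [sum_coprime hS]
  have h1 : ∀ m ∈ HB.SF X, HB.mob m * ∑ r ∈ cof S X (d * m), ∑ t ∈ cof S X (d * m),
      Tm V B K c d (m * r) (m * t) k = (E (V1.sq3 * 3) k * ram d k) * (HB.mob m *
        ∑ r ∈ cof S X (d * m), ∑ t ∈ cof S X (d * m), wk c d m k r * conj (wk c d m k t) *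
          PO.Vo V (B * N k * N d / (27 * K ^ 2) * Real.exp (-(uk K d m r + uk K d m t)))) := by
    intro m _
    rw [mul_left_comm (E (V1.sq3 * 3) k * ram d k)]
    congr 1
    rw [mul_sum]
    apply sum_congr rfl
    intro r _
    rw [mul_sum]
    apply sum_congr rfl
    intro t _
    rfl
  rw [sum_congr rfl h1, ← mul_sum, norm_mul, norm_mul, V1.norm_E, one_mul]
  gcongr
  refine (norm_sum_le _ _).trans (sum_le_sum fun m _ => ?_)
  rw [norm_mul, HB.norm_mob, one_mul]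
  exact kernel_bilinear H hx _ _ _ fun r hr => uk_mem hK hKS hr

/-- the linear form, after removing the factors independent of `r` -/
theorem norm_lf_wk_le {K : ℝ} (c : O → ℂ) {S : Finset O} {X : ℝ} {d m : O} (hm : m ≠ 0) (k : O)
    (s : ℝ) :
    ‖lf (cof S X (d * m)) (wk c d m k) (uk K d m) s‖ ≤
      ‖∑ r ∈ cof S X (d * m), (conj (zc c (d * (m * r))) * ch r d *
        Complex.exp (Complex.I * (s * (-(uk K d m r) : ℝ)))) * ch r k‖ := by
  have h1 : lf (cof S X (d * m)) (wk c d m k) (uk K d m) s = ch m (k * d) *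
      ∑ r ∈ cof S X (d * m), (conj (zc c (d * (m * r))) * ch r d *
        Complex.exp (Complex.I * (s * (-(uk K d m r) : ℝ)))) * ch r k := by
    rw [lf, mul_sum]
    refine sum_congr rfl fun r hr => ?_
    have hr0 : r ≠ 0 := by
      rw [mem_cof] at hr
      exact (HB.mem_SF.1 hr.1).2.1.ne_zero
    rw [wk, V1.ch_mul_left hm hr0, V1.ch_mul r k d]
    ring
  rw [h1, norm_mul]
  have := V1.norm_ch_le m (k * d)
  nlinarith [norm_nonneg (∑ r ∈ cof S X (d * m), (conj (zc c (d * (m * r))) * ch r d *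
        Complex.exp (Complex.I * (s * (-(uk K d m r) : ℝ)))) * ch r k)]

open Classical in
/-- the sum over the multiples of `f` at a fixed `s` -/
theorem sum_fixed_s {ω : ℝ → ℝ} (hω : ∀ x, 0 < x → 0 ≤ ω x) {B K U : ℝ} (hB : 0 < B)
    (hK : 0 < K) (c : O → ℂ) {S : Finset O} {X : ℝ} (hS : S ⊆ HB.SF X)
    (hKS : ∀ k ∈ S, K ≤ (N k : ℝ) ∧ (N k : ℝ) ≤ K * Real.exp (U / 2))
    {Ψ : O → ℝ → ℝ} (hΨ : PsiHyp ω c S X Ψ) {d m f : O} (hd : d ≠ 0) (hm : m ≠ 0) (hf : f ≠ 0)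
    (F : Finset O) (hF : ∀ k ∈ F, k ≠ 0) (s : ℝ) :
    ∑ k ∈ F, (if f ∣ k then ω (B * N k * N d / (27 * K ^ 2)) *
      ‖lf (cof S X (d * m)) (wk c d m k) (uk K d m) s‖ ^ 2 else 0) ≤
      Ψ (d * m) (B * N f * N d / (27 * K ^ 2)) / K := by
  have pd : (0 : ℝ) < N d := by exact_mod_cast N_pos hd
  have pf : (0 : ℝ) < N f := by exact_mod_cast N_pos hf
  set l : ℝ := B * N f * N d / (27 * K ^ 2) with hl
  have hl0 : 0 < l := by positivity
  have hsK : 0 < Real.sqrt K := Real.sqrt_pos.2 hK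
  set x : O → ℂ := fun r => if r ∈ cof S X (d * m) then (Real.sqrt K : ℝ) *
    ((conj (zc c (d * (m * r))) * ch r d * Complex.exp (Complex.I * (s * (-(uk K d m r) : ℝ)))) *
      ch r f) else 0 with hx
  have hxn : ∀ t, ‖x t‖ ≤ ‖c (d * m * t)‖ := by
    intro t
    simp only [hx]
    split_ifs with ht
    · rw [mem_cof] at ht
      have h1 := hKS _ ht.2
      have h2 := HB.mem_SF.1 (hS ht.2)
      rw [norm_mul, norm_mul, norm_mul, norm_mul, RCLike.norm_conj, norm_exp_Isv,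
        Complex.norm_real, Real.norm_of_nonneg hsK.le, ← mul_assoc d m t, norm_zc h2.2.1 h2.2.2,
        mul_one]
      have h3 : Real.sqrt K ≤ Real.sqrt (N (d * m * t)) := Real.sqrt_le_sqrt h1.1
      have h4 : 0 < Real.sqrt (N (d * m * t)) := hsK.trans_le h3
      have h5 := V1.norm_ch_le t d
      have h6 := V1.norm_ch_le t f
      calc Real.sqrt K * (‖c (d * m * t)‖ / Real.sqrt (N (d * m * t)) * ‖ch t d‖ * ‖ch t f‖)
          ≤ Real.sqrt (N (d * m * t)) *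
            (‖c (d * m * t)‖ / Real.sqrt (N (d * m * t)) * 1 * 1) := by gcongr
        _ = ‖c (d * m * t)‖ := by field_simp
    · simp
  have hinj : Set.InjOn (fun h : O => f * h) ((fun h : O => f * h) ⁻¹' (F : Set O)) :=
    fun a _ b _ hab => mul_left_cancel₀ hf hab
  set F' := F.preimage (fun h : O => f * h) hinj with hF'
  have hF'0 : ∀ h ∈ F', h ≠ 0 := by
    intro h hh h0
    rw [hF', mem_preimage, h0, mul_zero] at hh
    exact hF 0 hh rfl
  have hΨ' := hΨ (d * m) l hl0 x hxn F' hF'0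
  have h1 : ∑ k ∈ F, (if f ∣ k then ω (B * N k * N d / (27 * K ^ 2)) *
      ‖lf (cof S X (d * m)) (wk c d m k) (uk K d m) s‖ ^ 2 else 0) =
      ∑ h ∈ F', ω (B * N (f * h) * N d / (27 * K ^ 2)) *
        ‖lf (cof S X (d * m)) (wk c d m (f * h)) (uk K d m) s‖ ^ 2 := by
    have h2 := sum_preimage' (fun h : O => f * h) F hinj
      (fun k => ω (B * N k * N d / (27 * K ^ 2)) *
        ‖lf (cof S X (d * m)) (wk c d m k) (uk K d m) s‖ ^ 2)
    rw [hF', h2, sum_filter]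
    refine sum_congr rfl fun k _ => ?_
    have h3 : k ∈ Set.range (fun h : O => f * h) ↔ f ∣ k := by
      constructor
      · rintro ⟨h, rfl⟩; exact dvd_mul_right f h
      · rintro ⟨h, rfl⟩; exact ⟨h, rfl⟩
    simp only [h3]
  rw [h1, le_div_iff₀ hK, sum_mul]
  refine le_trans (sum_le_sum fun h hh => ?_) hΨ'
  have h2 : B * N (f * h) * N d / (27 * K ^ 2) = l * N h := by
    rw [hl, N_mul]; push_cast; ring
  have ph : (0 : ℝ) < N h := by exact_mod_cast N_pos (hF'0 h hh)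
  have hωh := hω (l * N h) (by positivity)
  rw [h2, mul_assoc]
  gcongr
  have h3 := norm_lf_wk_le (K := K) c (S := S) (X := X) (d := d) hm (f * h) s
  have h4 : ∑ t ∈ cof S X (d * m), x t * ch t h = (Real.sqrt K : ℝ) *
      ∑ r ∈ cof S X (d * m), (conj (zc c (d * (m * r))) * ch r d *
        Complex.exp (Complex.I * (s * (-(uk K d m r) : ℝ)))) * ch r (f * h) := by
    rw [mul_sum]
    refine sum_congr rfl fun r hr => ?_
    simp only [hx, if_pos hr]
    rw [V1.ch_mul r f h]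
    ring
  rw [h4, norm_mul, mul_pow, Complex.norm_real, Real.norm_of_nonneg hsK.le, Real.sq_sqrt hK.le,
    mul_comm]
  gcongr

open Classical in
theorem sum_Gd_le {V : ℝ → ℂ} {ω g : ℝ → ℝ} {U : ℝ} (H : KSep (PO.Vo V) ω g U) {B K : ℝ}
    (hB : 0 < B) (hK : 0 < K) (c : O → ℂ) {S : Finset O} {X : ℝ} (hS : S ⊆ HB.SF X)
    (hKS : ∀ k ∈ S, K ≤ (N k : ℝ) ∧ (N k : ℝ) ≤ K * Real.exp (U / 2))
    {Ψ : O → ℝ → ℝ} (hΨ : PsiHyp ω c S X Ψ) {d : O} (hd : d ∈ HB.SF X)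
    (F : Finset O) (hF : ∀ k ∈ F, k ≠ 0) :
    ∑ k ∈ F, ‖Gd V B K c S X d k‖ ≤ ∑ m ∈ HB.SF X, ∑ f ∈ HB.D d,
      N f * ((∫ s, g s) * (Ψ (d * m) (B * N f * N d / (27 * K ^ 2)) / K)) := by
  have hd' := HB.mem_SF.1 hd
  have hd0 : d ≠ 0 := hd'.2.1.ne_zero
  have pd : (0 : ℝ) < N d := by exact_mod_cast N_pos hd0
  set I : O → O → ℝ := fun m k => ∫ s, g s *
    ‖lf (cof S X (d * m)) (wk c d m k) (uk K d m) s‖ ^ 2 with hI
  have hI0 : ∀ m k, 0 ≤ I m k := fun m k =>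
    integral_nonneg fun s => mul_nonneg (H.g_nonneg s) (by positivity)
  have h1 : ∀ k ∈ F, ‖Gd V B K c S X d k‖ ≤ ∑ m ∈ HB.SF X, ∑ f ∈ HB.D d,
      N f * (if f ∣ k then ω (B * N k * N d / (27 * K ^ 2)) * I m k else 0) := by
    intro k hk
    have pk : (0 : ℝ) < N k := by exact_mod_cast N_pos (hF k hk)
    have hω := H.ω_nonneg (B * N k * N d / (27 * K ^ 2)) (by positivity)
    refine (norm_Gd_le H hB hK c hS hKS hd0 (hF k hk)).trans ?_
    have h2 := norm_ram_le_sum k d hd'.2.1 hd'.2.2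
    have h3 : 0 ≤ ∑ m ∈ HB.SF X, ω (B * N k * N d / (27 * K ^ 2)) * I m k :=
      sum_nonneg fun m _ => mul_nonneg hω (hI0 m k)
    refine (mul_le_mul_of_nonneg_right h2 h3).trans (le_of_eq ?_)
    rw [mul_sum]
    refine sum_congr rfl fun m _ => ?_
    rw [sum_mul]
    refine sum_congr rfl fun f _ => ?_
    split_ifs <;> ring
  refine (sum_le_sum h1).trans ?_
  rw [sum_comm]
  refine sum_le_sum fun m hm => ?_
  rw [sum_comm]
  refine sum_le_sum fun f hf => ?_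
  rw [← mul_sum]
  gcongr
  have hm0 : m ≠ 0 := (HB.mem_SF.1 hm).2.1.ne_zero
  have hf0 : f ≠ 0 := ((HB.mem_D hd0).1 hf).1.ne_zero
  -- exchange the finite sum and the integral
  have hint : ∀ k : O, Integrable fun s => g s *
      ‖lf (cof S X (d * m)) (wk c d m k) (uk K d m) s‖ ^ 2 :=
    fun k => integrable_g_lf H.g_int _ _ _
  have h2 : ∑ k ∈ F, (if f ∣ k then ω (B * N k * N d / (27 * K ^ 2)) * I m k else 0) =
      ∫ s, g s * ∑ k ∈ F, (if f ∣ k then ω (B * N k * N d / (27 * K ^ 2)) *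
        ‖lf (cof S X (d * m)) (wk c d m k) (uk K d m) s‖ ^ 2 else 0) := by
    have h3 : ∀ k ∈ F, (if f ∣ k then ω (B * N k * N d / (27 * K ^ 2)) * I m k else 0) =
        ∫ s, (if f ∣ k then ω (B * N k * N d / (27 * K ^ 2)) * (g s *
          ‖lf (cof S X (d * m)) (wk c d m k) (uk K d m) s‖ ^ 2) else 0) := by
      intro k _
      split_ifs
      · rw [integral_const_mul]
      · simp
    rw [sum_congr rfl h3, ← integral_finsetSum]
    · refine integral_congr_ae (Filter.Eventually.of_forall fun s => ?_)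
      simp only
      rw [mul_sum]
      refine sum_congr rfl fun k _ => ?_
      split_ifs <;> ring
    · intro k _
      split_ifs
      · exact (hint k).const_mul _
      · exact integrable_zero _ _ _
  rw [h2]
  rw [← integral_mul_const]
  apply integral_mono_of_nonneg
  · refine Filter.Eventually.of_forall fun s => ?_
    apply mul_nonneg (H.g_nonneg s)
    apply sum_nonneg
    intro k hk
    have pk : (0 : ℝ) < N k := by exact_mod_cast N_pos (hF k hk)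
    have hω := H.ω_nonneg (B * N k * N d / (27 * K ^ 2)) (by positivity)
    split_ifs <;> positivity
  · exact H.g_int.mul_const _
  · refine Filter.Eventually.of_forall fun s => ?_
    exact mul_le_mul_of_nonneg_left
      (sum_fixed_s H.ω_nonneg hB hK c hS hKS hΨ hd0 hm0 hf0 F hF s) (H.g_nonneg s)

/-- **The Poisson duality inequality** for an abstract separable kernel. -/
theorem dual_ineq {V : ℝ → ℂ} (hV : PO.Wt V) {ω g : ℝ → ℝ} {U : ℝ} (H : KSep (PO.Vo V) ω g U)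
    {B K : ℝ} (hB : 0 < B) (hK : 0 < K) (c : O → ℂ) {S : Finset O} {X : ℝ} (hS : S ⊆ HB.SF X)
    (hKS : ∀ k ∈ S, K ≤ (N k : ℝ) ∧ (N k : ℝ) ≤ K * Real.exp (U / 2))
    {Ψ : O → ℝ → ℝ} (hΨ : PsiHyp ω c S X Ψ) :
    ‖∑' b : O, prim b * V (N b / B) * ((‖∑ k ∈ S, c k * ch k b‖ ^ 2 : ℝ) : ℂ)‖ ≤
      B * (‖PO.Vo V 0‖ * ∑ k ∈ S, ‖c k‖ ^ 2) + B / K * ((∫ s, g s) *
        ∑ d ∈ HB.SF X, ∑ m ∈ HB.SF X, ∑ f ∈ HB.D d,
          N f * Ψ (d * m) (B * N f * N d / (27 * K ^ 2))) := by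
  classical
  have s3 : 1 ≤ Real.sqrt 3 := by
    rw [show (1 : ℝ) = Real.sqrt 1 by simp]; exact Real.sqrt_le_sqrt (by norm_num)
  have ha : 2 * B / (9 * Real.sqrt 3) ≤ B := by
    rw [div_le_iff₀ (by positivity)]; nlinarith
  have hg : 0 ≤ ∫ s, g s := integral_nonneg H.g_nonneg
  rw [dual_identity hV hB hK c hS, norm_mul, Complex.norm_real,
    Real.norm_of_nonneg (by positivity)]
  set M1 : ℝ := ‖PO.Vo V 0‖ * ∑ k ∈ S, ‖c k‖ ^ 2 with hM1
  set M2 : ℝ := ∑ d ∈ HB.SF X, ∑ m ∈ HB.SF X, ∑ f ∈ HB.D d,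
    N f * ((∫ s, g s) * (Ψ (d * m) (B * N f * N d / (27 * K ^ 2)) / K)) with hM2
  have h1 : ‖∑ d ∈ HB.SF X, ∑' k : O, Gd V B K c S X d k‖ ≤ M1 + M2 := by
    calc ‖∑ d ∈ HB.SF X, ∑' k : O, Gd V B K c S X d k‖
        ≤ ∑ d ∈ HB.SF X, ((if d ∈ S then ‖c d‖ ^ 2 * ‖PO.Vo V 0‖ else 0) +
          ∑ m ∈ HB.SF X, ∑ f ∈ HB.D d,
            N f * ((∫ s, g s) * (Ψ (d * m) (B * N f * N d / (27 * K ^ 2)) / K))) := by
          refine (norm_sum_le _ _).trans (sum_le_sum fun d hd => ?_)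
          refine (norm_tsum_le_add (M := ∑ m ∈ HB.SF X, ∑ f ∈ HB.D d,
            N f * ((∫ s, g s) * (Ψ (d * m) (B * N f * N d / (27 * K ^ 2)) / K)))
            fun F hF => sum_Gd_le H hB hK c hS hKS hΨ hd F hF).trans ?_
          have := norm_Gd_zero (V := V) (B := B) (K := K) c (S := S) hd
          linarith
      _ = M1 + M2 := by
          rw [sum_add_distrib, ← sum_filter]
          congr 1
          have hf : (HB.SF X).filter (fun d => d ∈ S) = S := by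
            ext k
            rw [mem_filter]
            exact ⟨fun h => h.2, fun h => ⟨hS h, h⟩⟩
          rw [hf, hM1, mul_comm, sum_mul]
  have hM1n : 0 ≤ M1 := by positivity
  have hM2n : 0 ≤ M2 := by
    refine sum_nonneg fun d hd => sum_nonneg fun m hm => sum_nonneg fun f hf => ?_
    have pd : (0 : ℝ) < N d := by exact_mod_cast N_pos (HB.mem_SF.1 hd).2.1.ne_zero
    have pf : (0 : ℝ) < N f := by
      exact_mod_cast N_pos ((HB.mem_D (HB.mem_SF.1 hd).2.1.ne_zero).1 hf).1.ne_zero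
    have := hΨ.nonneg (d * m) (l := B * N f * N d / (27 * K ^ 2)) (by positivity)
    positivity
  have h2 : B * M2 = B / K * ((∫ s, g s) * ∑ d ∈ HB.SF X, ∑ m ∈ HB.SF X, ∑ f ∈ HB.D d,
          N f * Ψ (d * m) (B * N f * N d / (27 * K ^ 2))) := by
    rw [hM2]
    simp only [mul_sum]
    refine sum_congr rfl fun d _ => sum_congr rfl fun m _ => sum_congr rfl fun f _ => ?_
    field_simp
  calc 2 * B / (9 * Real.sqrt 3) * ‖∑ d ∈ HB.SF X, ∑' k : O, Gd V B K c S X d k‖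
      ≤ B * (M1 + M2) := by gcongr
    _ = _ := by rw [mul_add, h2]

end Vale.Agent.P006.FINE
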