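import Vale.Agent.P006.FINE.Block
import Vale.Agent.P006.H845.Count

/-!
# P006, block FINE: families of fine blocks
-/

namespace Vale.Agent.P006.FINE

open Finset
open V1 (ch)

/-! ### counting -/

theorem card_SF_le {X : ℝ} (hX : 0 ≤ X) : ((HB.SF X).card : ℝ) ≤ 4 * X := by
  have h1 : HB.SF X ⊆ PB X := by
    intro z hz
    rw [HB.mem_SF] at hz
    rw [mem_PB]
    exact ⟨hz.2.1, hz.1⟩
  have h2 : ((HB.SF X).card : ℝ) ≤ (PB X).card := by exact_mod_cast card_le_card h1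
  exact h2.trans (card_PB_le hX)

theorem sum_cof_le {K X : ℝ} {I : Finset ℕ} {S : ℕ → Finset O} {c : O → ℂ}
    (hc : ∀ k, ‖c k‖ ≤ 1) (hS : ∀ s ∈ I, ∀ k ∈ S s, (N k : ℝ) ≤ K)
    (hd : (I : Set ℕ).PairwiseDisjoint S) {e : O} (he : e ≠ 0) (hK : 0 ≤ K) :
    ∑ s ∈ I, ∑ t ∈ cof (S s) X e, ‖c (e * t)‖ ^ 2 ≤ 4 * (K / N e) := by
  classical
  have h1 : ∑ s ∈ I, ∑ t ∈ cof (S s) X e, ‖c (e * t)‖ ^ 2 ≤
      ∑ s ∈ I, ((cof (S s) X e).card : ℝ) := by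
    refine sum_le_sum fun s _ => ?_
    rw [card_eq_sum_ones]
    push_cast
    refine sum_le_sum fun t _ => ?_
    have := hc (e * t)
    exact pow_le_one₀ (norm_nonneg _) this
  refine h1.trans ?_
  have h2 : (I : Set ℕ).PairwiseDisjoint (fun s => cof (S s) X e) := by
    intro s hs t ht hst
    have h3 := hd hs ht hst
    rw [Function.onFun, Finset.disjoint_left] at h3 ⊢
    intro r hr hr'
    rw [mem_cof] at hr hr'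
    exact h3 hr.2 hr'.2
  have h3 : ∑ s ∈ I, ((cof (S s) X e).card : ℝ) = ((I.biUnion fun s => cof (S s) X e).card : ℝ) := by
    rw [card_biUnion h2]
    push_cast
    rfl
  rw [h3]
  have h4 : (I.biUnion fun s => cof (S s) X e) ⊆ HB.SF (K / N e) := by
    intro r hr
    rw [mem_biUnion] at hr
    obtain ⟨s, hs, hr⟩ := hr
    exact cof_le (hS s hs) he hr
  refine le_trans (by exact_mod_cast card_le_card h4) (card_SF_le (by positivity))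

/-! ### the kernel of the dual side -/

/-- the factor of `PsiF` which does not depend on the block -/
noncomputable def Gf (ε δ K : ℝ) (e : O) (l : ℝ) : ℝ :=
  (K ^ ε * l ^ (-(2 * ε)) * δ ^ (-(4 * ε))) *
    (l⁻¹ * δ ^ (-(1 / 2) : ℝ) + K / N e * (l ^ (-(1 / 3) : ℝ) * δ ^ (5 / 6 : ℝ)) +
      (K / N e) ^ (2 / 3 : ℝ) * (l ^ (-(2 / 3) : ℝ) * δ ^ (1 / 6 : ℝ)))

theorem PsiF_eq_Gf (ε δ K : ℝ) (c : O → ℂ) (S : Finset O) (X : ℝ) (e : O) (l : ℝ) :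
    PsiF 1 ε δ K c S X e l = Gf ε δ K e l * ∑ t ∈ cof S X e, ‖c (e * t)‖ ^ 2 := by
  rw [PsiF, Gf, one_mul]

theorem Gf_nonneg {ε δ K : ℝ} (hδ : 0 < δ) (hK : 0 < K) (e : O) {l : ℝ} (hl : 0 ≤ l) :
    0 ≤ Gf ε δ K e l := by
  unfold Gf; positivity

theorem Gf_anti {ε δ K : ℝ} (hε : 0 ≤ ε) (hδ : 0 < δ) (hK : 0 < K) (e : O) {l l' : ℝ}
    (hl : 0 < l) (h : l ≤ l') : Gf ε δ K e l' ≤ Gf ε δ K e l := by
  unfold Gf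
  have hl' : 0 < l' := by linarith
  have h1 : l' ^ (-(2 * ε)) ≤ l ^ (-(2 * ε)) :=
    Real.rpow_le_rpow_of_nonpos hl h (by linarith)
  have h2 : l'⁻¹ ≤ l⁻¹ := inv_anti₀ hl h
  have h3 : l' ^ (-(1 / 3) : ℝ) ≤ l ^ (-(1 / 3) : ℝ) :=
    Real.rpow_le_rpow_of_nonpos hl h (by norm_num)
  have h4 : l' ^ (-(2 / 3) : ℝ) ≤ l ^ (-(2 / 3) : ℝ) :=
    Real.rpow_le_rpow_of_nonpos hl h (by norm_num)
  gcongr

/-- the bound of one term of the dual sum -/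
noncomputable def Pf (ε δ K R : ℝ) : ℝ :=
  4 * K * (K ^ ε * δ ^ (-(4 * ε)) * R ^ (2 * ε)) * (R * δ ^ (-(1 / 2) : ℝ) +
    K * (R ^ (1 / 3 : ℝ) * δ ^ (5 / 6 : ℝ)) +
      K ^ (2 / 3 : ℝ) * (R ^ (2 / 3 : ℝ) * δ ^ (1 / 6 : ℝ)))

theorem term_le {ε δ K R x y z : ℝ} (hε : 0 ≤ ε) (hδ : 0 < δ) (hK : 0 < K) (hR : 0 < R)
    (hx : 1 ≤ x) (hy : 1 ≤ y) (hz : 1 ≤ z) (hzx : z ≤ x) :
    z * (((K ^ ε * (R⁻¹ * z * x) ^ (-(2 * ε)) * δ ^ (-(4 * ε))) *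
    ((R⁻¹ * z * x)⁻¹ * δ ^ (-(1 / 2) : ℝ) + K / (x * y) * ((R⁻¹ * z * x) ^ (-(1 / 3) : ℝ) *
      δ ^ (5 / 6 : ℝ)) + (K / (x * y)) ^ (2 / 3 : ℝ) * ((R⁻¹ * z * x) ^ (-(2 / 3) : ℝ) *
        δ ^ (1 / 6 : ℝ)))) * (4 * (K / (x * y)))) ≤ Pf ε δ K R * (x ^ (-(5 / 3) : ℝ) * y⁻¹) := by
  have x0 : 0 < x := by linarith
  have y0 : 0 < y := by linarith
  have z0 : 0 < z := by linarith
  have hp : ∀ p : ℝ, (R⁻¹ * z * x) ^ (-p) = R ^ p * (z ^ (-p) * x ^ (-p)) := by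
    intro p
    rw [Real.mul_rpow (by positivity) x0.le, Real.mul_rpow (by positivity) z0.le,
      Real.inv_rpow hR.le, Real.rpow_neg hR.le, inv_inv]
    ring
  have e0 : (R⁻¹ * z * x)⁻¹ = R * (z⁻¹ * x⁻¹) := by
    field_simp
  have hk : (K / (x * y)) ^ (2 / 3 : ℝ) = K ^ (2 / 3 : ℝ) * (x ^ (-(2 / 3) : ℝ) *
      y ^ (-(2 / 3) : ℝ)) := by
    rw [Real.div_rpow hK.le (by positivity), Real.mul_rpow x0.le y0.le, Real.rpow_neg x0.le,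
      Real.rpow_neg y0.le]
    field_simp
  rw [hp, hp, hp, e0, hk]
  -- elementary bounds
  have a1 : z ^ (-(2 * ε)) * x ^ (-(2 * ε)) ≤ 1 := by
    have b1 : z ^ (-(2 * ε)) ≤ 1 := Real.rpow_le_one_of_one_le_of_nonpos hz (by linarith)
    have b2 : x ^ (-(2 * ε)) ≤ 1 := Real.rpow_le_one_of_one_le_of_nonpos hx (by linarith)
    calc _ ≤ (1 : ℝ) * 1 := by gcongr
      _ = 1 := one_mul 1
  -- first term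
  have t1 : z * (z⁻¹ * x⁻¹) * (x * y)⁻¹ ≤ x ^ (-(5 / 3) : ℝ) * y⁻¹ := by
    have b1 : z * (z⁻¹ * x⁻¹) * (x * y)⁻¹ = x ^ (-2 : ℝ) * y⁻¹ := by
      rw [show (-2 : ℝ) = -((2 : ℕ) : ℝ) by norm_num, Real.rpow_neg x0.le, Real.rpow_natCast]
      field_simp
    rw [b1]
    have b2 : x ^ (-2 : ℝ) ≤ x ^ (-(5 / 3) : ℝ) :=
      Real.rpow_le_rpow_of_exponent_le hx (by norm_num)
    gcongr
  have t2 : z * ((x * y)⁻¹ * (z ^ (-(1 / 3) : ℝ) * x ^ (-(1 / 3) : ℝ))) * (x * y)⁻¹ ≤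
      x ^ (-(5 / 3) : ℝ) * y⁻¹ := by
    have b0 : z * z ^ (-(1 / 3) : ℝ) = z ^ (2 / 3 : ℝ) := by
      nth_rewrite 1 [← Real.rpow_one z]
      rw [← Real.rpow_add z0]; norm_num
    have b1 : z ^ (2 / 3 : ℝ) ≤ x ^ (2 / 3 : ℝ) := Real.rpow_le_rpow z0.le hzx (by norm_num)
    have b2 : y⁻¹ ≤ 1 := inv_le_one_of_one_le₀ hy
    have b3 : x ^ (2 / 3 : ℝ) * x ^ (-(1 / 3) : ℝ) * (x⁻¹ * x⁻¹) = x ^ (-(5 / 3) : ℝ) := by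
      rw [← Real.rpow_neg_one x, ← Real.rpow_add x0, ← Real.rpow_add x0, ← Real.rpow_add x0]
      norm_num
    calc z * ((x * y)⁻¹ * (z ^ (-(1 / 3) : ℝ) * x ^ (-(1 / 3) : ℝ))) * (x * y)⁻¹
        = (z * z ^ (-(1 / 3) : ℝ)) * x ^ (-(1 / 3) : ℝ) * (x⁻¹ * x⁻¹) * y⁻¹ * y⁻¹ := by
          rw [mul_inv]; ring
      _ ≤ x ^ (2 / 3 : ℝ) * x ^ (-(1 / 3) : ℝ) * (x⁻¹ * x⁻¹) * y⁻¹ * 1 := by
          rw [b0]; gcongr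
      _ = _ := by rw [b3, mul_one]
  have t3 : z * (x ^ (-(2 / 3) : ℝ) * y ^ (-(2 / 3) : ℝ) * (z ^ (-(2 / 3) : ℝ) *
      x ^ (-(2 / 3) : ℝ))) * (x * y)⁻¹ ≤ x ^ (-(5 / 3) : ℝ) * y⁻¹ := by
    have b0 : z * z ^ (-(2 / 3) : ℝ) = z ^ (1 / 3 : ℝ) := by
      nth_rewrite 1 [← Real.rpow_one z]
      rw [← Real.rpow_add z0]; norm_num
    have b1 : z ^ (1 / 3 : ℝ) ≤ x ^ (1 / 3 : ℝ) := Real.rpow_le_rpow z0.le hzx (by norm_num)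
    have b2 : y ^ (-(2 / 3) : ℝ) ≤ 1 := Real.rpow_le_one_of_one_le_of_nonpos hy (by norm_num)
    have b3 : x ^ (1 / 3 : ℝ) * x ^ (-(2 / 3) : ℝ) * x ^ (-(2 / 3) : ℝ) * x⁻¹ =
        x ^ (-2 : ℝ) := by
      rw [← Real.rpow_neg_one x, ← Real.rpow_add x0, ← Real.rpow_add x0, ← Real.rpow_add x0]
      norm_num
    calc z * (x ^ (-(2 / 3) : ℝ) * y ^ (-(2 / 3) : ℝ) * (z ^ (-(2 / 3) : ℝ) *
          x ^ (-(2 / 3) : ℝ))) * (x * y)⁻¹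
        = (z * z ^ (-(2 / 3) : ℝ)) * x ^ (-(2 / 3) : ℝ) * x ^ (-(2 / 3) : ℝ) * x⁻¹ *
            y ^ (-(2 / 3) : ℝ) * y⁻¹ := by rw [mul_inv]; ring
      _ ≤ x ^ (1 / 3 : ℝ) * x ^ (-(2 / 3) : ℝ) * x ^ (-(2 / 3) : ℝ) * x⁻¹ * 1 * y⁻¹ := by
          rw [b0]; gcongr
      _ = x ^ (-2 : ℝ) * y⁻¹ := by rw [b3, mul_one]
      _ ≤ _ := by
          have b4 : x ^ (-2 : ℝ) ≤ x ^ (-(5 / 3) : ℝ) :=
            Real.rpow_le_rpow_of_exponent_le hx (by norm_num)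
          gcongr
  set u := x ^ (-(5 / 3) : ℝ) * y⁻¹ with hu
  have hu0 : 0 ≤ u := by positivity
  rw [Pf]
  calc z * ((K ^ ε * (R ^ (2 * ε) * (z ^ (-(2 * ε)) * x ^ (-(2 * ε)))) * δ ^ (-(4 * ε))) *
      (R * (z⁻¹ * x⁻¹) * δ ^ (-(1 / 2) : ℝ) + K / (x * y) * (R ^ (1 / 3 : ℝ) *
        (z ^ (-(1 / 3) : ℝ) * x ^ (-(1 / 3) : ℝ)) * δ ^ (5 / 6 : ℝ)) +
        K ^ (2 / 3 : ℝ) * (x ^ (-(2 / 3) : ℝ) * y ^ (-(2 / 3) : ℝ)) * (R ^ (2 / 3 : ℝ) *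
          (z ^ (-(2 / 3) : ℝ) * x ^ (-(2 / 3) : ℝ)) * δ ^ (1 / 6 : ℝ))) * (4 * (K / (x * y))))
      = 4 * K * (K ^ ε * δ ^ (-(4 * ε)) * R ^ (2 * ε)) * (z ^ (-(2 * ε)) * x ^ (-(2 * ε))) *
        (R * δ ^ (-(1 / 2) : ℝ) * (z * (z⁻¹ * x⁻¹) * (x * y)⁻¹) +
        K * (R ^ (1 / 3 : ℝ) * δ ^ (5 / 6 : ℝ)) *
          (z * ((x * y)⁻¹ * (z ^ (-(1 / 3) : ℝ) * x ^ (-(1 / 3) : ℝ))) * (x * y)⁻¹) +
        K ^ (2 / 3 : ℝ) * (R ^ (2 / 3 : ℝ) * δ ^ (1 / 6 : ℝ)) *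
          (z * (x ^ (-(2 / 3) : ℝ) * y ^ (-(2 / 3) : ℝ) * (z ^ (-(2 / 3) : ℝ) *
            x ^ (-(2 / 3) : ℝ))) * (x * y)⁻¹)) := by
        rw [div_eq_mul_inv]; ring
    _ ≤ 4 * K * (K ^ ε * δ ^ (-(4 * ε)) * R ^ (2 * ε)) * 1 *
        (R * δ ^ (-(1 / 2) : ℝ) * u + K * (R ^ (1 / 3 : ℝ) * δ ^ (5 / 6 : ℝ)) * u +
        K ^ (2 / 3 : ℝ) * (R ^ (2 / 3 : ℝ) * δ ^ (1 / 6 : ℝ)) * u) := by
        gcongr
    _ = _ := by ring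

end Vale.Agent.P006.FINE
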