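import Vale.Agent.P006.FINE.Family

/-!
# P006, block FINE: families of fine blocks, summation
-/

namespace Vale.Agent.P006.FINE

open Finset
open V1 (ch)

theorem sum_dmf_le {ε : ℝ} (hε : 0 < ε) : ∃ C : ℝ, 0 < C ∧ ∀ K : ℝ, 1 ≤ K →
    ∑ d ∈ HB.SF K, ∑ m ∈ HB.SF K, ∑ _f ∈ HB.D d, (N d : ℝ) ^ (-(5 / 3) : ℝ) * (N m : ℝ)⁻¹ ≤
      C * K ^ ε := by
  obtain ⟨C1, hC1, H1⟩ := HB.card_D_le (ε := 1 / 3) (by norm_num)
  obtain ⟨C2, hC2, H2⟩ := HB.sum_inv_N_le hε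
  have hs := HB.summable_N_rpow (s := 4 / 3) (by norm_num)
  set Z : ℝ := ∑' z : O, (N z : ℝ) ^ (-(4 / 3) : ℝ) with hZ
  have hZ0 : 0 ≤ Z := tsum_nonneg fun z => by positivity
  refine ⟨C1 * (Z + 1) * C2, by positivity, fun K hK => ?_⟩
  have h1 : ∑ d ∈ HB.SF K, ∑ m ∈ HB.SF K, ∑ _f ∈ HB.D d, (N d : ℝ) ^ (-(5 / 3) : ℝ) *
      (N m : ℝ)⁻¹ = (∑ d ∈ HB.SF K, ((HB.D d).card : ℝ) * (N d : ℝ) ^ (-(5 / 3) : ℝ)) *
        ∑ m ∈ HB.SF K, (N m : ℝ)⁻¹ := by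
    rw [sum_mul]
    refine sum_congr rfl fun d _ => ?_
    rw [mul_sum]
    refine sum_congr rfl fun m _ => ?_
    rw [sum_const, nsmul_eq_mul]
    ring
  rw [h1]
  have h2 : ∑ d ∈ HB.SF K, ((HB.D d).card : ℝ) * (N d : ℝ) ^ (-(5 / 3) : ℝ) ≤
      C1 * (Z + 1) := by
    calc ∑ d ∈ HB.SF K, ((HB.D d).card : ℝ) * (N d : ℝ) ^ (-(5 / 3) : ℝ)
        ≤ ∑ d ∈ HB.SF K, C1 * (N d : ℝ) ^ (-(4 / 3) : ℝ) := by
          refine sum_le_sum fun d hd => ?_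
          rw [HB.mem_SF] at hd
          have h3 := H1 d hd.2.1 hd.2.2
          have hN : (0 : ℝ) < N d := by exact_mod_cast N_pos hd.2.1.ne_zero
          calc ((HB.D d).card : ℝ) * (N d : ℝ) ^ (-(5 / 3) : ℝ) ≤
              C1 * (N d : ℝ) ^ (1 / 3 : ℝ) * (N d : ℝ) ^ (-(5 / 3) : ℝ) := by gcongr
            _ = _ := by
              rw [mul_assoc, ← Real.rpow_add hN]; norm_num
      _ = C1 * ∑ d ∈ HB.SF K, (N d : ℝ) ^ (-(4 / 3) : ℝ) := by rw [mul_sum]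
      _ ≤ C1 * Z := by
          gcongr
          exact hs.sum_le_tsum _ fun z _ => by positivity
      _ ≤ _ := by gcongr; linarith
  have h3 : ∑ m ∈ HB.SF K, (N m : ℝ)⁻¹ ≤ C2 * K ^ ε := by
    refine le_trans (sum_le_sum_of_subset_of_nonneg (fun z hz => ?_) fun _ _ _ => by positivity)
      (H2 K (by linarith))
    rw [HB.mem_SF] at hz
    rw [HB.mem_Hn]
    exact ⟨hz.1, hz.2.1.ne_zero⟩
  calc _ ≤ C1 * (Z + 1) * (C2 * K ^ ε) := by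
        apply mul_le_mul h2 h3 (sum_nonneg fun _ _ => by positivity) (by positivity)
    _ = _ := by ring

theorem sum_Qs_le {ε : ℝ} (hε : 0 < ε) : ∃ C : ℝ, 0 < C ∧ ∀ δ : ℝ, 0 < δ →
    ∀ (K R b : ℝ) (I : Finset ℕ) (S : ℕ → Finset O) (c : O → ℂ) (Bs Ks : ℕ → ℝ), 1 ≤ K →
      0 < R → 0 < b → (∀ k, ‖c k‖ ≤ 1) → (∀ s ∈ I, S s ⊆ HB.SF K) →
      (I : Set ℕ).PairwiseDisjoint S →
      (∀ s ∈ I, 0 < Ks s ∧ 0 < Bs s ∧ Bs s / Ks s ≤ b ∧ R⁻¹ ≤ Bs s / (27 * Ks s ^ 2)) →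
      ∑ s ∈ I, Bs s / Ks s * Qs ε δ (Ks s) K K (Bs s) (S s) c ≤
        C * K ^ ε * (b * Pf ε δ K R) := by
  obtain ⟨C, hC, H⟩ := sum_dmf_le hε
  refine ⟨C, hC, ?_⟩
  intro δ hδ K R b I S c Bs Ks hK hR hb hc hS hd hI
  have hK0 : 0 < K := by linarith
  have hPf : 0 ≤ Pf ε δ K R := by unfold Pf; positivity
  have h1 : ∑ s ∈ I, Bs s / Ks s * Qs ε δ (Ks s) K K (Bs s) (S s) c ≤
      ∑ s ∈ I, b * ∑ d ∈ HB.SF K, ∑ m ∈ HB.SF K, ∑ f ∈ HB.D d,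
        N f * (Gf ε δ K (d * m) (R⁻¹ * N f * N d) * ∑ t ∈ cof (S s) K (d * m),
          ‖c (d * m * t)‖ ^ 2) := by
    refine sum_le_sum fun s hs => ?_
    obtain ⟨h2, h3, h4, h5⟩ := hI s hs
    refine mul_le_mul h4 ?_ (Qs_nonneg hδ hK0 h3 _ _) hb.le
    unfold Qs
    refine sum_le_sum fun d hd' => sum_le_sum fun m hm => sum_le_sum fun f hf => ?_
    rw [PsiF_eq_Gf]
    rw [HB.mem_SF] at hd'
    rw [HB.mem_D hd'.2.1.ne_zero] at hf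
    have hNd : (0 : ℝ) < N d := by exact_mod_cast N_pos hd'.2.1.ne_zero
    have hNf : (0 : ℝ) < N f := by exact_mod_cast N_pos hf.1.ne_zero
    have hanti : Gf ε δ K (d * m) (Bs s * N f * N d / (27 * Ks s ^ 2)) ≤
        Gf ε δ K (d * m) (R⁻¹ * N f * N d) := by
      apply Gf_anti hε.le hδ hK0 _ (by positivity)
      calc R⁻¹ * N f * N d ≤ Bs s / (27 * Ks s ^ 2) * N f * N d := by gcongr
        _ = _ := by ring
    have h6 : 0 ≤ ∑ t ∈ cof (S s) K (d * m), ‖c (d * m * t)‖ ^ 2 :=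
      sum_nonneg fun _ _ => sq_nonneg _
    gcongr
  refine h1.trans ?_
  rw [← mul_sum]
  have h2 : ∑ s ∈ I, ∑ d ∈ HB.SF K, ∑ m ∈ HB.SF K, ∑ f ∈ HB.D d,
        N f * (Gf ε δ K (d * m) (R⁻¹ * N f * N d) * ∑ t ∈ cof (S s) K (d * m),
          ‖c (d * m * t)‖ ^ 2) = ∑ d ∈ HB.SF K, ∑ m ∈ HB.SF K, ∑ f ∈ HB.D d,
        N f * (Gf ε δ K (d * m) (R⁻¹ * N f * N d) * ∑ s ∈ I, ∑ t ∈ cof (S s) K (d * m),
          ‖c (d * m * t)‖ ^ 2) := by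
    rw [sum_comm]
    refine sum_congr rfl fun d _ => ?_
    rw [sum_comm]
    refine sum_congr rfl fun m _ => ?_
    rw [sum_comm]
    refine sum_congr rfl fun f _ => ?_
    rw [mul_sum, mul_sum]
  rw [h2]
  have h3 : ∑ d ∈ HB.SF K, ∑ m ∈ HB.SF K, ∑ f ∈ HB.D d,
        N f * (Gf ε δ K (d * m) (R⁻¹ * N f * N d) * ∑ s ∈ I, ∑ t ∈ cof (S s) K (d * m),
          ‖c (d * m * t)‖ ^ 2) ≤ ∑ d ∈ HB.SF K, ∑ m ∈ HB.SF K, ∑ _f ∈ HB.D d,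
        Pf ε δ K R * ((N d : ℝ) ^ (-(5 / 3) : ℝ) * (N m : ℝ)⁻¹) := by
    refine sum_le_sum fun d hd' => sum_le_sum fun m hm => sum_le_sum fun f hf => ?_
    rw [HB.mem_SF] at hd' hm
    rw [HB.mem_D hd'.2.1.ne_zero] at hf
    have hd0 := hd'.2.1.ne_zero
    have hm0 := hm.2.1.ne_zero
    have hNd : (1 : ℝ) ≤ N d := by exact_mod_cast N_pos hd0
    have hNm : (1 : ℝ) ≤ N m := by exact_mod_cast N_pos hm0
    have hNf : (1 : ℝ) ≤ N f := by exact_mod_cast N_pos hf.1.ne_zero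
    have hNfd : (N f : ℝ) ≤ N d := by
      exact_mod_cast Nat.le_of_dvd (N_pos hd0) (N_dvd_N hf.2)
    have h4 : ∑ s ∈ I, ∑ t ∈ cof (S s) K (d * m), ‖c (d * m * t)‖ ^ 2 ≤
        4 * (K / N (d * m)) :=
      sum_cof_le hc (fun s hs k hk => (HB.mem_SF.1 (hS s hs hk)).1) hd (mul_ne_zero hd0 hm0)
        hK0.le
    have h5 : 0 ≤ Gf ε δ K (d * m) (R⁻¹ * N f * N d) := Gf_nonneg hδ hK0 _ (by positivity)
    have h6 := term_le (ε := ε) hε.le hδ hK0 hR hNd hNm hNf hNfd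
    refine le_trans ?_ h6
    rw [Gf] at h5 ⊢
    rw [N_mul] at h4 h5 ⊢
    push_cast at h4 h5 ⊢
    gcongr
  have h4 : ∑ d ∈ HB.SF K, ∑ m ∈ HB.SF K, ∑ _f ∈ HB.D d,
        Pf ε δ K R * ((N d : ℝ) ^ (-(5 / 3) : ℝ) * (N m : ℝ)⁻¹) =
      Pf ε δ K R * ∑ d ∈ HB.SF K, ∑ m ∈ HB.SF K, ∑ _f ∈ HB.D d,
        ((N d : ℝ) ^ (-(5 / 3) : ℝ) * (N m : ℝ)⁻¹) := by
    simp only [mul_sum]
  calc _ ≤ b * (Pf ε δ K R * (C * K ^ ε)) := by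
        gcongr
        rw [h4] at h3
        refine h3.trans ?_
        gcongr
        exact H K hK
    _ = _ := by ring

end Vale.Agent.P006.FINE
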