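import Vale.Agent.P006.FINE.Family2

/-!
# P006, block FINE: the family theorem
-/

namespace Vale.Agent.P006.FINE

open Finset
open V1 (ch)

/-- the main term of the family theorem -/
noncomputable def Mf (A B δ : ℝ) : ℝ :=
  δ * A * B + A ^ (2 : ℝ) * δ ^ (-(1 / 2) : ℝ) +
    A ^ (5 / 3 : ℝ) * B ^ (2 / 3 : ℝ) * δ ^ (5 / 6 : ℝ) +
      A ^ (2 : ℝ) * B ^ (1 / 3 : ℝ) * δ ^ (1 / 6 : ℝ)

theorem Pf_le {ε δ A B : ℝ} (hε : 0 < ε) (hε1 : ε ≤ 1 / 4) (hδ : 0 < δ) (hA : 1 ≤ A)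
    (hB : 1 ≤ B) : (2 * A) ^ ε * (32 * B / A * Pf ε δ (2 * A) (864 * A ^ (2 : ℝ) / B)) ≤
      256 * 4 * 864 * 2 * 864 * (A ^ (6 * ε) * δ ^ (-(4 * ε))) * Mf A B δ := by
  have hA0 : 0 < A := by linarith
  have hB0 : 0 < B := by linarith
  set R : ℝ := 864 * A ^ (2 : ℝ) / B with hR
  have hR0 : 0 < R := by positivity
  have hRp : ∀ p : ℝ, 0 ≤ p → p ≤ 1 → R ^ p ≤ 864 * (A ^ (2 * p) * B ^ (-p)) := by
    intro p hp hp1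
    rw [hR, Real.div_rpow (by positivity) hB0.le, Real.mul_rpow (by norm_num) (by positivity),
      ← Real.rpow_mul hA0.le, Real.rpow_neg hB0.le, div_eq_mul_inv, mul_assoc]
    have : (864 : ℝ) ^ p ≤ 864 := by
      calc (864 : ℝ) ^ p ≤ (864 : ℝ) ^ (1 : ℝ) :=
            Real.rpow_le_rpow_of_exponent_le (by norm_num) hp1
        _ = 864 := Real.rpow_one _
    gcongr
  have h1 : R ^ (2 * ε) ≤ 864 * A ^ (4 * ε) := by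
    refine (hRp (2 * ε) (by linarith) (by linarith)).trans ?_
    have h2 : B ^ (-(2 * ε)) ≤ 1 := Real.rpow_le_one_of_one_le_of_nonpos hB (by linarith)
    rw [show 2 * (2 * ε) = 4 * ε by ring]
    calc 864 * (A ^ (4 * ε) * B ^ (-(2 * ε))) ≤ 864 * (A ^ (4 * ε) * 1) := by gcongr
      _ = _ := by rw [mul_one]
  have h2 : (2 * A) ^ ε ≤ 2 * A ^ ε := by
    rw [Real.mul_rpow (by norm_num) hA0.le]
    have : (2 : ℝ) ^ ε ≤ 2 := by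
      calc (2 : ℝ) ^ ε ≤ (2 : ℝ) ^ (1 : ℝ) :=
            Real.rpow_le_rpow_of_exponent_le (by norm_num) (by linarith)
        _ = 2 := Real.rpow_one _
    gcongr
  have h3 : (2 * A) ^ (2 / 3 : ℝ) ≤ 2 * A ^ (2 / 3 : ℝ) := by
    rw [Real.mul_rpow (by norm_num) hA0.le]
    have : (2 : ℝ) ^ (2 / 3 : ℝ) ≤ 2 := by
      calc (2 : ℝ) ^ (2 / 3 : ℝ) ≤ (2 : ℝ) ^ (1 : ℝ) :=
            Real.rpow_le_rpow_of_exponent_le (by norm_num) (by norm_num)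
        _ = 2 := Real.rpow_one _
    gcongr
  have hM : B * (R * δ ^ (-(1 / 2) : ℝ) + 2 * A * (R ^ (1 / 3 : ℝ) * δ ^ (5 / 6 : ℝ)) +
      (2 * A) ^ (2 / 3 : ℝ) * (R ^ (2 / 3 : ℝ) * δ ^ (1 / 6 : ℝ))) ≤ 2 * 864 * Mf A B δ := by
    have e1 : B * R = 864 * A ^ (2 : ℝ) := by rw [hR]; field_simp
    have e2 : B * (A * R ^ (1 / 3 : ℝ)) ≤ 864 * (A ^ (5 / 3 : ℝ) * B ^ (2 / 3 : ℝ)) := by
      calc B * (A * R ^ (1 / 3 : ℝ)) ≤ B * (A * (864 * (A ^ (2 * (1 / 3) : ℝ) *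
            B ^ (-(1 / 3) : ℝ)))) := by
            gcongr
            exact hRp (1 / 3) (by norm_num) (by norm_num)
        _ = 864 * ((A ^ (1 : ℝ) * A ^ (2 * (1 / 3) : ℝ)) * (B ^ (1 : ℝ) *
            B ^ (-(1 / 3) : ℝ))) := by
            rw [Real.rpow_one, Real.rpow_one]; ring
        _ = _ := by
            rw [← Real.rpow_add hA0, ← Real.rpow_add hB0]; norm_num
    have e3 : B * (A ^ (2 / 3 : ℝ) * R ^ (2 / 3 : ℝ)) ≤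
        864 * (A ^ (2 : ℝ) * B ^ (1 / 3 : ℝ)) := by
      calc B * (A ^ (2 / 3 : ℝ) * R ^ (2 / 3 : ℝ)) ≤ B * (A ^ (2 / 3 : ℝ) *
            (864 * (A ^ (2 * (2 / 3) : ℝ) * B ^ (-(2 / 3) : ℝ)))) := by
            gcongr
            exact hRp (2 / 3) (by norm_num) (by norm_num)
        _ = 864 * ((A ^ (2 / 3 : ℝ) * A ^ (2 * (2 / 3) : ℝ)) * (B ^ (1 : ℝ) *
            B ^ (-(2 / 3) : ℝ))) := by
            rw [Real.rpow_one]; ring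
        _ = _ := by
            rw [← Real.rpow_add hA0, ← Real.rpow_add hB0]; norm_num
    have q1 : 0 ≤ δ ^ (-(1 / 2) : ℝ) := by positivity
    have q2 : 0 ≤ δ ^ (5 / 6 : ℝ) := by positivity
    have q3 : 0 ≤ δ ^ (1 / 6 : ℝ) := by positivity
    have f1 : B * R * δ ^ (-(1 / 2) : ℝ) = 864 * (A ^ (2 : ℝ) * δ ^ (-(1 / 2) : ℝ)) := by
      rw [e1]; ring
    have f2 : B * (A * R ^ (1 / 3 : ℝ)) * δ ^ (5 / 6 : ℝ) ≤
        864 * (A ^ (5 / 3 : ℝ) * B ^ (2 / 3 : ℝ)) * δ ^ (5 / 6 : ℝ) := by gcongr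
    have f3 : B * (A ^ (2 / 3 : ℝ) * R ^ (2 / 3 : ℝ)) * δ ^ (1 / 6 : ℝ) ≤
        864 * (A ^ (2 : ℝ) * B ^ (1 / 3 : ℝ)) * δ ^ (1 / 6 : ℝ) := by gcongr
    have g0 : 0 ≤ δ * A * B := by positivity
    have g1 : 0 ≤ A ^ (2 : ℝ) * δ ^ (-(1 / 2) : ℝ) := by positivity
    calc B * (R * δ ^ (-(1 / 2) : ℝ) + 2 * A * (R ^ (1 / 3 : ℝ) * δ ^ (5 / 6 : ℝ)) +
        (2 * A) ^ (2 / 3 : ℝ) * (R ^ (2 / 3 : ℝ) * δ ^ (1 / 6 : ℝ)))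
        ≤ B * (R * δ ^ (-(1 / 2) : ℝ) + 2 * A * (R ^ (1 / 3 : ℝ) * δ ^ (5 / 6 : ℝ)) +
          2 * A ^ (2 / 3 : ℝ) * (R ^ (2 / 3 : ℝ) * δ ^ (1 / 6 : ℝ))) := by gcongr
      _ = B * R * δ ^ (-(1 / 2) : ℝ) + 2 * (B * (A * R ^ (1 / 3 : ℝ)) * δ ^ (5 / 6 : ℝ)) +
          2 * (B * (A ^ (2 / 3 : ℝ) * R ^ (2 / 3 : ℝ)) * δ ^ (1 / 6 : ℝ)) := by ring
      _ ≤ 864 * (A ^ (2 : ℝ) * δ ^ (-(1 / 2) : ℝ)) +
          2 * (864 * (A ^ (5 / 3 : ℝ) * B ^ (2 / 3 : ℝ)) * δ ^ (5 / 6 : ℝ)) +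
          2 * (864 * (A ^ (2 : ℝ) * B ^ (1 / 3 : ℝ)) * δ ^ (1 / 6 : ℝ)) := by
          rw [f1]
          linarith
      _ ≤ _ := by
          rw [Mf]
          linarith
  have hM0 : 0 ≤ Mf A B δ := by unfold Mf; positivity
  have hA6 : A ^ ε * (A ^ ε * A ^ (4 * ε)) = A ^ (6 * ε) := by
    rw [← Real.rpow_add hA0, ← Real.rpow_add hA0]; congr 1; ring
  rw [Pf]
  calc (2 * A) ^ ε * (32 * B / A * (4 * (2 * A) * ((2 * A) ^ ε * δ ^ (-(4 * ε)) *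
        R ^ (2 * ε)) * (R * δ ^ (-(1 / 2) : ℝ) +
        2 * A * (R ^ (1 / 3 : ℝ) * δ ^ (5 / 6 : ℝ)) +
        (2 * A) ^ (2 / 3 : ℝ) * (R ^ (2 / 3 : ℝ) * δ ^ (1 / 6 : ℝ)))))
      = 256 * δ ^ (-(4 * ε)) * ((2 * A) ^ ε * ((2 * A) ^ ε * R ^ (2 * ε))) *
        (B * (R * δ ^ (-(1 / 2) : ℝ) + 2 * A * (R ^ (1 / 3 : ℝ) * δ ^ (5 / 6 : ℝ)) +
        (2 * A) ^ (2 / 3 : ℝ) * (R ^ (2 / 3 : ℝ) * δ ^ (1 / 6 : ℝ)))) := by
        field_simp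
        ring
    _ ≤ 256 * δ ^ (-(4 * ε)) * ((2 * A ^ ε) * ((2 * A ^ ε) * (864 * A ^ (4 * ε)))) *
        (2 * 864 * Mf A B δ) := by gcongr
    _ = 256 * 4 * 864 * 2 * 864 * (A ^ ε * (A ^ ε * A ^ (4 * ε)) * δ ^ (-(4 * ε))) *
        Mf A B δ := by ring
    _ = _ := by rw [hA6]

/-- **the family theorem** -/
theorem family_ineq {ε : ℝ} (hε : 0 < ε) (hε1 : ε ≤ 1 / 4) : ∃ C : ℝ, 0 < C ∧ ∀ δ : ℝ, 0 < δ →
    δ ≤ 1 / 4 → ∀ (A B : ℝ) (I : Finset ℕ) (Bs Ks : ℕ → ℝ) (S T : ℕ → Finset O) (c : O → ℂ),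
      1 ≤ A → 1 ≤ B → (∀ k, ‖c k‖ ≤ 1) → (∀ s ∈ I, S s ⊆ HB.SF (2 * A)) →
      (I : Set ℕ).PairwiseDisjoint S →
      (∀ s ∈ I, A / 4 ≤ Ks s ∧ Ks s ≤ 2 * A ∧ B / 8 ≤ Bs s ∧ Bs s ≤ 8 * B) →
      (∀ s ∈ I, ∀ k ∈ S s, Ks s ≤ (N k : ℝ) ∧ (N k : ℝ) ≤ Ks s * Real.exp δ) →
      (∀ s ∈ I, ∀ b ∈ T s, Primary b ∧ Bs s ≤ (N b : ℝ) ∧ (N b : ℝ) ≤ Bs s * (1 + δ)) →
      ∑ s ∈ I, ∑ b ∈ T s, ‖∑ k ∈ S s, c k * ch k b‖ ^ 2 ≤
        C * (A ^ (6 * ε) * δ ^ (-(4 * ε))) * Mf A B δ := by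
  classical
  obtain ⟨C1, hC1, H1⟩ := block_ineq hε hε1
  obtain ⟨C2, hC2, H2⟩ := sum_Qs_le hε
  refine ⟨C1 * (64 + C2 * (256 * 4 * 864 * 2 * 864)), by positivity, ?_⟩
  intro δ hδ hδ1 A B I Bs Ks S T c hA hB hc hS hd hI hK hT
  have hA0 : 0 < A := by linarith
  have hB0 : 0 < B := by linarith
  have h1 : ∑ s ∈ I, ∑ b ∈ T s, ‖∑ k ∈ S s, c k * ch k b‖ ^ 2 ≤
      ∑ s ∈ I, C1 * (8 * B * δ * (S s).card + Bs s / Ks s *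
        Qs ε δ (Ks s) (2 * A) (2 * A) (Bs s) (S s) c) := by
    refine sum_le_sum fun s hs => ?_
    obtain ⟨i1, i2, i3, i4⟩ := hI s hs
    refine (H1 δ hδ hδ1 (Bs s) (Ks s) (2 * A) (2 * A) (S s) (T s) c (by linarith) (by linarith)
      (by linarith) (hS s hs) (hK s hs) (fun k hk => (HB.mem_SF.1 (hS s hs hk)).1)
      (hT s hs)).trans ?_
    have h2 : ∑ k ∈ S s, ‖c k‖ ^ 2 ≤ (S s).card := by
      rw [card_eq_sum_ones]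
      push_cast
      exact sum_le_sum fun k _ => pow_le_one₀ (norm_nonneg _) (hc k)
    have h3 : Bs s * (δ * ∑ k ∈ S s, ‖c k‖ ^ 2) ≤ 8 * B * δ * (S s).card := by
      calc Bs s * (δ * ∑ k ∈ S s, ‖c k‖ ^ 2) ≤ 8 * B * (δ * (S s).card) := by
            gcongr
        _ = _ := by ring
    gcongr
  refine h1.trans ?_
  rw [← mul_sum, sum_add_distrib, ← mul_sum]
  have h2 : ∑ s ∈ I, ((S s).card : ℝ) ≤ 8 * A := by
    have h3 : ∑ s ∈ I, ((S s).card : ℝ) = ((I.biUnion S).card : ℝ) := by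
      rw [card_biUnion hd]; push_cast; rfl
    rw [h3]
    have h4 : I.biUnion S ⊆ HB.SF (2 * A) := by
      intro r hr
      rw [mem_biUnion] at hr
      obtain ⟨s, hs, hr⟩ := hr
      exact hS s hs hr
    calc ((I.biUnion S).card : ℝ) ≤ (HB.SF (2 * A)).card := by exact_mod_cast card_le_card h4
      _ ≤ 4 * (2 * A) := card_SF_le (by linarith)
      _ = _ := by ring
  have h3 := H2 δ hδ (2 * A) (864 * A ^ (2 : ℝ) / B) (32 * B / A) I S c Bs Ks (by linarith)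
    (by positivity) (by positivity) hc hS hd (by
      intro s hs
      obtain ⟨i1, i2, i3, i4⟩ := hI s hs
      have k0 : 0 < Ks s := by linarith
      have b0 : 0 < Bs s := by linarith
      refine ⟨k0, b0, ?_, ?_⟩
      · rw [div_le_div_iff₀ k0 hA0]
        nlinarith
      · rw [inv_div, div_le_div_iff₀ (by positivity) (by positivity)]
        have : A ^ (2 : ℝ) = A ^ 2 := by norm_cast
        rw [this]
        have h5 : Ks s ^ 2 ≤ (2 * A) ^ 2 := by gcongr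
        calc B * (27 * Ks s ^ 2) ≤ (8 * Bs s) * (27 * (2 * A) ^ 2) := by
              gcongr; linarith
          _ = _ := by ring)
  have h4 := Pf_le (A := A) (B := B) hε hε1 hδ hA hB
  have h5 : ∑ s ∈ I, Bs s / Ks s * Qs ε δ (Ks s) (2 * A) (2 * A) (Bs s) (S s) c ≤
      C2 * (256 * 4 * 864 * 2 * 864 * (A ^ (6 * ε) * δ ^ (-(4 * ε))) * Mf A B δ) := by
    refine h3.trans ?_
    calc C2 * (2 * A) ^ ε * (32 * B / A * Pf ε δ (2 * A) (864 * A ^ (2 : ℝ) / B)) =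
        C2 * ((2 * A) ^ ε * (32 * B / A * Pf ε δ (2 * A) (864 * A ^ (2 : ℝ) / B))) := by ring
      _ ≤ _ := by gcongr
  have hp1 : 1 ≤ A ^ (6 * ε) * δ ^ (-(4 * ε)) := by
    have q1 : 1 ≤ A ^ (6 * ε) := Real.one_le_rpow hA (by linarith)
    have q2 : 1 ≤ δ ^ (-(4 * ε)) :=
      Real.one_le_rpow_of_pos_of_le_one_of_nonpos hδ (by linarith) (by linarith)
    calc (1 : ℝ) = 1 * 1 := by ring
      _ ≤ _ := by gcongr
  have h6 : 8 * B * δ * ∑ s ∈ I, ((S s).card : ℝ) ≤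
      64 * (A ^ (6 * ε) * δ ^ (-(4 * ε))) * Mf A B δ := by
    calc 8 * B * δ * ∑ s ∈ I, ((S s).card : ℝ) ≤ 8 * B * δ * (8 * A) := by gcongr
      _ = 64 * 1 * (δ * A * B) := by ring
      _ ≤ 64 * (A ^ (6 * ε) * δ ^ (-(4 * ε))) * Mf A B δ := by
          have q0 : 0 ≤ δ * A * B := by positivity
          have q1 : δ * A * B ≤ Mf A B δ := by
            unfold Mf
            have : 0 ≤ A ^ (2 : ℝ) * δ ^ (-(1 / 2) : ℝ) +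
              A ^ (5 / 3 : ℝ) * B ^ (2 / 3 : ℝ) * δ ^ (5 / 6 : ℝ) +
              A ^ (2 : ℝ) * B ^ (1 / 3 : ℝ) * δ ^ (1 / 6 : ℝ) := by positivity
            linarith
          gcongr
  calc C1 * (8 * B * δ * ∑ s ∈ I, ((S s).card : ℝ) +
        ∑ s ∈ I, Bs s / Ks s * Qs ε δ (Ks s) (2 * A) (2 * A) (Bs s) (S s) c)
      ≤ C1 * (64 * (A ^ (6 * ε) * δ ^ (-(4 * ε))) * Mf A B δ +
        C2 * (256 * 4 * 864 * 2 * 864 * (A ^ (6 * ε) * δ ^ (-(4 * ε))) * Mf A B δ)) := by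
        gcongr
    _ = _ := by ring

end Vale.Agent.P006.FINE
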