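import Vale.Agent.P006.FINE.Family3
import Vale.Agent.P006.TIIC.Defs

/-!
# P006, block FINE: the fine boxes
-/

namespace Vale.Agent.P006.FINE

open Finset H611
open V1 (ch)

/-! ### the blocks -/

/-- the `a`-block -/
noncomputable def Sb (i l s : ℕ) : Finset O := (DB i).filter fun a => N a / 2 ^ l = s

/-- the `b`-block -/
noncomputable def Tb (x : ℝ) (j l s : ℕ) : Finset O :=
  (DB j).filter fun b => (⌊x / N b⌋₊ + 1) / 2 ^ l = s + 1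

theorem DB_subset_SF (i : ℕ) : DB i ⊆ HB.SF (2 * 2 ^ i) := by
  intro a ha
  have h1 := DB_bounds ha
  rw [mem_DB] at ha
  rw [HB.mem_SF]
  refine ⟨?_, ha.1, ha.2.1⟩
  have : (N a : ℝ) < ((2 ^ (i + 1) : ℕ) : ℝ) := by exact_mod_cast h1.2
  push_cast at this
  rw [pow_succ] at this
  linarith

theorem Sb_bounds {i l s : ℕ} (hl : l ≤ i) {a : O} (ha : a ∈ Sb i l s) :
    (2 : ℝ) ^ i ≤ s * 2 ^ l ∧ (s : ℝ) * 2 ^ l ≤ 2 * 2 ^ i ∧ (s : ℝ) * 2 ^ l ≤ N a ∧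
      (N a : ℝ) ≤ s * 2 ^ l * (1 + 2 ^ l / 2 ^ i) := by
  rw [Sb, mem_filter] at ha
  obtain ⟨h1, h2⟩ := DB_bounds ha.1
  have h3 : s * 2 ^ l ≤ N a := by rw [← ha.2]; exact Nat.div_mul_le_self _ _
  have h4 : N a < (s + 1) * 2 ^ l := by
    have := Nat.lt_div_mul_add (a := N a) (b := 2 ^ l) (by positivity)
    rw [ha.2] at this
    linarith
  have h5 : 2 ^ i < (s + 1) * 2 ^ l := lt_of_le_of_lt h1 h4
  have h6 : 2 ^ (i - l) ≤ s := by
    have e : 2 ^ i = 2 ^ (i - l) * 2 ^ l := by rw [← pow_add]; congr 1; omega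
    rw [e] at h5
    have := Nat.lt_of_mul_lt_mul_right h5
    omega
  have e : (2 : ℝ) ^ i = 2 ^ (i - l) * 2 ^ l := by rw [← pow_add]; congr 1; omega
  have h6' : (2 : ℝ) ^ (i - l) ≤ s := by exact_mod_cast h6
  have h7 : (2 : ℝ) ^ i ≤ s * 2 ^ l := by rw [e]; gcongr
  have h3' : (s : ℝ) * 2 ^ l ≤ N a := by exact_mod_cast h3
  have h2' : (N a : ℝ) < 2 ^ (i + 1) := by exact_mod_cast h2
  have h4' : (N a : ℝ) < (s + 1) * 2 ^ l := by exact_mod_cast h4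
  refine ⟨h7, ?_, h3', ?_⟩
  · rw [pow_succ] at h2'
    linarith
  · have p1 : (0 : ℝ) < 2 ^ i := by positivity
    have p2 : (0 : ℝ) < 2 ^ l := by positivity
    have h8 : (1 : ℝ) ≤ s * (2 ^ l / 2 ^ i) := by
      rw [← mul_div_assoc, le_div_iff₀ p1]; linarith
    calc (N a : ℝ) ≤ (s + 1) * 2 ^ l := h4'.le
      _ = s * 2 ^ l + 1 * 2 ^ l := by ring
      _ ≤ s * 2 ^ l + s * (2 ^ l / 2 ^ i) * 2 ^ l := by gcongr
      _ = _ := by ring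

theorem Tb_bounds {x : ℝ} (hx : 0 < x) {j l s : ℕ} (hs : 0 < s) {b : O} (hb : b ∈ Tb x j l s) :
    x / ((s + 2) * 2 ^ l) ≤ N b ∧ (N b : ℝ) ≤ x / ((s + 2) * 2 ^ l) * (1 + 2 / s) := by
  rw [Tb, mem_filter] at hb
  obtain ⟨h0, hb⟩ := hb
  have hN : (0 : ℝ) < N b := by
    have := (mem_DB.1 h0).1.one_le_N
    exact_mod_cast this
  set y : ℝ := x / N b with hy
  have hy0 : 0 < y := by positivity
  have h1 : (s + 1) * 2 ^ l ≤ ⌊y⌋₊ + 1 := by rw [← hb]; exact Nat.div_mul_le_self _ _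
  have h2 : ⌊y⌋₊ + 1 < (s + 2) * 2 ^ l := by
    have := Nat.lt_div_mul_add (a := ⌊y⌋₊ + 1) (b := 2 ^ l) (by positivity)
    rw [hb] at this
    calc _ < (s + 1) * 2 ^ l + 2 ^ l := this
      _ = _ := by ring
  have p2 : (0 : ℝ) < 2 ^ l := by positivity
  have p1 : 1 ≤ 2 ^ l := Nat.one_le_two_pow
  have h3 : s * 2 ^ l ≤ ⌊y⌋₊ := by
    have : (s + 1) * 2 ^ l = s * 2 ^ l + 2 ^ l := by ring
    omega
  have h3' : (s : ℝ) * 2 ^ l ≤ y := by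
    have : ((s * 2 ^ l : ℕ) : ℝ) ≤ (⌊y⌋₊ : ℝ) := by exact_mod_cast h3
    push_cast at this
    exact this.trans (Nat.floor_le hy0.le)
  have h2' : y < (s + 2) * 2 ^ l := by
    have h4 : ((⌊y⌋₊ + 1 : ℕ) : ℝ) < (((s + 2) * 2 ^ l : ℕ) : ℝ) := by exact_mod_cast h2
    push_cast at h4
    exact (Nat.lt_floor_add_one y).trans h4
  have hs' : (0 : ℝ) < s := by exact_mod_cast hs
  have hxN : x = y * N b := by rw [hy]; field_simp
  constructor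
  · rw [div_le_iff₀ (by positivity), hxN]
    nlinarith
  · have h5 : (s : ℝ) * 2 ^ l * N b ≤ x := by rw [hxN]; gcongr
    have h6 : x / ((s + 2) * 2 ^ l) * (1 + 2 / s) = x / (s * 2 ^ l) := by
      field_simp
    rw [h6, le_div_iff₀ (by positivity)]
    linarith

theorem Sb_disj (i l : ℕ) (I : Finset ℕ) : (I : Set ℕ).PairwiseDisjoint (Sb i l) := by
  intro s _ t _ hst
  rw [Function.onFun, Finset.disjoint_left]
  intro a ha hb
  rw [Sb, mem_filter] at ha hb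
  exact hst (ha.2.symm.trans hb.2)

theorem Tb_disj (x : ℝ) (j l : ℕ) (I : Finset ℕ) : (I : Set ℕ).PairwiseDisjoint (Tb x j l) := by
  intro s _ t _ hst
  rw [Function.onFun, Finset.disjoint_left]
  intro a ha hb
  rw [Tb, mem_filter] at ha hb
  have := ha.2.symm.trans hb.2
  omega

/-! ### the mean square -/

theorem Mf_nonneg {A B δ : ℝ} (hA : 0 ≤ A) (hB : 0 ≤ B) (hδ : 0 ≤ δ) : 0 ≤ Mf A B δ := by
  unfold Mf; positivity

theorem Mf_two {A B δ : ℝ} (hA : 0 ≤ A) (hB : 0 ≤ B) (hδ : 0 < δ) :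
    Mf A B (2 * δ) ≤ 2 * Mf A B δ := by
  have h1 : (2 * δ) ^ (-(1 / 2) : ℝ) ≤ 2 * δ ^ (-(1 / 2) : ℝ) := by
    have q : (2 * δ) ^ (-(1 / 2) : ℝ) ≤ δ ^ (-(1 / 2) : ℝ) :=
      Real.rpow_le_rpow_of_nonpos hδ (by linarith) (by norm_num)
    have : 0 ≤ δ ^ (-(1 / 2) : ℝ) := by positivity
    linarith
  have h2 : ∀ p : ℝ, 0 ≤ p → p ≤ 1 → (2 * δ) ^ p ≤ 2 * δ ^ p := by
    intro p hp hp1
    rw [Real.mul_rpow (by norm_num) hδ.le]
    have : (2 : ℝ) ^ p ≤ 2 := by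
      calc (2 : ℝ) ^ p ≤ (2 : ℝ) ^ (1 : ℝ) :=
            Real.rpow_le_rpow_of_exponent_le (by norm_num) hp1
        _ = 2 := Real.rpow_one _
    gcongr
  have h3 := h2 (5 / 6) (by norm_num) (by norm_num)
  have h4 := h2 (1 / 6) (by norm_num) (by norm_num)
  unfold Mf
  calc 2 * δ * A * B + A ^ (2 : ℝ) * (2 * δ) ^ (-(1 / 2) : ℝ) +
      A ^ (5 / 3 : ℝ) * B ^ (2 / 3 : ℝ) * (2 * δ) ^ (5 / 6 : ℝ) +
      A ^ (2 : ℝ) * B ^ (1 / 3 : ℝ) * (2 * δ) ^ (1 / 6 : ℝ) ≤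
      2 * δ * A * B + A ^ (2 : ℝ) * (2 * δ ^ (-(1 / 2) : ℝ)) +
      A ^ (5 / 3 : ℝ) * B ^ (2 / 3 : ℝ) * (2 * δ ^ (5 / 6 : ℝ)) +
      A ^ (2 : ℝ) * B ^ (1 / 3 : ℝ) * (2 * δ ^ (1 / 6 : ℝ)) := by gcongr
    _ = _ := by ring

/-- small `δ` -/
theorem ms_small {ε : ℝ} (hε : 0 < ε) (hε1 : ε ≤ 1 / 4) : ∃ C : ℝ, 0 < C ∧
    ∀ (i j l : ℕ) (x : ℝ) (c : O → ℂ) (I : Finset ℕ), l + 3 ≤ i → 1 ≤ x → (∀ k, ‖c k‖ ≤ 1) →
      (∀ s ∈ I, (Sb i l s).Nonempty ∧ (Tb x j l s).Nonempty) →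
      ∀ A B δ : ℝ, A = 2 ^ i → B = 2 ^ j → δ = 2 ^ l / 2 ^ i →
      ∑ s ∈ I, ∑ b ∈ Tb x j l s, ‖∑ k ∈ Sb i l s, c k * ch k b‖ ^ 2 ≤
        C * (A * B) ^ (10 * ε) * Mf A B δ := by
  obtain ⟨C, hC, H⟩ := family_ineq hε hε1
  refine ⟨2 * C, by positivity, ?_⟩
  intro i j l x c I hl hx hc hI A B δ hA hB hδ
  have hA1 : 1 ≤ A := by rw [hA]; exact one_le_pow₀ (by norm_num)
  have hB1 : 1 ≤ B := by rw [hB]; exact one_le_pow₀ (by norm_num)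
  have hδ0 : 0 < δ := by rw [hδ]; positivity
  have hδ8 : δ ≤ 1 / 8 := by
    rw [hδ, div_le_div_iff₀ (by positivity) (by norm_num)]
    have : (2 : ℝ) ^ l * 2 ^ 3 ≤ 2 ^ i := by
      rw [← pow_add]; exact pow_le_pow_right₀ (by norm_num) hl
    linarith
  have hδA : A⁻¹ ≤ δ := by
    rw [hδ, hA, inv_eq_one_div]
    gcongr
    exact one_le_pow₀ (by norm_num)
  have hsb : ∀ s ∈ I, (A ≤ s * 2 ^ l ∧ (s : ℝ) * 2 ^ l ≤ 2 * A) ∧ (0 : ℝ) < s ∧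
      1 / (s : ℝ) ≤ δ := by
    intro s hs
    obtain ⟨a, ha⟩ := (hI s hs).1
    obtain ⟨h1, h2, h3, h4⟩ := Sb_bounds (by omega) ha
    rw [← hA] at h1 h2
    have hs0 : (0 : ℝ) < s := by
      by_contra h0
      have : (s : ℝ) * 2 ^ l ≤ 0 := mul_nonpos_of_nonpos_of_nonneg (by linarith) (by positivity)
      linarith
    refine ⟨⟨h1, h2⟩, hs0, ?_⟩
    rw [hδ, ← hA, div_le_div_iff₀ hs0 (by linarith)]
    linarith
  have hmain := H (2 * δ) (by linarith) (by linarith) A B I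
    (fun s => x / ((s + 2) * 2 ^ l)) (fun s => s * 2 ^ l) (Sb i l) (Tb x j l) c hA1 hB1 hc
    (fun s _ => by rw [hA]; exact (filter_subset _ _).trans (DB_subset_SF i))
    (Sb_disj i l I) ?_ ?_ ?_
  · refine hmain.trans ?_
    have h1 : A ^ (6 * ε) * (2 * δ) ^ (-(4 * ε)) ≤ (A * B) ^ (10 * ε) := by
      have q1 : (2 * δ) ^ (-(4 * ε)) ≤ A ^ (4 * ε) := by
        calc (2 * δ) ^ (-(4 * ε)) ≤ (A⁻¹) ^ (-(4 * ε)) :=
              Real.rpow_le_rpow_of_nonpos (by positivity) (by linarith) (by linarith)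
          _ = A ^ (4 * ε) := by
              rw [Real.inv_rpow (by linarith), Real.rpow_neg (by linarith), inv_inv]
      calc A ^ (6 * ε) * (2 * δ) ^ (-(4 * ε)) ≤ A ^ (6 * ε) * A ^ (4 * ε) := by gcongr
        _ = A ^ (10 * ε) := by rw [← Real.rpow_add (by linarith)]; congr 1; ring
        _ ≤ (A * B) ^ (10 * ε) := by
            apply Real.rpow_le_rpow (by linarith) _ (by linarith)
            nlinarith
    have h2 := Mf_two (A := A) (B := B) (δ := δ) (by linarith) (by linarith) hδ0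
    have h3 : 0 ≤ Mf A B δ := Mf_nonneg (by linarith) (by linarith) hδ0.le
    have h4 : 0 ≤ Mf A B (2 * δ) := Mf_nonneg (by linarith) (by linarith) (by linarith)
    calc C * (A ^ (6 * ε) * (2 * δ) ^ (-(4 * ε))) * Mf A B (2 * δ) ≤
        C * (A * B) ^ (10 * ε) * (2 * Mf A B δ) := by gcongr
      _ = _ := by ring
  · intro s hs
    obtain ⟨⟨h1, h2⟩, hs0, h3⟩ := hsb s hs
    have hs0' : 0 < s := by exact_mod_cast hs0
    obtain ⟨b, hb⟩ := (hI s hs).2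
    obtain ⟨h4, h5⟩ := Tb_bounds (by linarith) hs0' hb
    have hb' : b ∈ DB j := (mem_filter.1 hb).1
    have h6 := DB_bounds hb'
    have h7 : B ≤ N b := by rw [hB]; exact_mod_cast h6.1
    have h8 : (N b : ℝ) < 2 * B := by
      rw [hB]
      have : (N b : ℝ) < ((2 ^ (j + 1) : ℕ) : ℝ) := by exact_mod_cast h6.2
      push_cast at this
      rw [pow_succ] at this
      linarith
    have p0 : 0 < x / (((s : ℝ) + 2) * 2 ^ l) := by positivity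
    have h9 : 2 / (s : ℝ) ≤ 1 := by
      have e : 2 / (s : ℝ) = 2 * (1 / s) := by ring
      rw [e]; linarith
    refine ⟨by linarith, h2, ?_, by linarith⟩
    have : x / (((s : ℝ) + 2) * 2 ^ l) * (1 + 2 / s) ≤ x / (((s : ℝ) + 2) * 2 ^ l) * 2 := by
      gcongr; linarith
    linarith
  · intro s hs k hk
    obtain ⟨h1, h2, h3, h4⟩ := Sb_bounds (by omega) hk
    refine ⟨h3, h4.trans ?_⟩
    have h5 : (1 : ℝ) + 2 ^ l / 2 ^ i ≤ Real.exp (2 * δ) := by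
      rw [← hδ]
      have := Real.add_one_le_exp (2 * δ)
      linarith
    gcongr
  · intro s hs b hb
    obtain ⟨⟨h1, h2⟩, hs0, h3⟩ := hsb s hs
    have hs0' : 0 < s := by exact_mod_cast hs0
    obtain ⟨h4, h5⟩ := Tb_bounds (by linarith) hs0' hb
    have hb' : b ∈ DB j := (mem_filter.1 hb).1
    refine ⟨(mem_DB.1 hb').1, h4, h5.trans ?_⟩
    have e : 2 / (s : ℝ) = 2 * (1 / s) := by ring
    have h9 : 1 + 2 / (s : ℝ) ≤ 1 + 2 * δ := by rw [e]; linarith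
    have p0 : 0 < x / (((s : ℝ) + 2) * 2 ^ l) := by positivity
    gcongr

end Vale.Agent.P006.FINE
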