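import Vale.Agent.P006.FINE.Final

/-!
# P006, block FINE: `TIIC.FineHyp`
-/

namespace Vale.Agent.P006.FINE

open Finset H611
open V1 (ch)

/-- large `δ` -/
theorem ms_large {ε : ℝ} (hε : 0 < ε) : ∃ C : ℝ, 0 < C ∧
    ∀ (i j l : ℕ) (x : ℝ) (c : O → ℂ) (I : Finset ℕ), l ≤ i → i < l + 3 → (∀ k, ‖c k‖ ≤ 1) →
      ∀ A B δ : ℝ, A = 2 ^ i → B = 2 ^ j → δ = 2 ^ l / 2 ^ i →
      ∑ s ∈ I, ∑ b ∈ Tb x j l s, ‖∑ k ∈ Sb i l s, c k * ch k b‖ ^ 2 ≤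
        C * (A * B) ^ ε * Mf A B δ := by
  classical
  obtain ⟨C, hC, H⟩ := PS.cubic_large_sieve_symC ε hε
  refine ⟨C * 4 ^ ε * 4 * 8 * 4, by positivity, ?_⟩
  intro i j l x c I hl hl' hc A B δ hA hB hδ
  have hA1 : 1 ≤ A := by rw [hA]; exact one_le_pow₀ (by norm_num)
  have hB1 : 1 ≤ B := by rw [hB]; exact one_le_pow₀ (by norm_num)
  have hA0 : 0 < A := by linarith
  have hB0 : 0 < B := by linarith
  have hδ0 : 0 < δ := by rw [hδ]; positivity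
  have hδ4 : 1 / 4 ≤ δ := by
    rw [hδ, div_le_div_iff₀ (by norm_num) (by positivity)]
    have : (2 : ℝ) ^ i ≤ 2 ^ l * 2 ^ 2 := by
      rw [← pow_add]; exact pow_le_pow_right₀ (by norm_num) (by omega)
    linarith
  have hδ1 : δ ≤ 1 := by
    rw [hδ, div_le_one (by positivity)]
    exact pow_le_pow_right₀ (by norm_num) hl
  have hLS := H (2 * A) (2 * B) (by linarith) (by linarith)
  set Λ : ℝ := C * (2 * A * (2 * B)) ^ ε * (2 * A + 2 * B + (2 * A * (2 * B)) ^ (2 / 3 : ℝ))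
    with hΛ
  have hΛ0 : 0 ≤ Λ := by positivity
  have h1 : ∀ s ∈ I, ∑ b ∈ Tb x j l s, ‖∑ k ∈ Sb i l s, c k * ch k b‖ ^ 2 ≤
      Λ * (Sb i l s).card := by
    intro s _
    have hS : Sb i l s ⊆ HB.SF (2 * A) := by
      rw [hA]; exact (filter_subset _ _).trans (DB_subset_SF i)
    have hT : Tb x j l s ⊆ HB.SF (2 * B) := by
      rw [hB]; exact (filter_subset _ _).trans (DB_subset_SF j)
    have h2 := hLS (fun k => if k ∈ Sb i l s then c k else 0)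
    have h3 : ∀ h : O, ∑ k ∈ HB.SF (2 * A), (if k ∈ Sb i l s then c k else 0) * HB.symC k h =
        ∑ k ∈ Sb i l s, c k * ch k h := by
      intro h
      rw [← sum_subset hS]
      · exact sum_congr rfl fun t ht => by rw [if_pos ht]; rfl
      · intro t _ ht
        rw [if_neg ht, zero_mul]
    simp only [h3] at h2
    refine (sum_le_sum_of_subset_of_nonneg hT fun _ _ _ => by positivity).trans (h2.trans ?_)
    gcongr
    calc ∑ k ∈ HB.SF (2 * A), ‖(if k ∈ Sb i l s then c k else 0 : ℂ)‖ ^ 2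
        = ∑ k ∈ Sb i l s, ‖c k‖ ^ 2 := by
          rw [← sum_subset hS]
          · exact sum_congr rfl fun t ht => by rw [if_pos ht]
          · intro t _ ht
            rw [if_neg ht]; simp
      _ ≤ (Sb i l s).card := by
          rw [card_eq_sum_ones]
          push_cast
          exact sum_le_sum fun k _ => pow_le_one₀ (norm_nonneg _) (hc k)
  have h2 : ∑ s ∈ I, ((Sb i l s).card : ℝ) ≤ 8 * A := by
    have h3 : ∑ s ∈ I, ((Sb i l s).card : ℝ) = ((I.biUnion (Sb i l)).card : ℝ) := by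
      rw [card_biUnion (Sb_disj i l I)]; push_cast; rfl
    rw [h3]
    have h4 : I.biUnion (Sb i l) ⊆ DB i := by
      intro r hr
      rw [mem_biUnion] at hr
      obtain ⟨s, _, hr⟩ := hr
      exact (mem_filter.1 hr).1
    calc ((I.biUnion (Sb i l)).card : ℝ) ≤ (DB i).card := by exact_mod_cast card_le_card h4
      _ ≤ 8 * 2 ^ i := card_DB_le i
      _ = _ := by rw [hA]
  have h3 : A * (A + B + (A * B) ^ (2 / 3 : ℝ)) ≤ 4 * Mf A B δ := by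
    have e1 : A ^ (2 : ℝ) = A * A := by
      rw [show (2 : ℝ) = ((2 : ℕ) : ℝ) by norm_num, Real.rpow_natCast]; ring
    have e2 : A ^ (5 / 3 : ℝ) = A * A ^ (2 / 3 : ℝ) := by
      nth_rewrite 2 [← Real.rpow_one A]
      rw [← Real.rpow_add hA0]; norm_num
    have q1 : 1 ≤ δ ^ (-(1 / 2) : ℝ) :=
      Real.one_le_rpow_of_pos_of_le_one_of_nonpos hδ0 hδ1 (by norm_num)
    have q2 : 1 / 4 ≤ δ ^ (5 / 6 : ℝ) := by
      calc (1 / 4 : ℝ) ≤ δ := hδ4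
        _ = δ ^ (1 : ℝ) := (Real.rpow_one δ).symm
        _ ≤ δ ^ (5 / 6 : ℝ) := Real.rpow_le_rpow_of_exponent_ge hδ0 hδ1 (by norm_num)
    rw [Mf, Real.mul_rpow hA0.le hB0.le, e1, e2]
    have p1 : 0 ≤ A * A := by positivity
    have p2 : 0 ≤ A * B := by positivity
    have p3 : 0 ≤ A * A ^ (2 / 3 : ℝ) * B ^ (2 / 3 : ℝ) := by positivity
    have p4 : 0 ≤ A * A * B ^ (1 / 3 : ℝ) * δ ^ (1 / 6 : ℝ) := by positivity
    have r1 : A * A * 1 ≤ A * A * δ ^ (-(1 / 2) : ℝ) := by gcongr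
    have r2 : 1 / 4 * (A * B) ≤ δ * (A * B) := by gcongr
    have r3 : A * A ^ (2 / 3 : ℝ) * B ^ (2 / 3 : ℝ) * (1 / 4) ≤
        A * A ^ (2 / 3 : ℝ) * B ^ (2 / 3 : ℝ) * δ ^ (5 / 6 : ℝ) := by gcongr
    linarith
  have h4 : 2 * A + 2 * B + (2 * A * (2 * B)) ^ (2 / 3 : ℝ) ≤
      4 * (A + B + (A * B) ^ (2 / 3 : ℝ)) := by
    have q : (2 * A * (2 * B)) ^ (2 / 3 : ℝ) ≤ 4 * (A * B) ^ (2 / 3 : ℝ) := by
      rw [show 2 * A * (2 * B) = 4 * (A * B) by ring, Real.mul_rpow (by norm_num) (by positivity)]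
      have : (4 : ℝ) ^ (2 / 3 : ℝ) ≤ 4 := by
        calc (4 : ℝ) ^ (2 / 3 : ℝ) ≤ (4 : ℝ) ^ (1 : ℝ) :=
              Real.rpow_le_rpow_of_exponent_le (by norm_num) (by norm_num)
          _ = 4 := Real.rpow_one _
      gcongr
    linarith
  have h5 : (2 * A * (2 * B)) ^ ε = 4 ^ ε * (A * B) ^ ε := by
    rw [show 2 * A * (2 * B) = 4 * (A * B) by ring, Real.mul_rpow (by norm_num) (by positivity)]
  calc ∑ s ∈ I, ∑ b ∈ Tb x j l s, ‖∑ k ∈ Sb i l s, c k * ch k b‖ ^ 2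
      ≤ ∑ s ∈ I, Λ * (Sb i l s).card := sum_le_sum h1
    _ = Λ * ∑ s ∈ I, ((Sb i l s).card : ℝ) := by rw [mul_sum]
    _ ≤ Λ * (8 * A) := by gcongr
    _ ≤ C * (4 ^ ε * (A * B) ^ ε) * (4 * (A + B + (A * B) ^ (2 / 3 : ℝ))) * (8 * A) := by
        rw [hΛ, h5]; gcongr
    _ = C * 4 ^ ε * 4 * 8 * (A * B) ^ ε * (A * (A + B + (A * B) ^ (2 / 3 : ℝ))) := by ring
    _ ≤ C * 4 ^ ε * 4 * 8 * (A * B) ^ ε * (4 * Mf A B δ) := by gcongr
    _ = _ := by ring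

/-- all `δ` -/
theorem ms_all {ε : ℝ} (hε : 0 < ε) : ∃ C : ℝ, 0 < C ∧
    ∀ (i j l : ℕ) (x : ℝ) (c : O → ℂ) (I : Finset ℕ), l ≤ i → 1 ≤ x → (∀ k, ‖c k‖ ≤ 1) →
      (∀ s ∈ I, (Sb i l s).Nonempty ∧ (Tb x j l s).Nonempty) →
      ∀ A B δ : ℝ, A = 2 ^ i → B = 2 ^ j → δ = 2 ^ l / 2 ^ i →
      ∑ s ∈ I, ∑ b ∈ Tb x j l s, ‖∑ k ∈ Sb i l s, c k * ch k b‖ ^ 2 ≤
        C * (A * B) ^ ε * Mf A B δ := by
  set ε1 : ℝ := min (ε / 10) (1 / 4) with hε1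
  have h0 : 0 < ε1 := lt_min (by linarith) (by norm_num)
  obtain ⟨C1, hC1, H1⟩ := ms_small h0 (min_le_right _ _)
  obtain ⟨C2, hC2, H2⟩ := ms_large hε
  refine ⟨C1 + C2, by positivity, ?_⟩
  intro i j l x c I hl hx hc hI A B δ hA hB hδ
  have hA1 : 1 ≤ A := by rw [hA]; exact one_le_pow₀ (by norm_num)
  have hB1 : 1 ≤ B := by rw [hB]; exact one_le_pow₀ (by norm_num)
  have hδ0 : 0 < δ := by rw [hδ]; positivity
  have hM : 0 ≤ Mf A B δ := Mf_nonneg (by linarith) (by linarith) hδ0.le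
  have hAB : 1 ≤ A * B := by nlinarith
  have hP : 0 ≤ (A * B) ^ ε := by positivity
  by_cases h : l + 3 ≤ i
  · refine (H1 i j l x c I h hx hc hI A B δ hA hB hδ).trans ?_
    have h1 : (A * B) ^ (10 * ε1) ≤ (A * B) ^ ε := by
      apply Real.rpow_le_rpow_of_exponent_le hAB
      have := min_le_left (ε / 10) (1 / 4 : ℝ)
      rw [← hε1] at this
      linarith
    calc C1 * (A * B) ^ (10 * ε1) * Mf A B δ ≤ C1 * (A * B) ^ ε * Mf A B δ := by gcongr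
      _ ≤ (C1 + C2) * (A * B) ^ ε * Mf A B δ := by gcongr; linarith
  · refine (H2 i j l x c I hl (by omega) hc A B δ hA hB hδ).trans ?_
    gcongr
    linarith

/-! ### square roots -/

theorem sqrt_Mf_le {A B δ : ℝ} (hA : 0 < A) (hB : 0 < B) (hδ : 0 < δ) :
    Real.sqrt (B * Mf A B δ) ≤ δ ^ (1 / 2 : ℝ) * B * A ^ (1 / 2 : ℝ)
        + A * B ^ (1 / 2 : ℝ) * δ ^ (-(1 / 4) : ℝ)
        + (A * B) ^ (5 / 6 : ℝ) * δ ^ (5 / 12 : ℝ)
        + B ^ (2 / 3 : ℝ) * A * δ ^ (1 / 12 : ℝ) := by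
  set u1 : ℝ := δ ^ (1 / 2 : ℝ) * B * A ^ (1 / 2 : ℝ)
  set u2 : ℝ := A * B ^ (1 / 2 : ℝ) * δ ^ (-(1 / 4) : ℝ)
  set u3 : ℝ := (A * B) ^ (5 / 6 : ℝ) * δ ^ (5 / 12 : ℝ)
  set u4 : ℝ := B ^ (2 / 3 : ℝ) * A * δ ^ (1 / 12 : ℝ)
  have p1 : 0 ≤ u1 := by positivity
  have p2 : 0 ≤ u2 := by positivity
  have p3 : 0 ≤ u3 := by positivity
  have p4 : 0 ≤ u4 := by positivity
  have sq : ∀ (y p : ℝ), 0 < y → (y ^ p) ^ 2 = y ^ (2 * p) := by
    intro y p hy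
    rw [← Real.rpow_natCast, ← Real.rpow_mul hy.le]; congr 1; push_cast; ring
  have two : ∀ y : ℝ, 0 < y → y ^ (2 : ℝ) = y ^ 2 := fun y _ => by norm_cast
  have e1 : u1 ^ 2 = B * (δ * A * B) := by
    rw [mul_pow, mul_pow, sq _ _ hδ, sq _ _ hA]; norm_num; ring
  have e2 : u2 ^ 2 = B * (A ^ (2 : ℝ) * δ ^ (-(1 / 2) : ℝ)) := by
    rw [mul_pow, mul_pow, sq _ _ hB, sq _ _ hδ, two _ hA]; norm_num; ring
  have e3 : u3 ^ 2 = B * (A ^ (5 / 3 : ℝ) * B ^ (2 / 3 : ℝ) * δ ^ (5 / 6 : ℝ)) := by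
    have hb : B * B ^ (2 / 3 : ℝ) = B ^ (5 / 3 : ℝ) := by
      nth_rewrite 1 [← Real.rpow_one B]
      rw [← Real.rpow_add hB]; norm_num
    rw [mul_pow, sq _ _ (by positivity), sq _ _ hδ, Real.mul_rpow hA.le hB.le]
    rw [show (2 * (5 / 6) : ℝ) = 5 / 3 by norm_num, show (2 * (5 / 12) : ℝ) = 5 / 6 by norm_num,
      ← hb]
    ring
  have e4 : u4 ^ 2 = B * (A ^ (2 : ℝ) * B ^ (1 / 3 : ℝ) * δ ^ (1 / 6 : ℝ)) := by
    have hb : B * B ^ (1 / 3 : ℝ) = B ^ (4 / 3 : ℝ) := by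
      nth_rewrite 1 [← Real.rpow_one B]
      rw [← Real.rpow_add hB]; norm_num
    rw [mul_pow, mul_pow, sq _ _ hB, sq _ _ hδ, two _ hA]
    rw [show (2 * (2 / 3) : ℝ) = 4 / 3 by norm_num, show (2 * (1 / 12) : ℝ) = 1 / 6 by norm_num,
      ← hb]
    ring
  apply Real.sqrt_le_iff.2
  refine ⟨by positivity, ?_⟩
  have : B * Mf A B δ = u1 ^ 2 + u2 ^ 2 + u3 ^ 2 + u4 ^ 2 := by
    rw [e1, e2, e3, e4, Mf]; ring
  rw [this]
  nlinarith [mul_nonneg p1 p2, mul_nonneg p1 p3, mul_nonneg p1 p4, mul_nonneg p2 p3,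
    mul_nonneg p2 p4, mul_nonneg p3 p4]

theorem le_sqrt_mul {W c P Q : ℝ} (hc : 0 ≤ c) (hP : 0 ≤ P)
    (h : W ^ 2 ≤ c * P ^ 2 * Q) : W ≤ Real.sqrt c * P * Real.sqrt Q := by
  have h1 : Real.sqrt c * P * Real.sqrt Q = Real.sqrt (c * P ^ 2 * Q) := by
    rw [Real.sqrt_mul (by positivity), Real.sqrt_mul hc, Real.sqrt_sq hP]
  rw [h1]
  exact Real.le_sqrt_of_sq_le h

theorem cs_blocks (I : Finset ℕ) (T : ℕ → Finset O) (f : ℕ → O → ℝ) :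
    (∑ s ∈ I, ∑ b ∈ T s, f s b) ^ 2 ≤ (∑ s ∈ I, ((T s).card : ℝ)) *
      ∑ s ∈ I, ∑ b ∈ T s, f s b ^ 2 := by
  classical
  have h4 : ∑ s ∈ I, ∑ b ∈ T s, f s b = ∑ p ∈ I.sigma T, f p.1 p.2 := by
    rw [sum_sigma]
  have h5 : ∑ s ∈ I, ∑ b ∈ T s, f s b ^ 2 = ∑ p ∈ I.sigma T, f p.1 p.2 ^ 2 := by
    rw [sum_sigma]
  have h6 : ∑ s ∈ I, ((T s).card : ℝ) = ((I.sigma T).card : ℝ) := by
    rw [card_sigma]; push_cast; rfl
  rw [h4, h5, h6]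
  exact sq_sum_le_card_mul_sum_sq

theorem card_Tb_le (x : ℝ) (j l : ℕ) (I : Finset ℕ) :
    ∑ s ∈ I, ((Tb x j l s).card : ℝ) ≤ 8 * 2 ^ j := by
  classical
  have h3 : ∑ s ∈ I, ((Tb x j l s).card : ℝ) = ((I.biUnion (Tb x j l)).card : ℝ) := by
    rw [card_biUnion (Tb_disj x j l I)]; push_cast; rfl
  rw [h3]
  have h4 : I.biUnion (Tb x j l) ⊆ DB j := by
    intro r hr
    rw [mem_biUnion] at hr
    obtain ⟨s, _, hr⟩ := hr
    exact (mem_filter.1 hr).1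
  calc ((I.biUnion (Tb x j l)).card : ℝ) ≤ (DB j).card := by exact_mod_cast card_le_card h4
    _ ≤ 8 * 2 ^ j := card_DB_le j

open Classical in
/-- the blocks that matter -/
noncomputable def Ib (x : ℝ) (i j l : ℕ) : Finset ℕ :=
  (range (2 ^ (i + 1))).filter fun s => (Sb i l s).Nonempty ∧ (Tb x j l s).Nonempty

theorem TL_le (i j l : ℕ) (x : ℝ) (α β : O → ℂ) (hβ : ∀ b, ‖β b‖ ≤ 1) :
    TIIC.TL (fun a b => (starRingEnd ℂ) (toC (sym a b))) α β x i j l ≤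
      ∑ s ∈ Ib x i j l, ∑ b ∈ Tb x j l s,
        ‖∑ k ∈ Sb i l s, (starRingEnd ℂ) (α k) * ch k b‖ := by
  classical
  rw [TIIC.TL]
  have h2 : ∀ s ∈ range (2 ^ (i + 1)), s ∉ Ib x i j l →
      ‖∑ b ∈ DB j with (⌊x / N b⌋₊ + 1) / 2 ^ l = s + 1,
        ∑ a ∈ DB i with N a / 2 ^ l = s, α a * β b * (starRingEnd ℂ) (toC (sym a b))‖ = 0 := by
    intro s hs hsI
    rw [Ib, mem_filter, not_and, not_and_or] at hsI
    rw [norm_eq_zero]
    rcases hsI hs with h | h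
    · rw [not_nonempty_iff_eq_empty, Sb] at h
      apply sum_eq_zero
      intro b _
      rw [h, sum_empty]
    · rw [not_nonempty_iff_eq_empty, Tb] at h
      rw [h, sum_empty]
  rw [← sum_subset (filter_subset _ _ : Ib x i j l ⊆ range (2 ^ (i + 1))) h2]
  refine sum_le_sum fun s _ => ?_
  refine (norm_sum_le _ _).trans (sum_le_sum fun b hb => ?_)
  have hb' : Primary b := (mem_DB.1 (mem_filter.1 hb).1).1
  have h3 : ∑ a ∈ DB i with N a / 2 ^ l = s, α a * β b * (starRingEnd ℂ) (toC (sym a b)) =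
      β b * (starRingEnd ℂ) (∑ k ∈ Sb i l s, (starRingEnd ℂ) (α k) * ch k b) := by
    rw [map_sum, mul_sum, Sb]
    refine sum_congr rfl fun a ha => ?_
    have ha' : Primary a := (mem_DB.1 (mem_filter.1 ha).1).1
    rw [map_mul, Complex.conj_conj, ch, recip hb' ha']
    ring
  rw [h3, norm_mul, RCLike.norm_conj]
  calc ‖β b‖ * ‖∑ k ∈ Sb i l s, (starRingEnd ℂ) (α k) * ch k b‖ ≤
      1 * ‖∑ k ∈ Sb i l s, (starRingEnd ℂ) (α k) * ch k b‖ := by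
        gcongr
        exact hβ b
    _ = _ := one_mul _

/-- **FINE** -/
theorem fineHyp : TIIC.FineHyp := by
  classical
  intro ε hε
  obtain ⟨C, hC, H⟩ := ms_all (ε := 2 * ε) (by linarith)
  refine ⟨Real.sqrt (8 * C), by positivity, ?_⟩
  intro i j l x hl hx α β hα hβ A B δ hA hB hδ
  have hA1 : 1 ≤ A := by rw [hA]; exact one_le_pow₀ (by norm_num)
  have hB1 : 1 ≤ B := by rw [hB]; exact one_le_pow₀ (by norm_num)
  have hδ0 : 0 < δ := by rw [hδ]; positivity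
  have hmain := H i j l x (fun a => (starRingEnd ℂ) (α a)) (Ib x i j l) hl hx
    (fun k => by rw [RCLike.norm_conj]; exact hα k) (fun s hs => (mem_filter.1 hs).2) A B δ hA hB hδ
  have h1 := TL_le i j l x α β hβ
  have h2 := card_Tb_le x j l (Ib x i j l)
  rw [← hB] at h2
  have h3 := cs_blocks (Ib x i j l) (Tb x j l)
    (fun s b => ‖∑ k ∈ Sb i l s, (starRingEnd ℂ) (α k) * ch k b‖)
  have hS0 : 0 ≤ ∑ s ∈ Ib x i j l, ∑ b ∈ Tb x j l s,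
      ‖∑ k ∈ Sb i l s, (starRingEnd ℂ) (α k) * ch k b‖ ^ 2 :=
    sum_nonneg fun _ _ => sum_nonneg fun _ _ => sq_nonneg _
  have hM : 0 ≤ Mf A B δ := Mf_nonneg (by linarith) (by linarith) hδ0.le
  generalize ∑ s ∈ Ib x i j l, ∑ b ∈ Tb x j l s,
      ‖∑ k ∈ Sb i l s, (starRingEnd ℂ) (α k) * ch k b‖ ^ 2 = V at hmain h3 hS0
  generalize ∑ s ∈ Ib x i j l, ∑ b ∈ Tb x j l s,
      ‖∑ k ∈ Sb i l s, (starRingEnd ℂ) (α k) * ch k b‖ = W at h1 h3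
  generalize ∑ s ∈ Ib x i j l, ((Tb x j l s).card : ℝ) = U at h2 h3
  have e : ((A * B) ^ ε) ^ 2 = (A * B) ^ (2 * ε) := by
    rw [← Real.rpow_natCast, ← Real.rpow_mul (by positivity)]; congr 1; push_cast; ring
  have h4 : W ^ 2 ≤ 8 * C * ((A * B) ^ ε) ^ 2 * (B * Mf A B δ) := by
    calc W ^ 2 ≤ U * V := h3
      _ ≤ 8 * B * V := mul_le_mul_of_nonneg_right h2 hS0
      _ ≤ 8 * B * (C * (A * B) ^ (2 * ε) * Mf A B δ) :=
          mul_le_mul_of_nonneg_left hmain (by linarith)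
      _ = _ := by rw [e]; ring
  have h5 := le_sqrt_mul (by positivity) (by positivity) h4
  refine h1.trans (h5.trans ?_)
  exact mul_le_mul_of_nonneg_left (sqrt_Mf_le (by linarith) (by linarith) hδ0) (by positivity)

end Vale.Agent.P006.FINE
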