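import Vale.Agent.P006.FINE.Base
import Mathlib.Analysis.Calculus.IteratedDeriv.Lemmas

/-!
# P006, block FINE-K: the operators `D1 V = (uV)'`, `Dop V = 4 (u V')'` and thin weights
-/

open MeasureTheory Set Real
open Vale.Agent.P006.PO
open scoped ContDiff SchwartzMap FourierTransform LineDeriv

namespace Vale.Agent.P006.FINE

/-- `(u V)'` -/
noncomputable def D1 (V : ℝ → ℂ) : ℝ → ℂ := deriv fun u => (u : ℂ) * V u

/-- `4 (u V')'` -/
noncomputable def Dop (V : ℝ → ℂ) : ℝ → ℂ := fun u => 4 * D1 (deriv V) u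

theorem D1_apply {V : ℝ → ℂ} (hV : ContDiff ℝ ∞ V) (u : ℝ) : D1 V u = V u + u * deriv V u := by
  have h1 : HasDerivAt (fun u : ℝ => (u : ℂ)) 1 u := Complex.ofRealCLM.hasDerivAt
  have h2 : HasDerivAt V (deriv V u) u := (hV.differentiable (by simp) u).hasDerivAt
  have h3 : HasDerivAt (fun u : ℝ => (u : ℂ) * V u) (1 * V u + u * deriv V u) u := h1.mul h2
  rw [D1, h3.deriv]
  ring

theorem contDiff_mul {V : ℝ → ℂ} (hV : ContDiff ℝ ∞ V) :
    ContDiff ℝ ∞ fun u : ℝ => (u : ℂ) * V u :=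
  Complex.ofRealCLM.contDiff.mul hV

theorem contDiff_D1 {V : ℝ → ℂ} (hV : ContDiff ℝ ∞ V) : ContDiff ℝ ∞ (D1 V) := by
  have h := contDiff_mul hV
  exact (contDiff_infty_iff_deriv.1 h).2

theorem contDiff_deriv {V : ℝ → ℂ} (hV : ContDiff ℝ ∞ V) : ContDiff ℝ ∞ (deriv V) :=
  (contDiff_infty_iff_deriv.1 hV).2

theorem contDiff_Dop {V : ℝ → ℂ} (hV : ContDiff ℝ ∞ V) : ContDiff ℝ ∞ (Dop V) :=
  contDiff_const.mul (contDiff_D1 (contDiff_deriv hV))

theorem iteratedDeriv_mul_id {V : ℝ → ℂ} (hV : ContDiff ℝ ∞ V) (j : ℕ) (u : ℝ) :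
    iteratedDeriv (j + 1) (fun u : ℝ => (u : ℂ) * V u) u =
      u * iteratedDeriv (j + 1) V u + (j + 1) * iteratedDeriv j V u := by
  induction j generalizing u with
  | zero =>
    simp only [zero_add, iteratedDeriv_one, iteratedDeriv_zero]
    have h := D1_apply hV u
    rw [D1] at h
    rw [h]
    push_cast
    ring
  | succ j ih =>
    rw [iteratedDeriv_succ]
    have h1 : iteratedDeriv (j + 1) (fun u : ℝ => (u : ℂ) * V u) = fun u : ℝ =>
        u * iteratedDeriv (j + 1) V u + (j + 1) * iteratedDeriv j V u := by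
      funext u; exact ih u
    rw [h1]
    have hd : ∀ i, HasDerivAt (iteratedDeriv i V) (iteratedDeriv (i + 1) V u) u := by
      intro i
      rw [iteratedDeriv_succ]
      have : Differentiable ℝ (iteratedDeriv i V) :=
        hV.differentiable_iteratedDeriv i (by exact_mod_cast ENat.natCast_lt_top i)
      exact (this u).hasDerivAt
    have h2 : HasDerivAt (fun u : ℝ => (u : ℂ)) 1 u := Complex.ofRealCLM.hasDerivAt
    have h3 := ((h2.mul (hd (j + 1))).add ((hd j).const_mul ((j : ℂ) + 1)))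
    have h4 := h3.deriv
    refine Eq.trans ?_ (h4.trans ?_)
    · rfl
    · push_cast
      ring

theorem iteratedDeriv_D1 {V : ℝ → ℂ} (hV : ContDiff ℝ ∞ V) (j : ℕ) (u : ℝ) :
    iteratedDeriv j (D1 V) u =
      u * iteratedDeriv (j + 1) V u + (j + 1) * iteratedDeriv j V u := by
  rw [D1, ← iteratedDeriv_succ', iteratedDeriv_mul_id hV]

/-- smooth weights supported in `|u - 1| ≤ w`, with `|V^{(j)}| ≤ M δ^{-j}` for `j ≤ m` -/
structure Thin (V : ℝ → ℂ) (δ w M : ℝ) (m : ℕ) : Prop where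
  smooth : ContDiff ℝ ∞ V
  supp : ∀ u, w < |u - 1| → V u = 0
  bound : ∀ j ≤ m, ∀ u, ‖iteratedDeriv j V u‖ ≤ M * (δ⁻¹) ^ j

namespace Thin

variable {V : ℝ → ℂ} {δ w M : ℝ} {m : ℕ}

theorem mono (h : Thin V δ w M m) {m' : ℕ} (hm : m' ≤ m) : Thin V δ w M m' :=
  ⟨h.smooth, h.supp, fun j hj u => h.bound j (hj.trans hm) u⟩

theorem bound_zero (h : Thin V δ w M m) (u : ℝ) : ‖V u‖ ≤ M := by
  have := h.bound 0 (Nat.zero_le _) u
  simpa using this

theorem nonneg (h : Thin V δ w M m) : 0 ≤ M := (norm_nonneg _).trans (h.bound_zero 0)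

theorem iteratedDeriv_eq_zero (h : Thin V δ w M m) (j : ℕ) {u : ℝ} (hu : w < |u - 1|) :
    iteratedDeriv j V u = 0 := by
  have ho : IsOpen {u : ℝ | w < |u - 1|} := isOpen_lt continuous_const (by fun_prop)
  have he : V =ᶠ[nhds u] fun _ => 0 := by
    filter_upwards [ho.mem_nhds hu] with v hv
    exact h.supp v hv
  rw [he.iteratedDeriv_eq j]
  simp

theorem compact (h : Thin V δ w M m) : HasCompactSupport V := by
  refine HasCompactSupport.intro (isCompact_closedBall (1 : ℝ) w) fun u hu => ?_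
  apply h.supp
  rw [Metric.mem_closedBall, Real.dist_eq, not_le] at hu
  exact hu

theorem wt (h : Thin V δ w M m) : Wt V := ⟨h.smooth, h.compact⟩

theorem deriv (h : Thin V δ w M (m + 1)) : Thin (deriv V) δ w (M * δ⁻¹) m where
  smooth := contDiff_deriv h.smooth
  supp u hu := by
    have := h.iteratedDeriv_eq_zero 1 hu
    rwa [iteratedDeriv_one] at this
  bound j hj u := by
    rw [← iteratedDeriv_succ']
    refine (h.bound (j + 1) (by omega) u).trans (le_of_eq ?_)
    rw [pow_succ]; ring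

theorem D1 (h : Thin V δ w M (m + 1)) (hδ : 0 < δ) (hδ1 : δ ≤ 1) (hw : w ≤ 1 / 2) :
    Thin (D1 V) δ w ((m + 3) * M * δ⁻¹) m where
  smooth := contDiff_D1 h.smooth
  supp u hu := by
    rw [D1_apply h.smooth, h.supp u hu]
    have := h.iteratedDeriv_eq_zero 1 hu
    rw [iteratedDeriv_one] at this
    rw [this]; simp
  bound j hj u := by
    have hM := h.nonneg
    have hinv : 1 ≤ δ⁻¹ := (one_le_inv₀ hδ).2 hδ1
    rw [iteratedDeriv_D1 h.smooth]
    by_cases hu : w < |u - 1|
    · rw [h.iteratedDeriv_eq_zero _ hu, h.iteratedDeriv_eq_zero _ hu]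
      simp only [mul_zero, add_zero, norm_zero]
      positivity
    · push Not at hu
      have hu2 : |u| ≤ 3 / 2 := by
        calc |u| = |(u - 1) + 1| := by ring_nf
          _ ≤ |u - 1| + |1| := abs_add_le _ _
          _ ≤ 3 / 2 := by rw [abs_one]; linarith
      have h1 := h.bound (j + 1) (by omega) u
      have h2 := h.bound j (by omega) u
      have hj' : (j : ℝ) ≤ m := by exact_mod_cast hj
      have hcast : ‖((j : ℂ) + 1)‖ = (j : ℝ) + 1 := by
        have : ((j : ℂ) + 1) = (((j : ℝ) + 1 : ℝ) : ℂ) := by push_cast; ring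
        rw [this, Complex.norm_real, Real.norm_of_nonneg (by positivity)]
      calc ‖(u : ℂ) * iteratedDeriv (j + 1) V u + (j + 1) * iteratedDeriv j V u‖
          ≤ |u| * ‖iteratedDeriv (j + 1) V u‖ + (j + 1) * ‖iteratedDeriv j V u‖ := by
            refine (norm_add_le _ _).trans ?_
            rw [norm_mul, norm_mul, Complex.norm_real, Real.norm_eq_abs, hcast]
        _ ≤ 3 / 2 * (M * δ⁻¹ ^ (j + 1)) + (j + 1) * (M * δ⁻¹ ^ j) := by
            gcongr
        _ ≤ 3 / 2 * (M * δ⁻¹ ^ (j + 1)) + (m + 1) * (M * δ⁻¹ ^ (j + 1)) := by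
            have h6 : δ⁻¹ ^ j ≤ δ⁻¹ ^ (j + 1) := pow_le_pow_right₀ hinv (Nat.le_succ j)
            have h7 : ((j : ℝ) + 1) * (M * δ⁻¹ ^ j) ≤ (m + 1) * (M * δ⁻¹ ^ (j + 1)) := by
              apply mul_le_mul (by linarith) (mul_le_mul_of_nonneg_left h6 hM) (by positivity)
                (by positivity)
            linarith
        _ ≤ (m + 3) * M * δ⁻¹ * δ⁻¹ ^ j := by
            have : (0 : ℝ) ≤ M * δ⁻¹ ^ (j + 1) := by positivity
            have h5 : (m + 3) * M * δ⁻¹ * δ⁻¹ ^ j = (m + 3) * (M * δ⁻¹ ^ (j + 1)) := by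
              rw [pow_succ]; ring
            rw [h5]
            nlinarith

theorem const_mul (h : Thin V δ w M m) (c : ℂ) : Thin (fun u => c * V u) δ w (‖c‖ * M) m where
  smooth := contDiff_const.mul h.smooth
  supp u hu := by rw [h.supp u hu, mul_zero]
  bound j hj u := by
    have : iteratedDeriv j (fun u => c * V u) u = c * iteratedDeriv j V u := by
      rw [iteratedDeriv_const_mul_field]
    rw [this, norm_mul, mul_assoc]
    exact mul_le_mul_of_nonneg_left (h.bound j hj u) (norm_nonneg _)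

theorem Dop (h : Thin V δ w M (m + 2)) (hδ : 0 < δ) (hδ1 : δ ≤ 1) (hw : w ≤ 1 / 2) :
    Thin (Dop V) δ w (4 * (m + 3) * M * δ⁻¹ ^ 2) m := by
  have h1 := ((h.deriv (m := m + 1)).D1 hδ hδ1 hw).const_mul 4
  have h2 : ‖(4 : ℂ)‖ * ((m + 3) * (M * δ⁻¹) * δ⁻¹) = 4 * (m + 3) * M * δ⁻¹ ^ 2 := by
    norm_num; ring
  rw [h2] at h1
  exact h1

/-- dilated profiles are thin weights -/
theorem of_profile {V0 : ℝ → ℂ} (hV : ContDiff ℝ ∞ V0) {R : ℝ} (hs : ∀ x, R < |x| → V0 x = 0)
    (m : ℕ) : ∃ M : ℝ, 0 ≤ M ∧ ∀ δ : ℝ, 0 < δ →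
      Thin (fun u => V0 ((u - 1) / δ)) δ (R * δ) M m := by
  have hcs : HasCompactSupport V0 := by
    refine HasCompactSupport.intro (isCompact_closedBall (0 : ℝ) R) fun u hu => ?_
    apply hs
    rw [Metric.mem_closedBall, Real.dist_eq, not_le, sub_zero] at hu
    exact hu
  have hb : ∀ j : ℕ, ∃ C : ℝ, ∀ x, ‖iteratedDeriv j V0 x‖ ≤ C := by
    intro j
    have hc : Continuous (iteratedDeriv j V0) :=
      hV.continuous_iteratedDeriv j (by exact_mod_cast le_top)
    have hcj : HasCompactSupport (iteratedDeriv j V0) := by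
      refine HasCompactSupport.intro (isCompact_closedBall (0 : ℝ) R) fun u hu => ?_
      rw [Metric.mem_closedBall, Real.dist_eq, not_le, sub_zero] at hu
      have ho : IsOpen {u : ℝ | R < |u|} := isOpen_lt continuous_const (by fun_prop)
      have he : V0 =ᶠ[nhds u] fun _ => 0 := by
        filter_upwards [ho.mem_nhds hu] with v hv
        exact hs v hv
      rw [he.iteratedDeriv_eq j]
      simp
    exact hcj.exists_bound_of_continuous hc
  choose C hC using hb
  refine ⟨∑ j ∈ Finset.range (m + 1), C j, ?_, fun δ hδ => ⟨?_, ?_, ?_⟩⟩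
  · exact Finset.sum_nonneg fun j _ => (norm_nonneg _).trans (hC j 0)
  · exact hV.comp ((contDiff_id.sub contDiff_const).div_const δ)
  · intro u hu
    apply hs
    rw [abs_div, abs_of_pos hδ, lt_div_iff₀ hδ]
    exact hu
  · intro j hj u
    have h1 : iteratedDeriv j (fun u => V0 ((u - 1) / δ)) u =
        ((δ⁻¹ : ℝ) ^ j : ℝ) • iteratedDeriv j V0 ((u - 1) / δ) := by
      have e1 : (fun u : ℝ => V0 ((u - 1) / δ)) = fun u => (fun x => V0 (δ⁻¹ * x)) (u - 1) := by
        funext u; simp only; congr 1; field_simp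
      have e2 := congrFun (iteratedDeriv_comp_sub_const (n := j) (f := fun x => V0 (δ⁻¹ * x))
        (s := (1 : ℝ))) u
      rw [e1, e2]
      have e3 := congrFun (iteratedDeriv_comp_const_smul (n := j) (f := V0)
        (hV.of_le (by exact_mod_cast le_top)) δ⁻¹) (u - 1)
      rw [e3]
      congr 2
      field_simp
    rw [h1, norm_smul, Real.norm_of_nonneg (by positivity), mul_comm]
    gcongr
    refine (hC j _).trans ?_
    exact Finset.single_le_sum (f := fun j => C j)
      (fun i _ => (norm_nonneg _).trans (hC i 0)) (Finset.mem_range.2 (by omega))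

end Thin

end Vale.Agent.P006.FINE
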