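import Vale.Agent.P006.FINE.Lap
import Mathlib.Analysis.Distribution.SchwartzSpace.Fourier

/-!
# P006, block FINE-K: `16π² t V^o(t) = - (Dop V)^o(t)` and the decay in `δ² t`
-/

open MeasureTheory Set Real
open Vale.Agent.P006.PO
open scoped ContDiff SchwartzMap FourierTransform LineDeriv InnerProductSpace

namespace Vale.Agent.P006.FINE

theorem wt_deriv {V : ℝ → ℂ} (h : Wt V) : Wt (deriv V) :=
  ⟨contDiff_deriv h.smooth, h.supp.deriv⟩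

theorem wt_D1 {V : ℝ → ℂ} (h : Wt V) : Wt (D1 V) := by
  refine ⟨contDiff_D1 h.smooth, ?_⟩
  have h1 : HasCompactSupport fun u : ℝ => (u : ℂ) * V u := h.supp.mul_left
  exact h1.deriv

theorem wt_Dop {V : ℝ → ℂ} (h : Wt V) : Wt (Dop V) :=
  ⟨contDiff_Dop h.smooth, (wt_D1 (wt_deriv h)).supp.mul_left⟩

theorem hasFDerivAt_rad {V : ℝ → ℂ} (hV : ContDiff ℝ ∞ V) (z : ℂ) :
    HasFDerivAt (rad V) ((ContinuousLinearMap.toSpanSingleton ℝ (deriv V (‖z‖ ^ 2))).comp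
      ((2 : ℝ) • innerSL ℝ z)) z := by
  have h1 : HasFDerivAt (fun x : ℂ => ‖x‖ ^ 2) ((2 : ℝ) • innerSL ℝ z) z := by
    have := (hasStrictFDerivAt_norm_sq z).hasFDerivAt
    rwa [two_smul, ← two_smul ℝ] at this
  have h2 : HasFDerivAt V (ContinuousLinearMap.toSpanSingleton ℝ (deriv V (‖z‖ ^ 2)))
      (‖z‖ ^ 2) :=
    ((hV.differentiable (by simp) (‖z‖ ^ 2)).hasDerivAt).hasFDerivAt
  exact h2.comp z h1

theorem fderiv_rad {V : ℝ → ℂ} (hV : ContDiff ℝ ∞ V) (z m : ℂ) :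
    fderiv ℝ (rad V) z m = ((2 * ⟪z, m⟫_ℝ : ℝ) : ℂ) * deriv V (‖z‖ ^ 2) := by
  rw [(hasFDerivAt_rad hV z).fderiv]
  simp
  ring

theorem fderiv_rad2 {V : ℝ → ℂ} (hV : ContDiff ℝ ∞ V) (z m : ℂ) :
    fderiv ℝ (fun z : ℂ => ((2 * ⟪z, m⟫_ℝ : ℝ) : ℂ) * deriv V (‖z‖ ^ 2)) z m =
      ((2 * ⟪m, m⟫_ℝ : ℝ) : ℂ) * deriv V (‖z‖ ^ 2) +
        ((4 * ⟪z, m⟫_ℝ ^ 2 : ℝ) : ℂ) * deriv (deriv V) (‖z‖ ^ 2) := by
  have h1 := hasFDerivAt_rad (contDiff_deriv hV) z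
  have h2 : HasFDerivAt (fun z : ℂ => ((2 * ⟪z, m⟫_ℝ : ℝ) : ℂ))
      (Complex.ofRealCLM.comp ((2 : ℝ) • (innerSL ℝ m))) z := by
    have h3 : (fun z : ℂ => ((2 * ⟪z, m⟫_ℝ : ℝ) : ℂ)) =
        fun z => (Complex.ofRealCLM.comp ((2 : ℝ) • (innerSL ℝ m))) z := by
      funext z
      simp
      ring
    rw [h3]
    exact ContinuousLinearMap.hasFDerivAt _
  have h4 : HasFDerivAt (fun z : ℂ => ((2 * ⟪z, m⟫_ℝ : ℝ) : ℂ) * deriv V (‖z‖ ^ 2)) _ z :=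
    h2.mul h1
  rw [h4.fderiv]
  simp only [_root_.add_apply, _root_.smul_apply,
    ContinuousLinearMap.comp_apply, Complex.ofRealCLM_apply, innerSL_apply_apply,
    ContinuousLinearMap.toSpanSingleton_apply, smul_eq_mul, Complex.real_smul]
  push_cast
  ring

theorem lap_schwartz {V : ℝ → ℂ} (h : Wt V) (z : ℂ) :
    (∂_{(1 : ℂ)} (∂_{(1 : ℂ)} h.radS)) z + (∂_{Complex.I} (∂_{Complex.I} h.radS)) z =
      rad (Dop V) z := by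
  have key : ∀ m : ℂ, (∂_{m} (∂_{m} h.radS)) z = ((2 * ⟪m, m⟫_ℝ : ℝ) : ℂ) * deriv V (‖z‖ ^ 2) +
        ((4 * ⟪z, m⟫_ℝ ^ 2 : ℝ) : ℂ) * deriv (deriv V) (‖z‖ ^ 2) := by
    intro m
    rw [SchwartzMap.lineDerivOp_apply_eq_fderiv]
    have h1 : ((∂_{m} h.radS : 𝓢(ℂ, ℂ)) : ℂ → ℂ) =
        fun z : ℂ => ((2 * ⟪z, m⟫_ℝ : ℝ) : ℂ) * deriv V (‖z‖ ^ 2) := by
      funext w
      rw [SchwartzMap.lineDerivOp_apply_eq_fderiv, Wt.coe_radS, fderiv_rad h.smooth]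
    rw [h1, fderiv_rad2 h.smooth]
  rw [key, key, rad, Dop, D1_apply (contDiff_deriv h.smooth)]
  have h2 : ‖z‖ ^ 2 = z.re ^ 2 + z.im ^ 2 := by
    rw [← Complex.normSq_eq_norm_sq, Complex.normSq_apply]; ring
  have h3 : ⟪z, (1 : ℂ)⟫_ℝ = z.re := by simp
  have h4 : ⟪z, Complex.I⟫_ℝ = z.im := by simp
  have h5 : ⟪(1 : ℂ), (1 : ℂ)⟫_ℝ = 1 := by simp
  have h6 : ⟪Complex.I, Complex.I⟫_ℝ = 1 := by simp
  rw [h3, h4, h5, h6, h2]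
  push_cast
  ring

theorem Vo_eq_fourier {V : ℝ → ℂ} (h : Wt V) (t : ℝ) :
    Vo V t = (𝓕 h.radS : 𝓢(ℂ, ℂ)) ((2 * Real.sqrt t : ℝ) : ℂ) := by
  rw [Vo, FT_eq_fourier, SchwartzMap.fourier_coe, Wt.coe_radS]
  rw [Complex.conj_ofReal]
  push_cast
  ring

theorem lap_identity {V : ℝ → ℂ} (h : Wt V) {t : ℝ} (ht : 0 ≤ t) :
    Vo (Dop V) t = -(16 * π ^ 2 * t : ℝ) * Vo V t := by
  have h1 : (∂_{(1 : ℂ)} (∂_{(1 : ℂ)} h.radS)) + (∂_{Complex.I} (∂_{Complex.I} h.radS)) =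
      (wt_Dop h).radS := by
    ext z
    rw [_root_.add_apply, lap_schwartz, Wt.radS_apply]
  rw [Vo_eq_fourier h, Vo_eq_fourier (wt_Dop h), ← h1]
  set ξ : ℂ := ((2 * Real.sqrt t : ℝ) : ℂ) with hξ
  have hg : ∀ m : ℂ, (fun x : ℂ => ⟪x, m⟫_ℝ).HasTemperateGrowth :=
    fun m => ((innerSL ℝ).flip m).hasTemperateGrowth
  have h2 : ∀ (f : 𝓢(ℂ, ℂ)) (m : ℂ), (𝓕 (∂_{m} f) : 𝓢(ℂ, ℂ)) ξ =
      (2 * π * Complex.I) * ((⟪ξ, m⟫_ℝ : ℝ) : ℂ) * (𝓕 f : 𝓢(ℂ, ℂ)) ξ := by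
    intro f m
    rw [SchwartzMap.fourier_lineDerivOp_eq, _root_.smul_apply,
      SchwartzMap.smulLeftCLM_apply_apply (hg m)]
    simp only [smul_eq_mul, Complex.real_smul]
    ring
  have h3 : (𝓕 (∂_{(1 : ℂ)} (∂_{(1 : ℂ)} h.radS) + ∂_{Complex.I} (∂_{Complex.I} h.radS)) :
      𝓢(ℂ, ℂ)) ξ = (𝓕 (∂_{(1 : ℂ)} (∂_{(1 : ℂ)} h.radS)) : 𝓢(ℂ, ℂ)) ξ +
      (𝓕 (∂_{Complex.I} (∂_{Complex.I} h.radS)) : 𝓢(ℂ, ℂ)) ξ := by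
    rw [FourierTransform.fourier_add]; rfl
  rw [h3, h2, h2, h2, h2]
  have h4 : ⟪ξ, (1 : ℂ)⟫_ℝ = 2 * Real.sqrt t := by simp [hξ]
  have h5 : ⟪ξ, Complex.I⟫_ℝ = 0 := by simp [hξ]
  rw [h4, h5]
  have h6 : ((Real.sqrt t : ℝ) : ℂ) * ((Real.sqrt t : ℝ) : ℂ) = (t : ℂ) := by
    exact_mod_cast congrArg ((↑) : ℝ → ℂ) (Real.mul_self_sqrt ht)
  push_cast
  have h7 : Complex.I * Complex.I = -1 := Complex.I_mul_I
  linear_combination (16 * (π : ℂ) ^ 2 * (𝓕 h.radS : 𝓢(ℂ, ℂ)) ξ) * (Complex.I * Complex.I * h6) +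
    (16 * (π : ℂ) ^ 2 * (𝓕 h.radS : 𝓢(ℂ, ℂ)) ξ * t) * h7

/-- **(K1)** the kernel bound for weights in a thin annulus -/
theorem thin_bound (k : ℕ) : ∃ C : ℝ, 0 < C ∧ ∀ (V : ℝ → ℂ) (δ w M : ℝ), 0 < δ → δ ≤ 1 → 0 < w →
    w ≤ 1 / 2 → Thin V δ w M (2 * k) → ∀ t : ℝ, 0 ≤ t →
      (1 + δ ^ 2 * t) ^ k * ‖Vo V t‖ ≤ C * w * M * (1 + t) ^ (-(1 / 4) : ℝ) := by
  induction k with
  | zero =>
    refine ⟨96, by norm_num, fun V δ w M _ _ hw hw2 h t ht => ?_⟩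
    rw [pow_zero, one_mul]
    exact Vo_bound_base h.smooth.continuous hw hw2 h.supp h.bound_zero ht
  | succ k ih =>
    obtain ⟨C, hC, ih⟩ := ih
    refine ⟨C * (1 + 4 * (2 * k + 3)), by positivity, fun V δ w M hδ hδ1 hw hw2 h t ht => ?_⟩
    have h1 := ih V δ w M hδ hδ1 hw hw2 (h.mono (by omega)) t ht
    have h2' : Thin (Dop V) δ w (4 * ((2 * k : ℕ) + 3) * M * δ⁻¹ ^ 2) (2 * k) :=
      Thin.Dop (m := 2 * k) (h.mono (by omega)) hδ hδ1 hw2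
    have h2 := ih (Dop V) δ w _ hδ hδ1 hw hw2 h2' t ht
    have hM := h.nonneg
    rw [lap_identity h.wt ht, norm_mul, norm_neg, Complex.norm_real,
      Real.norm_of_nonneg (by positivity)] at h2
    have hq : (0 : ℝ) < (1 + t) ^ (-(1 / 4) : ℝ) := by positivity
    have hpi : (3 : ℝ) < π := Real.pi_gt_three
    have h3 : (1 + δ ^ 2 * t) ^ k * (δ ^ 2 * t * ‖Vo V t‖) ≤
        C * w * (4 * (2 * k + 3) * M) * (1 + t) ^ (-(1 / 4) : ℝ) := by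
      have h4 : (1 + δ ^ 2 * t) ^ k * (t * ‖Vo V t‖) ≤
          C * w * (4 * ((2 * k : ℕ) + 3) * M * δ⁻¹ ^ 2) * (1 + t) ^ (-(1 / 4) : ℝ) := by
        refine le_trans ?_ h2
        gcongr
        have h5 : (1 : ℝ) ≤ 16 * π ^ 2 := by nlinarith
        nlinarith
      calc (1 + δ ^ 2 * t) ^ k * (δ ^ 2 * t * ‖Vo V t‖)
          = δ ^ 2 * ((1 + δ ^ 2 * t) ^ k * (t * ‖Vo V t‖)) := by ring
        _ ≤ δ ^ 2 * (C * w * (4 * ((2 * k : ℕ) + 3) * M * δ⁻¹ ^ 2) *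
            (1 + t) ^ (-(1 / 4) : ℝ)) := by gcongr
        _ = C * w * (4 * (2 * k + 3) * M) * (1 + t) ^ (-(1 / 4) : ℝ) := by
            push_cast
            field_simp
    calc (1 + δ ^ 2 * t) ^ (k + 1) * ‖Vo V t‖
        = (1 + δ ^ 2 * t) ^ k * ‖Vo V t‖ + (1 + δ ^ 2 * t) ^ k * (δ ^ 2 * t * ‖Vo V t‖) := by
          ring
      _ ≤ C * w * M * (1 + t) ^ (-(1 / 4) : ℝ) +
          C * w * (4 * (2 * k + 3) * M) * (1 + t) ^ (-(1 / 4) : ℝ) := add_le_add h1 h3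
      _ = C * (1 + 4 * (2 * k + 3)) * w * M * (1 + t) ^ (-(1 / 4) : ℝ) := by ring

end Vale.Agent.P006.FINE
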