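import Mathlib.Analysis.Fourier.FourierTransformDeriv
import Mathlib.Analysis.Fourier.Inversion
import Mathlib.Analysis.Calculus.BumpFunction.FiniteDimension
import Mathlib.Analysis.SpecialFunctions.ImproperIntegrals
import Mathlib.MeasureTheory.Measure.Haar.NormedSpace
import Mathlib.Analysis.Real.Pi.Bounds

/-!
# P006, block FINE-K: separation of variables on a short interval

A `C²` function on `|v| ≤ 2Uδ` with `|G^{(j)}| ≤ A δ^{-j}` (`j ≤ 2`) is on `|v| ≤ Uδ` a superposition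
`∫ ν(s) e^{isv} ds` with `∫|ν| ≤ C A`.
-/

open MeasureTheory Set Real
open scoped ContDiff FourierTransform RealInnerProductSpace

namespace Vale.Agent.P006.FINE

theorem sep_one {U : ℝ} (hU : 0 < U) : ∃ C : ℝ, 0 < C ∧ ∀ (G G1 G2 : ℝ → ℂ) (A : ℝ), 0 ≤ A →
    (∀ v, HasDerivAt G (G1 v) v) → (∀ v, HasDerivAt G1 (G2 v) v) → Continuous G2 →
    (∀ v, |v| ≤ 2 * U → ‖G v‖ ≤ A ∧ ‖G1 v‖ ≤ A ∧ ‖G2 v‖ ≤ A) →
    ∃ ν : ℝ → ℂ, Continuous ν ∧ Integrable ν ∧
      (∀ v, |v| ≤ U → G v = ∫ s, ν s * Complex.exp (Complex.I * ((s * v : ℝ) : ℂ))) ∧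
      (∀ s, ‖ν s‖ ≤ C * A / (1 + s ^ 2)) ∧ ∫ s, ‖ν s‖ ≤ C * A := by
  let χ : ContDiffBump (0 : ℝ) := ⟨U, 2 * U, hU, by linarith⟩
  have hχs : ContDiff ℝ ∞ (fun v => ((χ v : ℝ) : ℂ)) := Complex.ofRealCLM.contDiff.comp χ.contDiff
  set χ0 : ℝ → ℂ := fun v => ((χ v : ℝ) : ℂ) with hχ0
  have hχ1s : ContDiff ℝ ∞ (deriv χ0) := (contDiff_infty_iff_deriv.1 hχs).2
  have hχ2s : ContDiff ℝ ∞ (deriv (deriv χ0)) := (contDiff_infty_iff_deriv.1 hχ1s).2
  have hχz : ∀ v, 2 * U ≤ |v| → χ0 v = 0 := by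
    intro v hv
    have : χ v = 0 := χ.zero_of_le_dist (by rw [Real.dist_eq, sub_zero]; exact hv)
    simp [hχ0, this]
  have ho : IsOpen {u : ℝ | 2 * U < |u|} := isOpen_lt continuous_const (by fun_prop)
  have hχ1z : ∀ v, 2 * U < |v| → deriv χ0 v = 0 := by
    intro v hv
    have he : χ0 =ᶠ[nhds v] fun _ => 0 := by
      filter_upwards [ho.mem_nhds hv] with u hu
      exact hχz u (le_of_lt hu)
    rw [he.deriv_eq]; simp
  have hχ2z : ∀ v, 2 * U < |v| → deriv (deriv χ0) v = 0 := by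
    intro v hv
    have he : deriv χ0 =ᶠ[nhds v] fun _ => 0 := by
      filter_upwards [ho.mem_nhds hv] with u hu
      exact hχ1z u hu
    rw [he.deriv_eq]; simp
  have hχ1c : HasCompactSupport (deriv χ0) := by
    refine HasCompactSupport.intro (isCompact_closedBall (0 : ℝ) (2 * U)) fun u hu => ?_
    rw [mem_closedBall_zero_iff, not_le, Real.norm_eq_abs] at hu
    exact hχ1z u hu
  have hχ2c : HasCompactSupport (deriv (deriv χ0)) := by
    refine HasCompactSupport.intro (isCompact_closedBall (0 : ℝ) (2 * U)) fun u hu => ?_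
    rw [mem_closedBall_zero_iff, not_le, Real.norm_eq_abs] at hu
    exact hχ2z u hu
  obtain ⟨c1, hc1⟩ := hχ1c.exists_bound_of_continuous hχ1s.continuous
  obtain ⟨c2, hc2⟩ := hχ2c.exists_bound_of_continuous hχ2s.continuous
  have hc10 : 0 ≤ c1 := (norm_nonneg _).trans (hc1 0)
  have hc20 : 0 ≤ c2 := (norm_nonneg _).trans (hc2 0)
  have hχn : ∀ v, ‖χ0 v‖ ≤ 1 := by
    intro v
    simp only [hχ0]
    rw [Complex.norm_real, Real.norm_of_nonneg χ.nonneg]
    exact χ.le_one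
  have hχone : ∀ v, |v| ≤ U → χ0 v = 1 := by
    intro v hv
    have : χ v = 1 := χ.one_of_mem_closedBall (by rw [Metric.mem_closedBall, Real.dist_eq, sub_zero]; exact hv)
    simp [hχ0, this]
  refine ⟨4 * U * (c2 + 2 * c1 + 2) * (2 * π), by positivity, ?_⟩
  intro G G1 G2 A hA hG hG1 hG2 hb
  have hdχ : ∀ v, HasDerivAt χ0 (deriv χ0 v) v := fun v =>
    (hχs.differentiable (by simp) v).hasDerivAt
  have hdχ1 : ∀ v, HasDerivAt (deriv χ0) (deriv (deriv χ0) v) v := fun v =>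
    (hχ1s.differentiable (by simp) v).hasDerivAt
  set g : ℝ → ℂ := fun v => χ0 v * G v with hg
  set g1 : ℝ → ℂ := fun v => deriv χ0 v * G v + χ0 v * G1 v with hg1
  set g2 : ℝ → ℂ := fun v => (deriv (deriv χ0) v * G v + deriv χ0 v * G1 v) +
    (deriv χ0 v * G1 v + χ0 v * G2 v) with hg2
  have hdg : ∀ v, HasDerivAt g (g1 v) v := fun v => (hdχ v).mul (hG v)
  have hdg1 : ∀ v, HasDerivAt g1 (g2 v) v := fun v =>
    ((hdχ1 v).mul (hG v)).add ((hdχ v).mul (hG1 v))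
  have hGc : Continuous G := continuous_iff_continuousAt.2 fun v => (hG v).continuousAt
  have hG1c : Continuous G1 := continuous_iff_continuousAt.2 fun v => (hG1 v).continuousAt
  have hgc : Continuous g := hχs.continuous.mul hGc
  have hg1c : Continuous g1 := (hχ1s.continuous.mul hGc).add (hχs.continuous.mul hG1c)
  have hg2c : Continuous g2 := ((hχ2s.continuous.mul hGc).add (hχ1s.continuous.mul hG1c)).add
    ((hχ1s.continuous.mul hG1c).add (hχs.continuous.mul hG2))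
  have hgz : ∀ v, 2 * U < |v| → g v = 0 := fun v hv => by
    simp only [hg]; rw [hχz v hv.le, zero_mul]
  have hg1z : ∀ v, 2 * U < |v| → g1 v = 0 := fun v hv => by
    simp only [hg1]; rw [hχz v hv.le, hχ1z v hv]; simp
  have hg2z : ∀ v, 2 * U < |v| → g2 v = 0 := fun v hv => by
    simp only [hg2]; rw [hχz v hv.le, hχ1z v hv, hχ2z v hv]; simp
  have hcs : ∀ f : ℝ → ℂ, (∀ v, 2 * U < |v| → f v = 0) → HasCompactSupport f := by
    intro f hf
    refine HasCompactSupport.intro (isCompact_closedBall (0 : ℝ) (2 * U)) fun u hu => ?_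
    rw [mem_closedBall_zero_iff, not_le, Real.norm_eq_abs] at hu
    exact hf u hu
  have hgi : Integrable g := hgc.integrable_of_hasCompactSupport (hcs g hgz)
  have hg1i : Integrable g1 := hg1c.integrable_of_hasCompactSupport (hcs g1 hg1z)
  have hg2i : Integrable g2 := hg2c.integrable_of_hasCompactSupport (hcs g2 hg2z)
  have hL1 : ∀ (f : ℝ → ℂ) (B : ℝ), (∀ v, 2 * U < |v| → f v = 0) →
      (∀ v, |v| ≤ 2 * U → ‖f v‖ ≤ B) → ∫ v, ‖f v‖ ≤ 4 * U * B := by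
    intro f B hf hB
    have h1 : ∫ v, ‖f v‖ = ∫ v in Icc (-(2 * U)) (2 * U), ‖f v‖ := by
      symm
      apply setIntegral_eq_integral_of_forall_compl_eq_zero
      intro v hv
      rw [hf v, norm_zero]
      by_contra hcon
      push Not at hcon
      exact hv (abs_le.1 hcon)
    rw [h1]
    have h2 : ‖∫ v in Icc (-(2 * U)) (2 * U), ‖f v‖‖ ≤ B * volume.real (Icc (-(2 * U)) (2 * U)) := by
      apply norm_setIntegral_le_of_norm_le_const
      · rw [Real.volume_Icc]; exact ENNReal.ofReal_lt_top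
      · intro v hv
        rw [norm_norm]
        exact hB v (abs_le.2 hv)
    rw [Real.norm_of_nonneg (integral_nonneg fun _ => norm_nonneg _), Measure.real,
      Real.volume_Icc, ENNReal.toReal_ofReal (by linarith)] at h2
    linarith
  have hI0 : ∫ v, ‖g v‖ ≤ 4 * U * A := by
    apply hL1 g A hgz
    intro v hv
    simp only [hg]
    rw [norm_mul]
    calc ‖χ0 v‖ * ‖G v‖ ≤ 1 * A := mul_le_mul (hχn v) (hb v hv).1 (norm_nonneg _) zero_le_one
      _ = A := one_mul A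
  have hI2 : ∫ v, ‖g2 v‖ ≤ 4 * U * ((c2 + 2 * c1 + 1) * A) := by
    apply hL1 g2 _ hg2z
    intro v hv
    obtain ⟨b0, b1, b2⟩ := hb v hv
    simp only [hg2]
    calc ‖deriv (deriv χ0) v * G v + deriv χ0 v * G1 v + (deriv χ0 v * G1 v + χ0 v * G2 v)‖
        ≤ (‖deriv (deriv χ0) v‖ * ‖G v‖ + ‖deriv χ0 v‖ * ‖G1 v‖) +
          (‖deriv χ0 v‖ * ‖G1 v‖ + ‖χ0 v‖ * ‖G2 v‖) := by
          rw [← norm_mul, ← norm_mul, ← norm_mul]
          exact (norm_add_le _ _).trans (add_le_add (norm_add_le _ _) (norm_add_le _ _))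
      _ ≤ (c2 * A + c1 * A) + (c1 * A + 1 * A) := by
          gcongr
          · exact hc2 v
          · exact hc1 v
          · exact hc1 v
          · exact hχn v
      _ = (c2 + 2 * c1 + 1) * A := by ring
  -- Fourier transform
  have hder : deriv g = g1 := funext fun v => (hdg v).deriv
  have hder1 : deriv g1 = g2 := funext fun v => (hdg1 v).deriv
  have hF1 : 𝓕 g1 = fun x : ℝ => (2 * π * Complex.I * x) • 𝓕 g x := by
    have := Real.fourier_deriv hgi (fun v => (hdg v).differentiableAt) (by rw [hder]; exact hg1i)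
    rwa [hder] at this
  have hF2 : 𝓕 g2 = fun x : ℝ => (2 * π * Complex.I * x) • 𝓕 g1 x := by
    have := Real.fourier_deriv hg1i (fun v => (hdg1 v).differentiableAt) (by rw [hder1]; exact hg2i)
    rwa [hder1] at this
  have hnF : ∀ (f : ℝ → ℂ) (x : ℝ), ‖𝓕 f x‖ ≤ ∫ v, ‖f v‖ := by
    intro f x
    exact VectorFourier.norm_fourierIntegral_le_integral_norm _ _ _ _ _
  set K : ℝ := 4 * U * (c2 + 2 * c1 + 2) * A with hK
  have hK0 : 0 ≤ K := by positivity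
  have hdec : ∀ x : ℝ, ‖𝓕 g x‖ ≤ K * (1 + x ^ 2)⁻¹ := by
    intro x
    rw [← div_eq_mul_inv, le_div_iff₀ (by positivity)]
    have h1 := hnF g x
    have h2 := hnF g2 x
    rw [congrFun hF2 x, congrFun hF1 x, norm_smul, norm_smul] at h2
    have h3 : ‖(2 * π * Complex.I * x : ℂ)‖ = 2 * π * |x| := by
      rw [norm_mul, norm_mul, norm_mul, Complex.norm_I, Complex.norm_real, Complex.norm_real,
        Real.norm_eq_abs, Real.norm_eq_abs, abs_of_pos Real.pi_pos]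
      norm_num
    rw [h3] at h2
    have h4 : (2 * π * |x|) * ((2 * π * |x|) * ‖𝓕 g x‖) = 4 * π ^ 2 * x ^ 2 * ‖𝓕 g x‖ := by
      rw [← sq_abs x]; ring
    rw [h4] at h2
    have h5 : x ^ 2 * ‖𝓕 g x‖ ≤ 4 * π ^ 2 * x ^ 2 * ‖𝓕 g x‖ := by
      have h6 : (1 : ℝ) ≤ 4 * π ^ 2 := by nlinarith [Real.pi_gt_three]
      have h7 : 0 ≤ x ^ 2 * ‖𝓕 g x‖ := by positivity
      nlinarith
    calc ‖𝓕 g x‖ * (1 + x ^ 2) = ‖𝓕 g x‖ + x ^ 2 * ‖𝓕 g x‖ := by ring
      _ ≤ 4 * U * A + 4 * U * ((c2 + 2 * c1 + 1) * A) :=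
          add_le_add (h1.trans hI0) (h5.trans (h2.trans hI2))
      _ = K := by rw [hK]; ring
  have hFc : Continuous (𝓕 g) :=
    VectorFourier.fourierIntegral_continuous Real.continuous_fourierChar
      (by exact continuous_inner) hgi
  have hmaj : Integrable fun x : ℝ => K * (1 + x ^ 2)⁻¹ := integrable_inv_one_add_sq.const_mul K
  have hFi : Integrable (𝓕 g) :=
    hmaj.mono' hFc.aestronglyMeasurable (Filter.Eventually.of_forall hdec)
  have hFint : ∫ x, ‖𝓕 g x‖ ≤ K * π := by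
    calc ∫ x, ‖𝓕 g x‖ ≤ ∫ x : ℝ, K * (1 + x ^ 2)⁻¹ :=
          integral_mono hFi.norm hmaj hdec
      _ = K * π := by rw [integral_const_mul, integral_univ_inv_one_add_sq]
  have hinv := hgc.fourierInv_fourier_eq hgi hFi
  have hpi : (0 : ℝ) < 2 * π := by positivity
  refine ⟨fun s => ((2 * π)⁻¹ : ℝ) * 𝓕 g (s / (2 * π)), ?_, ?_, ?_, ?_, ?_⟩
  · fun_prop
  · exact (hFi.comp_div hpi.ne').const_mul _
  · intro v hv
    have h1 : G v = g v := by simp only [hg]; rw [hχone v hv, one_mul]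
    rw [h1, ← congrFun hinv v, Real.fourierInv_eq']
    have h2 := Measure.integral_comp_div (fun x : ℝ =>
      Complex.exp ((2 * π * ⟪x, v⟫ : ℝ) * Complex.I) • 𝓕 g x) (2 * π)
    have h3 : (∫ s : ℝ, ((2 * π)⁻¹ : ℝ) * 𝓕 g (s / (2 * π)) *
        Complex.exp (Complex.I * ((s * v : ℝ) : ℂ))) =
        ((2 * π)⁻¹ : ℝ) * ∫ s : ℝ, Complex.exp ((2 * π * ⟪s / (2 * π), v⟫ : ℝ) * Complex.I) •
          𝓕 g (s / (2 * π)) := by
      rw [← integral_const_mul]
      congr 1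
      funext s
      have h4 : (2 * π * ⟪s / (2 * π), v⟫ : ℝ) = s * v := by
        rw [RCLike.inner_apply, conj_trivial]
        field_simp
      rw [h4, smul_eq_mul]
      rw [mul_comm Complex.I]
      ring
    rw [h3, h2, abs_of_pos hpi, Complex.real_smul, ← mul_assoc, ← Complex.ofReal_mul,
      inv_mul_cancel₀ hpi.ne', Complex.ofReal_one, one_mul]
  · intro s
    rw [norm_mul, Complex.norm_real, Real.norm_of_nonneg (by positivity), le_div_iff₀ (by positivity)]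
    have h1 := hdec (s / (2 * π))
    have h2 : (1 + (s / (2 * π)) ^ 2)⁻¹ * (1 + s ^ 2) ≤ (2 * π) ^ 2 := by
      rw [inv_mul_le_iff₀ (by positivity)]
      have h3 : (1 + (s / (2 * π)) ^ 2) * (2 * π) ^ 2 = (2 * π) ^ 2 + s ^ 2 := by field_simp
      rw [h3]
      nlinarith [Real.pi_gt_three]
    calc (2 * π)⁻¹ * ‖𝓕 g (s / (2 * π))‖ * (1 + s ^ 2)
        ≤ (2 * π)⁻¹ * (K * (1 + (s / (2 * π)) ^ 2)⁻¹) * (1 + s ^ 2) := by gcongr
      _ = (2 * π)⁻¹ * K * ((1 + (s / (2 * π)) ^ 2)⁻¹ * (1 + s ^ 2)) := by ring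
      _ ≤ (2 * π)⁻¹ * K * (2 * π) ^ 2 := by gcongr
      _ = 4 * U * (c2 + 2 * c1 + 2) * (2 * π) * A := by rw [hK]; field_simp
  · have h5 : ∫ s : ℝ, ‖((2 * π)⁻¹ : ℝ) * 𝓕 g (s / (2 * π))‖ = ∫ x, ‖𝓕 g x‖ := by
      have h6 := Measure.integral_comp_div (fun x : ℝ => ‖𝓕 g x‖) (2 * π)
      have h7 : ∀ s : ℝ, ‖(((2 * π)⁻¹ : ℝ) : ℂ) * 𝓕 g (s / (2 * π))‖ =
          (2 * π)⁻¹ * ‖𝓕 g (s / (2 * π))‖ := by
        intro s
        rw [norm_mul, Complex.norm_real, Real.norm_of_nonneg (by positivity)]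
      simp only [h7]
      rw [integral_const_mul, h6, abs_of_pos hpi, smul_eq_mul, ← mul_assoc,
        inv_mul_cancel₀ hpi.ne', one_mul]
    rw [h5]
    calc ∫ x, ‖𝓕 g x‖ ≤ K * π := hFint
      _ ≤ K * (2 * π) := by nlinarith [Real.pi_pos]
      _ = 4 * U * (c2 + 2 * c1 + 2) * (2 * π) * A := by rw [hK]; ring

/-- the scaled version -/
theorem sep_scaled {U : ℝ} (hU : 0 < U) : ∃ C : ℝ, 0 < C ∧
    ∀ (δ : ℝ) (G G1 G2 : ℝ → ℂ) (A : ℝ), 0 < δ → 0 ≤ A →
    (∀ v, HasDerivAt G (G1 v) v) → (∀ v, HasDerivAt G1 (G2 v) v) → Continuous G2 →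
    (∀ v, |v| ≤ 2 * U * δ → ‖G v‖ ≤ A ∧ δ * ‖G1 v‖ ≤ A ∧ δ ^ 2 * ‖G2 v‖ ≤ A) →
    ∃ ν : ℝ → ℂ, Continuous ν ∧ Integrable ν ∧
      (∀ v, |v| ≤ U * δ → G v = ∫ s, ν s * Complex.exp (Complex.I * ((s * v : ℝ) : ℂ))) ∧
      (∀ s, ‖ν s‖ ≤ C * A * (δ / (1 + (δ * s) ^ 2))) ∧ ∫ s, ‖ν s‖ ≤ C * A := by
  obtain ⟨C, hC, H⟩ := sep_one hU
  refine ⟨C, hC, fun δ G G1 G2 A hδ hA hG hG1 hG2 hb => ?_⟩
  have hd : ∀ w : ℝ, HasDerivAt (fun w : ℝ => δ * w) δ w := fun w => by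
    simpa using (hasDerivAt_id w).const_mul δ
  obtain ⟨ν, hc, hi, he, hp, hn⟩ := H (fun w => G (δ * w)) (fun w => (δ : ℂ) * G1 (δ * w))
    (fun w => (δ : ℂ) * ((δ : ℂ) * G2 (δ * w))) A hA
    (fun w => by
      have := (hG (δ * w)).scomp w (hd w)
      rw [Complex.real_smul] at this
      exact this)
    (fun w => by
      have := ((hG1 (δ * w)).scomp w (hd w)).const_mul (δ : ℂ)
      rw [Complex.real_smul] at this
      exact this)
    (by fun_prop)
    (fun w hw => by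
      have h1 : |δ * w| ≤ 2 * U * δ := by
        rw [abs_mul, abs_of_pos hδ, mul_comm]; gcongr
      obtain ⟨b0, b1, b2⟩ := hb _ h1
      refine ⟨b0, ?_, ?_⟩
      · rw [norm_mul, Complex.norm_real, Real.norm_of_nonneg hδ.le]; exact b1
      · rw [norm_mul, norm_mul, Complex.norm_real, Real.norm_of_nonneg hδ.le, ← mul_assoc,
          ← sq]; exact b2)
  refine ⟨fun s => (δ : ℂ) * ν (δ * s), by fun_prop, ?_, ?_, ?_, ?_⟩
  · exact (hi.comp_mul_left' hδ.ne').const_mul _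
  · intro v hv
    have h1 : |v / δ| ≤ U := by
      rw [abs_div, abs_of_pos hδ, div_le_iff₀ hδ]; exact hv
    have h2 := he (v / δ) h1
    rw [mul_div_cancel₀ _ hδ.ne'] at h2
    rw [h2]
    have h3 := Measure.integral_comp_mul_left (fun s : ℝ =>
      ν s * Complex.exp (Complex.I * ((s * (v / δ) : ℝ) : ℂ))) δ
    have h4 : (∫ s : ℝ, (δ : ℂ) * ν (δ * s) * Complex.exp (Complex.I * ((s * v : ℝ) : ℂ))) =
        (δ : ℂ) * ∫ s : ℝ, ν (δ * s) * Complex.exp (Complex.I * ((δ * s * (v / δ) : ℝ) : ℂ)) := by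
      rw [← integral_const_mul]
      congr 1
      funext s
      have h5 : δ * s * (v / δ) = s * v := by field_simp
      rw [h5, mul_assoc]
    rw [h4, h3, abs_of_pos (inv_pos.2 hδ), Complex.real_smul, ← mul_assoc, ← Complex.ofReal_mul,
      mul_inv_cancel₀ hδ.ne', Complex.ofReal_one, one_mul]
  · intro s
    rw [norm_mul, Complex.norm_real, Real.norm_of_nonneg hδ.le]
    calc δ * ‖ν (δ * s)‖ ≤ δ * (C * A / (1 + (δ * s) ^ 2)) := by gcongr; exact hp _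
      _ = C * A * (δ / (1 + (δ * s) ^ 2)) := by ring
  · have h6 : ∫ s : ℝ, ‖(δ : ℂ) * ν (δ * s)‖ = ∫ s, ‖ν s‖ := by
      have h3 := Measure.integral_comp_mul_left (fun s : ℝ => ‖ν s‖) δ
      have h7 : ∀ s : ℝ, ‖(δ : ℂ) * ν (δ * s)‖ = δ * ‖ν (δ * s)‖ := by
        intro s
        rw [norm_mul, Complex.norm_real, Real.norm_of_nonneg hδ.le]
      simp only [h7]
      rw [integral_const_mul, h3, abs_of_pos (inv_pos.2 hδ), smul_eq_mul, ← mul_assoc,
        mul_inv_cancel₀ hδ.ne', one_mul]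
    rw [h6]; exact hn

end Vale.Agent.P006.FINE
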