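import Vale.Agent.P006.FINE.Der
import Vale.Agent.P006.FINE.Sep
import Vale.Agent.P006.V1.Pair

/-!
# P006, block FINE-K: the kernel of a thin annulus and its separation of variables
-/

open MeasureTheory Set Real
open Vale.Agent.P006.PO
open scoped ContDiff

namespace Vale.Agent.P006.FINE

/-- the size of the kernel -/
noncomputable def om (δ : ℝ) (k : ℕ) (x : ℝ) : ℝ :=
  δ * (1 + x) ^ (-(1 / 4) : ℝ) * ((1 + δ ^ 2 * x) ^ k)⁻¹

theorem om_nonneg {δ : ℝ} (hδ : 0 ≤ δ) (k : ℕ) {x : ℝ} (hx : 0 ≤ x) : 0 ≤ om δ k x := by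
  unfold om; positivity

/-- the kernel sizes at comparable points are comparable -/
theorem om_exp_le {δ : ℝ} (hδ : 0 ≤ δ) (k : ℕ) {x : ℝ} (hx : 0 ≤ x) {v u : ℝ} (hv : |v| ≤ u) :
    om δ k (x * Real.exp v) ≤ Real.exp ((k + 1) * u) * om δ k x := by
  have hu : 0 ≤ u := (abs_nonneg v).trans hv
  have h1 : Real.exp (-u) ≤ Real.exp v := Real.exp_le_exp.2 (by linarith [(abs_le.1 hv).1])
  have h0 : Real.exp (-u) ≤ 1 := by rw [Real.exp_le_one_iff]; linarith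
  have h2 : Real.exp (-u) * (1 + x) ≤ 1 + x * Real.exp v := by
    have := mul_le_mul_of_nonneg_left h1 hx
    nlinarith
  have h3 : Real.exp (-u) * (1 + δ ^ 2 * x) ≤ 1 + δ ^ 2 * (x * Real.exp v) := by
    have : δ ^ 2 * x * Real.exp (-u) ≤ δ ^ 2 * x * Real.exp v := by gcongr
    nlinarith
  have h4 : (1 + x * Real.exp v) ^ (-(1 / 4) : ℝ) ≤ Real.exp u * (1 + x) ^ (-(1 / 4) : ℝ) := by
    calc (1 + x * Real.exp v) ^ (-(1 / 4) : ℝ)
        ≤ (Real.exp (-u) * (1 + x)) ^ (-(1 / 4) : ℝ) :=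
          Real.rpow_le_rpow_of_nonpos (by positivity) h2 (by norm_num)
      _ = Real.exp (u / 4) * (1 + x) ^ (-(1 / 4) : ℝ) := by
          rw [Real.mul_rpow (Real.exp_pos _).le (by positivity), ← Real.exp_mul]
          congr 2
          ring
      _ ≤ Real.exp u * (1 + x) ^ (-(1 / 4) : ℝ) := by
          gcongr
          linarith
  have h5 : ((1 + δ ^ 2 * (x * Real.exp v)) ^ k)⁻¹ ≤ Real.exp (k * u) * ((1 + δ ^ 2 * x) ^ k)⁻¹ := by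
    calc ((1 + δ ^ 2 * (x * Real.exp v)) ^ k)⁻¹ ≤ ((Real.exp (-u) * (1 + δ ^ 2 * x)) ^ k)⁻¹ := by
          gcongr
      _ = Real.exp (k * u) * ((1 + δ ^ 2 * x) ^ k)⁻¹ := by
          rw [mul_pow, mul_inv, ← Real.exp_nat_mul, ← Real.exp_neg]
          congr 2
          ring
  unfold om
  calc δ * (1 + x * Real.exp v) ^ (-(1 / 4) : ℝ) * ((1 + δ ^ 2 * (x * Real.exp v)) ^ k)⁻¹
      ≤ δ * (Real.exp u * (1 + x) ^ (-(1 / 4) : ℝ)) *
        (Real.exp (k * u) * ((1 + δ ^ 2 * x) ^ k)⁻¹) := by gcongr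
    _ = Real.exp ((k + 1) * u) * (δ * (1 + x) ^ (-(1 / 4) : ℝ) * ((1 + δ ^ 2 * x) ^ k)⁻¹) := by
        rw [show (k + 1 : ℝ) * u = u + k * u by ring, Real.exp_add]; ring

/-- **(K1)** for `Thin` weights of width `w = R δ` -/
theorem thin_le (k : ℕ) : ∃ C : ℝ, 0 < C ∧ ∀ (V : ℝ → ℂ) (δ R M : ℝ), 0 < δ → δ ≤ 1 → 0 < R →
    R * δ ≤ 1 / 2 → Thin V δ (R * δ) M (2 * k) → ∀ t : ℝ, 0 ≤ t →
      ‖Vo V t‖ ≤ C * R * M * om δ k t := by
  obtain ⟨C, hC, H⟩ := thin_bound k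
  refine ⟨C, hC, fun V δ R M hδ hδ1 hR hw h t ht => ?_⟩
  have h1 := H V δ (R * δ) M hδ hδ1 (by positivity) hw h t ht
  rw [om]
  have h2 : (0 : ℝ) < (1 + δ ^ 2 * t) ^ k := by positivity
  calc ‖Vo V t‖ = ((1 + δ ^ 2 * t) ^ k)⁻¹ * ((1 + δ ^ 2 * t) ^ k * ‖Vo V t‖) := by
        field_simp
    _ ≤ ((1 + δ ^ 2 * t) ^ k)⁻¹ * (C * (R * δ) * M * (1 + t) ^ (-(1 / 4) : ℝ)) := by gcongr
    _ = C * R * M * (δ * (1 + t) ^ (-(1 / 4) : ℝ) * ((1 + δ ^ 2 * t) ^ k)⁻¹) := by ring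

/-- **(K3)** separation of variables for `Thin` weights -/
theorem thin_sep (k : ℕ) {U : ℝ} (hU : 0 < U) : ∃ C : ℝ, 0 < C ∧
    ∀ (V : ℝ → ℂ) (δ R M : ℝ), 0 < δ → δ ≤ 1 → 0 < R →
    R * δ ≤ 1 / 2 → Thin V δ (R * δ) M (2 * k + 2) → ∀ x : ℝ, 0 ≤ x →
    ∃ ν : ℝ → ℂ, Continuous ν ∧ Integrable ν ∧
      (∀ v, |v| ≤ U * δ → Vo V (x * Real.exp v) =
        ∫ s, ν s * Complex.exp (Complex.I * ((s * v : ℝ) : ℂ))) ∧
      (∀ s, ‖ν s‖ ≤ C * R * M * om δ k x * (δ / (1 + (δ * s) ^ 2))) ∧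
      ∫ s, ‖ν s‖ ≤ C * R * M * om δ k x := by
  obtain ⟨C1, hC1, H1⟩ := thin_le k
  obtain ⟨C2, hC2, H2⟩ := sep_scaled hU
  set E : ℝ := Real.exp ((k + 1) * (2 * U)) with hE
  set L : ℝ := (2 * k + 4) * (2 * k + 4) with hL
  refine ⟨C2 * (C1 * L * E), by positivity, fun V δ R M hδ hδ1 hR hw h x hx => ?_⟩
  have hM := h.nonneg
  have hV0 : Thin V δ (R * δ) M (2 * k) := h.mono (by omega)
  have hV1 : Thin (D1 V) δ (R * δ) (((2 * k + 1 : ℕ) + 3) * M * δ⁻¹) (2 * k + 1) :=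
    Thin.D1 (m := 2 * k + 1) h hδ hδ1 hw
  have hV2 : Thin (D1 (D1 V)) δ (R * δ)
      (((2 * k : ℕ) + 3) * (((2 * k + 1 : ℕ) + 3) * M * δ⁻¹) * δ⁻¹) (2 * k) :=
    Thin.D1 (m := 2 * k) hV1 hδ hδ1 hw
  have hom := om_nonneg hδ.le k hx
  have hL1 : 1 ≤ L := by rw [hL]; nlinarith [(Nat.cast_nonneg k : (0 : ℝ) ≤ k)]
  have hbd : ∀ (W : ℝ → ℂ) (M' : ℝ), Thin W δ (R * δ) M' (2 * k) → ∀ v, |v| ≤ 2 * U * δ →
      ‖Vo W (x * Real.exp v)‖ ≤ C1 * R * M' * (E * om δ k x) := by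
    intro W M' hW v hv
    have hM' := hW.nonneg
    have hx' : 0 ≤ x * Real.exp v := by positivity
    refine (H1 W δ R M' hδ hδ1 hR hw hW _ hx').trans ?_
    gcongr
    refine om_exp_le hδ.le k hx (hv.trans ?_)
    nlinarith
  obtain ⟨ν, hc, hi, he, hp, hn⟩ := H2 δ (fun v => Vo V (x * Real.exp v))
    (fun v => -Vo (D1 V) (x * Real.exp v)) (fun v => Vo (D1 (D1 V)) (x * Real.exp v))
    (C1 * L * E * R * M * om δ k x) hδ (by positivity)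
    (fun v => hasDerivAt_Vo_exp h.wt hx v)
    (fun v => by
      have := (hasDerivAt_Vo_exp (wt_D1 h.wt) hx v).neg
      rw [neg_neg] at this
      exact this)
    (by
      have h1 := (wt_D1 (wt_D1 h.wt)).Vo_continuous
      fun_prop)
    (fun v hv => by
      refine ⟨?_, ?_, ?_⟩
      · refine (hbd V M hV0 v hv).trans ?_
        calc C1 * R * M * (E * om δ k x) = 1 * (C1 * R * M * (E * om δ k x)) := by ring
          _ ≤ L * (C1 * R * M * (E * om δ k x)) := by gcongr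
          _ = C1 * L * E * R * M * om δ k x := by ring
      · have h1 := hbd (D1 V) _ (hV1.mono (by omega)) v hv
        rw [norm_neg]
        calc δ * ‖Vo (D1 V) (x * Real.exp v)‖
            ≤ δ * (C1 * R * (((2 * k + 1 : ℕ) + 3) * M * δ⁻¹) * (E * om δ k x)) := by gcongr
          _ = (2 * k + 4) * (C1 * R * M * (E * om δ k x)) := by
              push_cast; field_simp; ring
          _ ≤ L * (C1 * R * M * (E * om δ k x)) := by
              gcongr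
              rw [hL]; nlinarith [(Nat.cast_nonneg k : (0 : ℝ) ≤ k)]
          _ = C1 * L * E * R * M * om δ k x := by ring
      · have h1 := hbd (D1 (D1 V)) _ hV2 v hv
        calc δ ^ 2 * ‖Vo (D1 (D1 V)) (x * Real.exp v)‖
            ≤ δ ^ 2 * (C1 * R * (((2 * k : ℕ) + 3) * (((2 * k + 1 : ℕ) + 3) * M * δ⁻¹) * δ⁻¹) *
                (E * om δ k x)) := by gcongr
          _ = (2 * k + 3) * (2 * k + 4) * (C1 * R * M * (E * om δ k x)) := by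
              push_cast; field_simp; ring
          _ ≤ L * (C1 * R * M * (E * om δ k x)) := by
              gcongr
              rw [hL]
              gcongr
              linarith
          _ = C1 * L * E * R * M * om δ k x := by ring)
  refine ⟨ν, hc, hi, he, fun s => (hp s).trans (le_of_eq ?_), hn.trans (le_of_eq ?_)⟩ <;> ring

/-- the thin dilates of a fixed profile -/
noncomputable def Vd (V0 : ℝ → ℂ) (δ : ℝ) : ℝ → ℂ := fun u => V0 ((u - 1) / δ)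

theorem wt_Vd {V0 : ℝ → ℂ} (hV : Wt V0) {δ : ℝ} (hδ : 0 < δ) : Wt (Vd V0 δ) := by
  obtain ⟨B, hB, hs⟩ := hV.exists_bound
  obtain ⟨M, _, h⟩ := Thin.of_profile hV.smooth hs 0
  exact (h δ hδ).wt

/-- **(K1)** the kernel bound for the dilates of a fixed profile supported in `[-R, R]` -/
theorem kernel_le {V0 : ℝ → ℂ} (hV : ContDiff ℝ ∞ V0) {R : ℝ} (hR : 0 < R)
    (hs : ∀ x, R < |x| → V0 x = 0) (k : ℕ) : ∃ C : ℝ, 0 < C ∧ ∀ δ : ℝ, 0 < δ → δ ≤ 1 →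
      R * δ ≤ 1 / 2 → ∀ t : ℝ, 0 ≤ t → ‖Vo (Vd V0 δ) t‖ ≤ C * om δ k t := by
  obtain ⟨M, hM, h⟩ := Thin.of_profile hV hs (2 * k)
  obtain ⟨C, hC, H⟩ := thin_le k
  refine ⟨C * R * (M + 1), by positivity, fun δ hδ hδ1 hw t ht => ?_⟩
  have hom := om_nonneg hδ.le k ht
  refine (H (Vd V0 δ) δ R M hδ hδ1 hR hw (h δ hδ) t ht).trans ?_
  gcongr
  linarith

theorem kernel_zero_le {V0 : ℝ → ℂ} (hV : ContDiff ℝ ∞ V0) {R : ℝ} (hR : 0 < R)
    (hs : ∀ x, R < |x| → V0 x = 0) : ∃ C : ℝ, 0 < C ∧ ∀ δ : ℝ, 0 < δ → δ ≤ 1 →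
      R * δ ≤ 1 / 2 → ‖Vo (Vd V0 δ) 0‖ ≤ C * δ := by
  obtain ⟨C, hC, H⟩ := kernel_le hV hR hs 0
  refine ⟨C, hC, fun δ hδ hδ1 hw => ?_⟩
  have := H δ hδ hδ1 hw 0 le_rfl
  simpa [om] using this

/-- **(K3)** separation of variables for the dilates of a fixed profile -/
theorem kernel_sep {V0 : ℝ → ℂ} (hV : ContDiff ℝ ∞ V0) {R : ℝ} (hR : 0 < R)
    (hs : ∀ x, R < |x| → V0 x = 0) (k : ℕ) {U : ℝ} (hU : 0 < U) : ∃ C : ℝ, 0 < C ∧
      ∀ δ : ℝ, 0 < δ → δ ≤ 1 → R * δ ≤ 1 / 2 → ∀ x : ℝ, 0 ≤ x →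
      ∃ ν : ℝ → ℂ, Continuous ν ∧ Integrable ν ∧
        (∀ v, |v| ≤ U * δ → Vo (Vd V0 δ) (x * Real.exp v) =
          ∫ s, ν s * Complex.exp (Complex.I * ((s * v : ℝ) : ℂ))) ∧
        (∀ s, ‖ν s‖ ≤ C * om δ k x * (δ / (1 + (δ * s) ^ 2))) ∧
        ∫ s, ‖ν s‖ ≤ C * om δ k x := by
  obtain ⟨M, hM, h⟩ := Thin.of_profile hV hs (2 * k + 2)
  obtain ⟨C, hC, H⟩ := thin_sep k hU
  refine ⟨C * R * (M + 1), by positivity, fun δ hδ hδ1 hw x hx => ?_⟩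
  have hom := om_nonneg hδ.le k hx
  obtain ⟨ν, hc, hi, he, hp, hn⟩ := H (Vd V0 δ) δ R M hδ hδ1 hR hw (h δ hδ) x hx
  have h1 : C * R * M * om δ k x ≤ C * R * (M + 1) * om δ k x := by
    gcongr
    linarith
  refine ⟨ν, hc, hi, he, fun s => (hp s).trans ?_, hn.trans h1⟩
  exact mul_le_mul_of_nonneg_right h1 (by positivity)

/-- the same kernel in the notation of `V1` -/
theorem V1_Vo_eq {V : ℝ → ℂ} (h : Wt V) (t : ℝ) : V1.Vo h.radS t = Vo V t := by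
  rw [V1.Vo, V1.WT_apply, V1.FT, Vo, FT]
  congr 1
  funext z
  rw [Wt.radS_apply, eT, TrC_neg, mul_comm]

end Vale.Agent.P006.FINE
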