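import Vale.Agent.P006.H357.Inst

/-!
# P006, block FINE: expansion of double sums over squarefree primary elements by the gcd
-/

namespace Vale.Agent.P006.FINE

open Finset

open Classical in
/-- cofactors: squarefree primary `r` with `d * r ∈ S` -/
noncomputable def cof (S : Finset O) (X : ℝ) (d : O) : Finset O :=
  (HB.SF X).filter (fun r => d * r ∈ S)

theorem mem_cof {S : Finset O} {X : ℝ} {d r : O} : r ∈ cof S X d ↔ r ∈ HB.SF X ∧ d * r ∈ S := by
  classical
  rw [cof, mem_filter]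

theorem cof_subset (S : Finset O) (X : ℝ) (d : O) : cof S X d ⊆ HB.SF X := by
  classical
  exact filter_subset _ _

theorem SF_of_dvd {X : ℝ} {k d : O} (hk : k ∈ HB.SF X) (hd : Primary d) (h : d ∣ k) :
    d ∈ HB.SF X := by
  rw [HB.mem_SF] at *
  refine ⟨?_, hd, hk.2.2.squarefree_of_dvd h⟩
  have h1 : N d ≤ N k := Nat.le_of_dvd (N_pos hk.2.1.ne_zero) (N_dvd_N h)
  have h2 : (N d : ℝ) ≤ N k := by exact_mod_cast h1
  linarith [hk.1]

open Classical in
/-- double sums over `S` by the primary gcd -/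
theorem sum_pairs {S : Finset O} {X : ℝ} (hS : S ⊆ HB.SF X) (F : O → O → ℂ) :
    ∑ k ∈ S, ∑ l ∈ S, F k l = ∑ d ∈ HB.SF X, ∑ r ∈ cof S X d, ∑ t ∈ cof S X d,
      if IsCoprime r t then F (d * r) (d * t) else 0 := by
  set P : Finset (O × O × O) := ((HB.SF X) ×ˢ (HB.SF X) ×ˢ (HB.SF X)).filter
    (fun x => (x.1 * x.2.1 ∈ S ∧ x.1 * x.2.2 ∈ S) ∧ IsCoprime x.2.1 x.2.2) with hP
  have h1 : ∑ x ∈ P, F (x.1 * x.2.1) (x.1 * x.2.2) = ∑ d ∈ HB.SF X, ∑ r ∈ cof S X d,
      ∑ t ∈ cof S X d, if IsCoprime r t then F (d * r) (d * t) else 0 := by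
    rw [hP, sum_filter, sum_product]
    refine sum_congr rfl fun d _ => ?_
    rw [sum_product, cof, sum_filter]
    refine sum_congr rfl fun r _ => ?_
    by_cases hr : d * r ∈ S
    · rw [if_pos hr, sum_filter]
      refine sum_congr rfl fun t _ => ?_
      by_cases ht : d * t ∈ S
      · by_cases hc : IsCoprime r t
        · simp [hr, ht, hc]
        · simp [hc]
      · simp [ht]
    · rw [if_neg hr]
      apply sum_eq_zero
      intro t _
      simp [hr]
  rw [← h1, ← sum_product']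
  symm
  refine sum_bij (fun x _ => (x.1 * x.2.1, x.1 * x.2.2)) ?_ ?_ ?_ ?_
  · intro x hx
    rw [hP, mem_filter] at hx
    rw [mem_product]
    exact hx.2.1
  · intro x hx y hy hxy
    rw [hP, mem_filter, mem_product, mem_product] at hx hy
    simp only [Prod.mk.injEq] at hxy
    have hx1 := (HB.mem_SF.1 hx.1.1).2.1
    have hy1 := (HB.mem_SF.1 hy.1.1).2.1
    have h2 : x.1 = y.1 := HB.pgcd_unique hx1 hy1 hxy.1 hxy.2 hx.2.2 hy.2.2
    have hx0 : x.1 ≠ 0 := HB.Prim.ne_zero hx1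
    rw [← h2] at hxy
    exact Prod.ext h2 (Prod.ext (mul_left_cancel₀ hx0 hxy.1) (mul_left_cancel₀ hx0 hxy.2))
  · rintro ⟨k, l⟩ hkl
    rw [mem_product] at hkl
    have hk := hS hkl.1
    have hl := hS hkl.2
    obtain ⟨δ, a, b, h2, h3, h4, h5, h6, h7⟩ :=
      HB.exists_pgcd (HB.mem_SF.1 hk).2.1 (HB.mem_SF.1 hl).2.1
    simp only at h5 h6
    refine ⟨(δ, a, b), ?_, ?_⟩
    · rw [hP, mem_filter, mem_product, mem_product]
      refine ⟨⟨SF_of_dvd hk h2 ⟨a, h5⟩, SF_of_dvd hk h3 ⟨δ, by rw [h5]; ring⟩,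
        SF_of_dvd hl h4 ⟨δ, by rw [h6]; ring⟩⟩, ⟨?_, ?_⟩, h7⟩
      · simp only; rw [← h5]; exact hkl.1
      · simp only; rw [← h6]; exact hkl.2
    · simp only; rw [← h5, ← h6]
  · intro x _; rfl

open Classical in
theorem coprime_indicator {X : ℝ} {r : O} (hr : r ∈ HB.SF X) (t : O) :
    (if IsCoprime r t then (1 : ℂ) else 0) =
      ∑ m ∈ HB.SF X, if m ∣ r ∧ m ∣ t then HB.mob m else 0 := by
  have hr' := HB.mem_SF.1 hr
  rw [← HB.sum_mob r hr'.2.1 hr'.2.2 t]
  have h1 : HB.D r = (HB.SF X).filter (fun m => m ∣ r) := by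
    ext m
    rw [HB.mem_D hr'.2.1.ne_zero, mem_filter]
    constructor
    · rintro ⟨h2, h3⟩
      exact ⟨SF_of_dvd hr h2 h3, h3⟩
    · rintro ⟨h2, h3⟩
      exact ⟨(HB.mem_SF.1 h2).2.1, h3⟩
  rw [h1, sum_filter]
  refine sum_congr rfl fun m _ => ?_
  by_cases h2 : m ∣ r <;> by_cases h3 : m ∣ t <;> simp [h2, h3]

open Classical in
/-- reindexing the multiples of `m` -/
theorem sum_multiples {S : Finset O} {X : ℝ} (hS : S ⊆ HB.SF X) {d m : O}
    (hm : Primary m) (g : O → ℂ) :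
    ∑ r ∈ (cof S X d).filter (fun r => m ∣ r), g r = ∑ t ∈ cof S X (d * m), g (m * t) := by
  symm
  refine sum_bij (fun t _ => m * t) ?_ ?_ ?_ ?_
  · intro t ht
    rw [mem_cof] at ht
    rw [mem_filter, mem_cof]
    have h1 : d * (m * t) ∈ S := by rw [← mul_assoc]; exact ht.2
    refine ⟨⟨SF_of_dvd (hS h1) (hm.mul (HB.mem_SF.1 ht.1).2.1) (dvd_mul_left _ _), h1⟩,
      dvd_mul_right _ _⟩
  · intro t _ s _ h
    exact mul_left_cancel₀ hm.ne_zero h
  · intro r hr
    rw [mem_filter, mem_cof] at hr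
    obtain ⟨⟨h1, h2⟩, t, rfl⟩ := hr
    have ht : Primary t := hm.of_mul (HB.mem_SF.1 h1).2.1
    refine ⟨t, ?_, rfl⟩
    rw [mem_cof]
    exact ⟨SF_of_dvd h1 ht (dvd_mul_left _ _), by rw [mul_assoc]; exact h2⟩
  · intro t _; rfl

open Classical in
/-- removal of the coprimality condition by Moebius inversion -/
theorem sum_coprime {S : Finset O} {X : ℝ} (hS : S ⊆ HB.SF X) {d : O}
    (G : O → O → ℂ) :
    ∑ r ∈ cof S X d, ∑ t ∈ cof S X d, (if IsCoprime r t then G r t else 0) =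
      ∑ m ∈ HB.SF X, HB.mob m * ∑ r ∈ cof S X (d * m), ∑ t ∈ cof S X (d * m),
        G (m * r) (m * t) := by
  have h1 : ∀ r ∈ cof S X d, ∀ t ∈ cof S X d, (if IsCoprime r t then G r t else 0) =
      ∑ m ∈ HB.SF X, if m ∣ r ∧ m ∣ t then HB.mob m * G r t else 0 := by
    intro r hr t _
    have h2 := coprime_indicator (cof_subset S X d hr) t
    have h3 : (if IsCoprime r t then G r t else 0) =
        (if IsCoprime r t then (1 : ℂ) else 0) * G r t := by split_ifs <;> simp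
    rw [h3, h2, sum_mul]
    refine sum_congr rfl fun m _ => ?_
    split_ifs <;> simp
  rw [sum_congr rfl fun r hr => sum_congr rfl fun t ht => h1 r hr t ht]
  have h2 : ∀ r ∈ cof S X d, ∑ t ∈ cof S X d,
      (∑ m ∈ HB.SF X, if m ∣ r ∧ m ∣ t then HB.mob m * G r t else 0) =
      ∑ m ∈ HB.SF X, ∑ t ∈ cof S X d, if m ∣ r ∧ m ∣ t then HB.mob m * G r t else 0 :=
    fun r _ => sum_comm
  rw [sum_congr rfl h2, sum_comm]
  refine sum_congr rfl fun m hm => ?_
  have hm' := (HB.mem_SF.1 hm).2.1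
  rw [← sum_multiples hS hm' (fun r => ∑ t ∈ cof S X (d * m), G r (m * t)), sum_filter, mul_sum]
  refine sum_congr rfl fun r _ => ?_
  by_cases hr : m ∣ r
  · rw [if_pos hr, ← sum_multiples hS hm' (fun t => G r t), sum_filter, mul_sum]
    refine sum_congr rfl fun t _ => ?_
    by_cases ht : m ∣ t <;> simp [hr, ht]
  · rw [if_neg hr, mul_zero]
    apply sum_eq_zero
    intro t _
    simp [hr]

end Vale.Agent.P006.FINE
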