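import Vale.Agent.P006.FINE.Dual3
import Vale.Agent.P006.FINE.Main
import Vale.Agent.P006.PS.PStar

/-!
# P006, block FINE: the dual side is bounded by the cubic large sieve
-/

namespace Vale.Agent.P006.FINE

open Finset
open V1 (ch)

/-! ### the kernel `om δ 2` -/

theorem om_antitone {δ : ℝ} (hδ : 0 < δ) (k : ℕ) {x y : ℝ} (hx : 0 ≤ x) (h : x ≤ y) :
    om δ k y ≤ om δ k x := by
  unfold om
  have h1 : (1 + y) ^ (-(1 / 4) : ℝ) ≤ (1 + x) ^ (-(1 / 4) : ℝ) :=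
    Real.rpow_le_rpow_of_nonpos (by positivity) (by linarith) (by norm_num)
  have hy : 0 ≤ y := hx.trans h
  gcongr

theorem om_pow_le {δ x p : ℝ} (hδ : 0 < δ) (hx : 0 < x) (hp : 1 / 4 ≤ p) (hp2 : p ≤ 2) :
    x ^ p * om δ 2 x ≤ δ ^ (3 / 2 - 2 * p) := by
  have h1 : (1 + x) ^ (-(1 / 4) : ℝ) ≤ x ^ (-(1 / 4) : ℝ) :=
    Real.rpow_le_rpow_of_nonpos hx (by linarith) (by norm_num)
  set y := δ ^ 2 * x with hy
  have hy0 : 0 < y := by positivity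
  have h2 : x ^ p * x ^ (-(1 / 4) : ℝ) = y ^ (p - 1 / 4) * (δ ^ 2) ^ (-(p - 1 / 4)) := by
    rw [← Real.rpow_add hx, hy, Real.mul_rpow (by positivity) hx.le, Real.rpow_neg (by positivity)]
    have : (δ ^ 2) ^ (p - 1 / 4) ≠ 0 := by positivity
    rw [show p + -(1 / 4) = p - 1 / 4 by ring]
    field_simp
  have h3 : y ^ (p - 1 / 4) ≤ (1 + y) ^ 2 := by
    calc y ^ (p - 1 / 4) ≤ (1 + y) ^ (p - 1 / 4) :=
          Real.rpow_le_rpow hy0.le (by linarith) (by linarith)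
      _ ≤ (1 + y) ^ (2 : ℝ) := Real.rpow_le_rpow_of_exponent_le (by linarith) (by linarith)
      _ = (1 + y) ^ 2 := by norm_cast
  have h4 : δ * (δ ^ 2) ^ (-(p - 1 / 4)) = δ ^ (3 / 2 - 2 * p) := by
    rw [← Real.rpow_natCast, ← Real.rpow_mul hδ.le]
    nth_rewrite 1 [← Real.rpow_one δ]
    rw [← Real.rpow_add hδ]
    congr 1; push_cast; ring
  unfold om
  calc x ^ p * (δ * (1 + x) ^ (-(1 / 4) : ℝ) * ((1 + y) ^ 2)⁻¹)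
      ≤ x ^ p * (δ * x ^ (-(1 / 4) : ℝ) * ((1 + y) ^ 2)⁻¹) := by gcongr
    _ = δ * (x ^ p * x ^ (-(1 / 4) : ℝ)) * ((1 + y) ^ 2)⁻¹ := by ring
    _ = (δ * (δ ^ 2) ^ (-(p - 1 / 4))) * (y ^ (p - 1 / 4) * ((1 + y) ^ 2)⁻¹) := by rw [h2]; ring
    _ ≤ (δ * (δ ^ 2) ^ (-(p - 1 / 4))) * 1 := by
        gcongr
        rw [← div_eq_mul_inv, div_le_one (by positivity)]
        exact h3
    _ = _ := by rw [mul_one, h4]

/-- dyadic summation against the kernel -/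
theorem sum_om_le {δ l p ε : ℝ} (hδ : 0 < δ) (hl : 0 < l) (hε : 0 < ε) (hp : 1 / 4 ≤ p)
    (hp2 : p + 2 * ε ≤ 2) (J : ℕ) :
    ∑ j ∈ range J, om δ 2 (l * 2 ^ j) * ((2 : ℝ) ^ (j + 1)) ^ (p + ε) ≤
      (2 : ℝ) ^ (p + ε) * (1 - (2 : ℝ) ^ (-ε))⁻¹ *
        (l ^ (-(p + 2 * ε)) * δ ^ (3 / 2 - 2 * (p + 2 * ε))) := by
  have hr0 : (0 : ℝ) < (2 : ℝ) ^ (-ε) := by positivity
  have hr1 : (2 : ℝ) ^ (-ε) < 1 := Real.rpow_lt_one_of_one_lt_of_neg (by norm_num) (by linarith)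
  have key : ∀ j ∈ range J, om δ 2 (l * 2 ^ j) * ((2 : ℝ) ^ (j + 1)) ^ (p + ε) ≤
      (2 : ℝ) ^ (p + ε) * (l ^ (-(p + 2 * ε)) * δ ^ (3 / 2 - 2 * (p + 2 * ε))) *
        ((2 : ℝ) ^ (-ε)) ^ j := by
    intro j _
    have hx : 0 < l * 2 ^ j := by positivity
    have h1 := om_pow_le (p := p + 2 * ε) hδ hx (by linarith) hp2
    have h2 : ((2 : ℝ) ^ (j + 1)) ^ (p + ε) = (2 : ℝ) ^ (p + ε) * ((l * 2 ^ j) ^ (p + 2 * ε) *
        (l ^ (-(p + 2 * ε)) * ((2 : ℝ) ^ (-ε)) ^ j)) := by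
      rw [pow_succ, Real.mul_rpow (by positivity) (by norm_num),
        Real.mul_rpow hl.le (by positivity), mul_comm]
      congr 1
      have e1 : ((2 : ℝ) ^ (-ε)) ^ j = ((2 : ℝ) ^ j) ^ (-ε) := by
        rw [← Real.rpow_natCast, ← Real.rpow_mul (by norm_num), ← Real.rpow_natCast,
          ← Real.rpow_mul (by norm_num)]
        congr 1; ring
      rw [e1]
      have e2 : l ^ (p + 2 * ε) * l ^ (-(p + 2 * ε)) = 1 := by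
        rw [← Real.rpow_add hl]; simp
      have e3 : ((2 : ℝ) ^ j) ^ (p + ε) = ((2 : ℝ) ^ j) ^ (p + 2 * ε) * ((2 : ℝ) ^ j) ^ (-ε) := by
        rw [← Real.rpow_add (by positivity)]; congr 1; ring
      rw [e3]
      linear_combination (-((2 : ℝ) ^ j) ^ (p + 2 * ε) * ((2 : ℝ) ^ j) ^ (-ε)) * e2
    rw [h2]
    have h5 : 0 ≤ (2 : ℝ) ^ (p + ε) * (l ^ (-(p + 2 * ε)) * ((2 : ℝ) ^ (-ε)) ^ j) := by positivity
    calc om δ 2 (l * 2 ^ j) * ((2 : ℝ) ^ (p + ε) * ((l * 2 ^ j) ^ (p + 2 * ε) *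
        (l ^ (-(p + 2 * ε)) * ((2 : ℝ) ^ (-ε)) ^ j)))
        = ((2 : ℝ) ^ (p + ε) * (l ^ (-(p + 2 * ε)) * ((2 : ℝ) ^ (-ε)) ^ j)) *
          ((l * 2 ^ j) ^ (p + 2 * ε) * om δ 2 (l * 2 ^ j)) := by ring
      _ ≤ ((2 : ℝ) ^ (p + ε) * (l ^ (-(p + 2 * ε)) * ((2 : ℝ) ^ (-ε)) ^ j)) *
          δ ^ (3 / 2 - 2 * (p + 2 * ε)) := mul_le_mul_of_nonneg_left h1 h5
      _ = _ := by ring
  refine (sum_le_sum key).trans ?_
  rw [← mul_sum]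
  have h3 : ∑ j ∈ range J, ((2 : ℝ) ^ (-ε)) ^ j ≤ (1 - (2 : ℝ) ^ (-ε))⁻¹ := by
    have h4 := (summable_geometric_of_lt_one hr0.le hr1).sum_le_tsum (range J)
      (fun j _ => by positivity)
    rwa [tsum_geometric_of_lt_one hr0.le hr1] at h4
  calc (2 : ℝ) ^ (p + ε) * (l ^ (-(p + 2 * ε)) * δ ^ (3 / 2 - 2 * (p + 2 * ε))) *
        ∑ j ∈ range J, ((2 : ℝ) ^ (-ε)) ^ j
      ≤ (2 : ℝ) ^ (p + ε) * (l ^ (-(p + 2 * ε)) * δ ^ (3 / 2 - 2 * (p + 2 * ε))) *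
        (1 - (2 : ℝ) ^ (-ε))⁻¹ := by gcongr
    _ = _ := by ring

/-! ### dyadic decomposition of the dual sum -/

theorem sum_F_le {ω : ℝ → ℝ} (hω : ∀ x y, 0 < x → x ≤ y → ω y ≤ ω x)
    (hω0 : ∀ x, 0 < x → 0 ≤ ω x) {l : ℝ} (hl : 0 < l)
    (T : O → ℝ) (hT : ∀ h, 0 ≤ T h) (F : Finset O) (hF : ∀ h ∈ F, h ≠ 0) (Bd : ℝ → ℝ)
    (hB : ∀ H : ℝ, 1 ≤ H → ∑ h ∈ HB.Hn H, T h ≤ Bd H) :
    ∃ J : ℕ, ∑ h ∈ F, ω (l * N h) * T h ≤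
      ∑ j ∈ range J, ω (l * 2 ^ j) * Bd ((2 : ℝ) ^ (j + 1)) := by
  classical
  obtain ⟨J, hJ⟩ : ∃ J : ℕ, ∀ h ∈ F, Nat.log 2 (N h) ∈ range J := by
    refine ⟨F.sup (fun h => Nat.log 2 (N h)) + 1, fun h hh => ?_⟩
    rw [mem_range]
    have := le_sup (f := fun h => Nat.log 2 (N h)) hh
    omega
  refine ⟨J, ?_⟩
  rw [← sum_fiberwise_of_maps_to hJ]
  refine sum_le_sum fun j _ => ?_
  have h1 : ∀ h ∈ F.filter (fun h => Nat.log 2 (N h) = j), ω (l * N h) * T h ≤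
      ω (l * 2 ^ j) * T h := by
    intro h hh
    rw [mem_filter] at hh
    have hN : N h ≠ 0 := (N_pos (hF h hh.1)).ne'
    have h2 : 2 ^ j ≤ N h := by
      rw [← hh.2]; exact Nat.pow_log_le_self 2 hN
    have h3 : ((2 : ℝ) ^ j) ≤ N h := by exact_mod_cast h2
    have := hω (l * 2 ^ j) (l * N h) (by positivity) (by gcongr)
    exact mul_le_mul_of_nonneg_right this (hT h)
  refine (sum_le_sum h1).trans ?_
  rw [← mul_sum]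
  have h4 := hω0 (l * 2 ^ j) (by positivity)
  gcongr
  refine le_trans (sum_le_sum_of_subset_of_nonneg ?_ fun h _ _ => hT h)
    (hB ((2 : ℝ) ^ (j + 1)) (one_le_pow₀ (by norm_num)))
  intro h hh
  rw [mem_filter] at hh
  rw [HB.mem_Hn]
  refine ⟨?_, hF h hh.1⟩
  have h5 : N h < 2 ^ (j + 1) := by
    rw [← hh.2]; exact Nat.lt_pow_succ_log_self (by norm_num) _
  exact_mod_cast h5.le

theorem cof_le {S : Finset O} {X K : ℝ} (hK : ∀ k ∈ S, (N k : ℝ) ≤ K) {e t : O} (he : e ≠ 0)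
    (ht : t ∈ cof S X e) : t ∈ HB.SF (K / N e) := by
  rw [mem_cof, HB.mem_SF] at ht
  rw [HB.mem_SF]
  refine ⟨?_, ht.1.2⟩
  have h1 := hK _ ht.2
  rw [N_mul] at h1
  push_cast at h1
  have pe : (0 : ℝ) < N e := by exact_mod_cast N_pos he
  rw [le_div_iff₀ pe]
  linarith

/-- the bound for the dual side -/
noncomputable def PsiF (C ε δ K : ℝ) (c : O → ℂ) (S : Finset O) (X : ℝ) (e : O) (l : ℝ) : ℝ :=
  C * (K ^ ε * l ^ (-(2 * ε)) * δ ^ (-(4 * ε))) *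
    (l⁻¹ * δ ^ (-(1 / 2) : ℝ) + K / N e * (l ^ (-(1 / 3) : ℝ) * δ ^ (5 / 6 : ℝ)) +
      (K / N e) ^ (2 / 3 : ℝ) * (l ^ (-(2 / 3) : ℝ) * δ ^ (1 / 6 : ℝ))) *
    ∑ t ∈ cof S X e, ‖c (e * t)‖ ^ 2

theorem psi_bound {ε : ℝ} (hε : 0 < ε) (hε1 : ε ≤ 1 / 4) : ∃ C : ℝ, 0 < C ∧ ∀ δ : ℝ, 0 < δ →
    ∀ (K X : ℝ) (S : Finset O) (c : O → ℂ), 1 ≤ K → S ⊆ HB.SF X → (∀ k ∈ S, (N k : ℝ) ≤ K) →
      PsiHyp (om δ 2) c S X (PsiF C ε δ K c S X) := by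
  classical
  obtain ⟨C1, hC1, hLS⟩ := PS.cubic_large_sieve_full_symC ε hε
  set G : ℝ := (1 - (2 : ℝ) ^ (-ε))⁻¹ with hG
  have hr1 : (2 : ℝ) ^ (-ε) < 1 := Real.rpow_lt_one_of_one_lt_of_neg (by norm_num) (by linarith)
  have hG0 : 0 < G := inv_pos.2 (by linarith)
  refine ⟨C1 * (4 * G), by positivity, ?_⟩
  intro δ hδ K X S c hK hS hKS e l hl x hx F hF
  -- trivial case
  by_cases hne : cof S X e = ∅
  · rw [PsiF, hne]; simp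
  obtain ⟨t0, ht0⟩ := Finset.nonempty_iff_ne_empty.2 hne
  have he0 : e ≠ 0 := by
    rintro rfl
    rw [mem_cof, zero_mul] at ht0
    exact (HB.mem_SF.1 (hS ht0.2)).2.1.ne_zero rfl
  have pe : (0 : ℝ) < N e := by exact_mod_cast N_pos he0
  set Ke : ℝ := K / N e with hKe
  have hKe1 : 1 ≤ Ke := by
    have h1 := cof_le (K := K) hKS he0 ht0
    rw [HB.mem_SF] at h1
    have h2 : (1 : ℝ) ≤ N t0 := by exact_mod_cast N_pos h1.2.1.ne_zero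
    exact h2.trans h1.1
  have hKe0 : 0 < Ke := by linarith
  have hKeK : Ke ≤ K := by
    rw [hKe, div_le_iff₀ pe]
    have : (1 : ℝ) ≤ N e := by exact_mod_cast N_pos he0
    nlinarith
  set Sc : ℝ := ∑ t ∈ cof S X e, ‖c (e * t)‖ ^ 2 with hSc
  have hSc0 : 0 ≤ Sc := by positivity
  set T : O → ℝ := fun h => ‖∑ t ∈ cof S X e, x t * ch t h‖ ^ 2 with hT
  have hbd : ∀ H : ℝ, 1 ≤ H → ∑ h ∈ HB.Hn H, T h ≤
      C1 * (Ke * H) ^ ε * (H + Ke * H ^ (1 / 3 : ℝ) + (Ke * H) ^ (2 / 3 : ℝ)) * Sc := by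
    intro H hH
    have h1 := hLS Ke H hKe1 hH (fun t => if t ∈ cof S X e then x t else 0)
    have hsub : cof S X e ⊆ HB.SF Ke := fun t ht => cof_le hKS he0 ht
    have h2 : ∀ h : O, ∑ k ∈ HB.SF Ke, (if k ∈ cof S X e then x k else 0) * HB.symC k h =
        ∑ t ∈ cof S X e, x t * ch t h := by
      intro h
      rw [← sum_subset hsub]
      · exact sum_congr rfl fun t ht => by rw [if_pos ht]; rfl
      · intro t _ ht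
        rw [if_neg ht, zero_mul]
    simp only [h2] at h1
    refine h1.trans ?_
    gcongr
    calc ∑ k ∈ HB.SF Ke, ‖(if k ∈ cof S X e then x k else 0 : ℂ)‖ ^ 2
        = ∑ t ∈ cof S X e, ‖x t‖ ^ 2 := by
          rw [← sum_subset hsub]
          · exact sum_congr rfl fun t ht => by rw [if_pos ht]
          · intro t _ ht
            rw [if_neg ht]; simp
      _ ≤ Sc := by
          refine sum_le_sum fun t _ => ?_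
          gcongr
          exact hx t
  obtain ⟨J, hJ⟩ := sum_F_le (ω := om δ 2) (fun x y hx hxy => om_antitone hδ 2 hx.le hxy)
    (fun x hx => om_nonneg hδ.le 2 hx.le) hl T (fun h => by positivity) F hF _ hbd
  refine hJ.trans ?_
  -- the three pieces
  have s1 := sum_om_le (p := 1) hδ hl hε (by norm_num) (by linarith) J
  have s2 := sum_om_le (p := 1 / 3) hδ hl hε (by norm_num) (by linarith) J
  have s3 := sum_om_le (p := 2 / 3) hδ hl hε (by norm_num) (by linarith) J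
  have hsplit : ∀ j ∈ range J, om δ 2 (l * 2 ^ j) * (C1 * (Ke * (2 : ℝ) ^ (j + 1)) ^ ε *
      ((2 : ℝ) ^ (j + 1) + Ke * ((2 : ℝ) ^ (j + 1)) ^ (1 / 3 : ℝ) +
        (Ke * (2 : ℝ) ^ (j + 1)) ^ (2 / 3 : ℝ)) * Sc) =
      C1 * Ke ^ ε * Sc * (om δ 2 (l * 2 ^ j) * ((2 : ℝ) ^ (j + 1)) ^ (1 + ε) +
        Ke * (om δ 2 (l * 2 ^ j) * ((2 : ℝ) ^ (j + 1)) ^ (1 / 3 + ε)) +
        Ke ^ (2 / 3 : ℝ) * (om δ 2 (l * 2 ^ j) * ((2 : ℝ) ^ (j + 1)) ^ (2 / 3 + ε))) := by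
    intro j _
    have hp : (0 : ℝ) < (2 : ℝ) ^ (j + 1) := by positivity
    rw [Real.mul_rpow hKe0.le hp.le, Real.mul_rpow hKe0.le hp.le, Real.rpow_add hp,
      Real.rpow_add hp, Real.rpow_add hp, Real.rpow_one]
    ring
  rw [sum_congr rfl hsplit, ← mul_sum, sum_add_distrib, sum_add_distrib, ← mul_sum, ← mul_sum]
  have g1 : (2 : ℝ) ^ (1 + ε) ≤ 4 := by
    calc (2 : ℝ) ^ (1 + ε) ≤ (2 : ℝ) ^ (2 : ℝ) :=
          Real.rpow_le_rpow_of_exponent_le (by norm_num) (by linarith)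
      _ = 4 := by norm_num
  have g2 : (2 : ℝ) ^ (1 / 3 + ε) ≤ 4 := by
    refine le_trans (Real.rpow_le_rpow_of_exponent_le (by norm_num) (by linarith)) g1
  have g3 : (2 : ℝ) ^ (2 / 3 + ε) ≤ 4 := by
    refine le_trans (Real.rpow_le_rpow_of_exponent_le (by norm_num) (by linarith)) g1
  have e1 : l ^ (-(1 + 2 * ε)) * δ ^ (3 / 2 - 2 * (1 + 2 * ε)) =
      l ^ (-(2 * ε)) * δ ^ (-(4 * ε)) * (l⁻¹ * δ ^ (-(1 / 2) : ℝ)) := by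
    rw [← Real.rpow_neg_one l, mul_mul_mul_comm, ← Real.rpow_add hl, ← Real.rpow_add hδ]
    congr 2 <;> ring
  have e2 : l ^ (-(1 / 3 + 2 * ε)) * δ ^ (3 / 2 - 2 * (1 / 3 + 2 * ε)) =
      l ^ (-(2 * ε)) * δ ^ (-(4 * ε)) * (l ^ (-(1 / 3) : ℝ) * δ ^ (5 / 6 : ℝ)) := by
    rw [mul_mul_mul_comm, ← Real.rpow_add hl, ← Real.rpow_add hδ]
    congr 2 <;> ring
  have e3 : l ^ (-(2 / 3 + 2 * ε)) * δ ^ (3 / 2 - 2 * (2 / 3 + 2 * ε)) =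
      l ^ (-(2 * ε)) * δ ^ (-(4 * ε)) * (l ^ (-(2 / 3) : ℝ) * δ ^ (1 / 6 : ℝ)) := by
    rw [mul_mul_mul_comm, ← Real.rpow_add hl, ← Real.rpow_add hδ]
    congr 2 <;> ring
  rw [e1] at s1
  rw [e2] at s2
  rw [e3] at s3
  set P : ℝ := l ^ (-(2 * ε)) * δ ^ (-(4 * ε)) with hP
  have hP0 : 0 ≤ P := by positivity
  have t1 : ∑ j ∈ range J, om δ 2 (l * 2 ^ j) * ((2 : ℝ) ^ (j + 1)) ^ (1 + ε) ≤
      4 * G * (P * (l⁻¹ * δ ^ (-(1 / 2) : ℝ))) := by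
    refine s1.trans ?_
    gcongr
  have t2 : ∑ j ∈ range J, om δ 2 (l * 2 ^ j) * ((2 : ℝ) ^ (j + 1)) ^ (1 / 3 + ε) ≤
      4 * G * (P * (l ^ (-(1 / 3) : ℝ) * δ ^ (5 / 6 : ℝ))) := by
    refine s2.trans ?_
    gcongr
  have t3 : ∑ j ∈ range J, om δ 2 (l * 2 ^ j) * ((2 : ℝ) ^ (j + 1)) ^ (2 / 3 + ε) ≤
      4 * G * (P * (l ^ (-(2 / 3) : ℝ) * δ ^ (1 / 6 : ℝ))) := by
    refine s3.trans ?_
    gcongr
  have hKeε : Ke ^ ε ≤ K ^ ε := Real.rpow_le_rpow hKe0.le hKeK hε.le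
  have hin : ∑ j ∈ range J, om δ 2 (l * 2 ^ j) * ((2 : ℝ) ^ (j + 1)) ^ (1 + ε) +
      Ke * ∑ j ∈ range J, om δ 2 (l * 2 ^ j) * ((2 : ℝ) ^ (j + 1)) ^ (1 / 3 + ε) +
      Ke ^ (2 / 3 : ℝ) * ∑ j ∈ range J, om δ 2 (l * 2 ^ j) * ((2 : ℝ) ^ (j + 1)) ^ (2 / 3 + ε) ≤
      4 * G * (P * (l⁻¹ * δ ^ (-(1 / 2) : ℝ))) +
          Ke * (4 * G * (P * (l ^ (-(1 / 3) : ℝ) * δ ^ (5 / 6 : ℝ)))) +
          Ke ^ (2 / 3 : ℝ) * (4 * G * (P * (l ^ (-(2 / 3) : ℝ) * δ ^ (1 / 6 : ℝ)))) :=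
    add_le_add (add_le_add t1 (mul_le_mul_of_nonneg_left t2 hKe0.le))
      (mul_le_mul_of_nonneg_left t3 (by positivity))
  have hpre : 0 ≤ C1 * Ke ^ ε * Sc := by positivity
  refine (mul_le_mul_of_nonneg_left hin hpre).trans ?_
  calc C1 * Ke ^ ε * Sc * (4 * G * (P * (l⁻¹ * δ ^ (-(1 / 2) : ℝ))) +
          Ke * (4 * G * (P * (l ^ (-(1 / 3) : ℝ) * δ ^ (5 / 6 : ℝ)))) +
          Ke ^ (2 / 3 : ℝ) * (4 * G * (P * (l ^ (-(2 / 3) : ℝ) * δ ^ (1 / 6 : ℝ)))))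
      ≤ C1 * K ^ ε * Sc * (4 * G * (P * (l⁻¹ * δ ^ (-(1 / 2) : ℝ))) +
          Ke * (4 * G * (P * (l ^ (-(1 / 3) : ℝ) * δ ^ (5 / 6 : ℝ)))) +
          Ke ^ (2 / 3 : ℝ) * (4 * G * (P * (l ^ (-(2 / 3) : ℝ) * δ ^ (1 / 6 : ℝ))))) := by
        gcongr
    _ = PsiF (C1 * (4 * G)) ε δ K c S X e l := by
        rw [PsiF, ← hKe, ← hSc, hP]; ring

end Vale.Agent.P006.FINE
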